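import Vale.Agent.P070.Club.Goals
import Vale.Agent.P070.ZFC.Sequence

/-!
A reflected vector state of a separable purely infinite algebra is excised.
-/

universe u

namespace Vale.Agent.P070.Club

open Filter Topology InnerProductSpace ComplexOrder

variable {H : Type u} [NormedAddCommGroup H] [InnerProductSpace ℂ H] [CompleteSpace H]

/-- An excising sequence of the subalgebra, seen in the big algebra. -/
lemma excised_coe {C : StarSubalgebra ℂ (Op H)} [IsClosed (C : Set (Op H))] {p : ℕ → C}
    {χ : C → ℂ} (h : ZFC.Excises p χ) : Excised C (fun n => (p n : Op H)) := by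
  classical
  refine ⟨fun y => if hy : y ∈ C then χ ⟨y, hy⟩ else 0,
    ⟨fun n => (p n).2, fun n => congrArg Subtype.val (h.1.star_eq n), congrArg Subtype.val h.1.zero,
      fun m n hmn => congrArg Subtype.val (h.1.mul_le hmn),
      fun n hn => h.1.ne_zero n (Subtype.ext hn)⟩, fun y hy => ?_⟩
  simp only [dif_pos hy]
  exact h.2 ⟨y, hy⟩

/-- A reflected vector state of a separable purely infinite algebra is excised. -/
theorem excisedVector : ExcisedVectorGoal.{u} := by
  intro H _ _ _ G _ _ _ C hC hsep hPI π ξ hξ hrefl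
  have : IsClosed (C : Set (Op H)) := hC
  let _ := CStarAlgebra.spectralOrder C
  have := CStarAlgebra.spectralOrderedRing C
  have hξ0 : ξ ≠ 0 := fun h => by simp [h] at hξ
  have : Nontrivial C := ⟨1, 0, fun h => hξ0 (by
    have := congrArg (fun c => π c ξ) h
    simpa using this)⟩
  by_cases hsc : ∀ x : C, ∃ z : ℂ, x = z • 1
  · have h1 : (1 : Op H) ≠ 0 := fun h => one_ne_zero (α := C) (Subtype.ext h)
    choose z hz using hsc
    classical
    refine ⟨fun _ => 1, ⟨fun y => if hy : y ∈ C then z ⟨y, hy⟩ else 0,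
      ⟨fun _ => one_mem C, fun _ => star_one _, rfl, fun _ _ _ => one_mul 1, fun _ => h1⟩,
      fun y hy => ?_⟩, fun n h => ?_⟩
    · simp only [one_mul, mul_one, dif_pos hy]
      have := congrArg Subtype.val (hz ⟨y, hy⟩)
      refine tendsto_const_nhds.congr fun n => ?_
      rw [eq_comm, norm_eq_zero, sub_eq_zero]
      exact this
    · rw [show (⟨1, h⟩ : C) = 1 from rfl, map_one, one_apply_eq_self]
  push Not at hsc
  have hPI' : ZFC.IsPI C := ⟨inferInstance, fun b hb => by
    obtain ⟨x, hx, h⟩ := hPI b b.2 (fun h => hb (Subtype.ext h))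
    refine ⟨⟨x, hx⟩, Subtype.ext ?_⟩
    show star ((b : Op H) * x) * ((b : Op H) * x) = 1
    rw [star_mul, ← h]
    simp only [mul_assoc]⟩
  have := hsep.separableSpace
  have hw : ∀ j m : ℕ, ∃ b : C, star b = b ∧ ‖b‖ ≤ 1 ∧ π b ξ = ξ ∧
      ‖b * (TopologicalSpace.denseSeq C j - ⟪ξ, π (TopologicalSpace.denseSeq C j) ξ⟫_ℂ • 1) * b‖
        ≤ 1 / (m + 1) := fun j m => hrefl (TopologicalSpace.denseSeq C j) _ (by positivity)
  choose b hbs hb1 hbξ hb using hw
  obtain ⟨p, hp, -⟩ := ZFC.exists_excised_vector (π := π) hPI' hsc hξ (StarAlgHom.id ℂ C)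
    Function.injective_id (TopologicalSpace.denseRange_denseSeq C)
    (fun j m => star (b j m) * b j m) fun j m => by
      refine ⟨star_mul_self_nonneg _, ?_, ?_, ?_⟩
      · refine (CStarAlgebra.norm_le_one_iff_of_nonneg _ (star_mul_self_nonneg _)).1 ?_
        rw [CStarRing.norm_star_mul_self]
        exact mul_le_one₀ (hb1 j m) (norm_nonneg _) (hb1 j m)
      · show π (star (b j m) * b j m) ξ = ξ
        rw [hbs, map_mul]
        show π (b j m) (π (b j m) ξ) = ξ
        rw [hbξ, hbξ]
      · show ‖star (b j m) * b j m * (TopologicalSpace.denseSeq C j -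
          ⟪ξ, π (TopologicalSpace.denseSeq C j) ξ⟫_ℂ • 1) * (star (b j m) * b j m)‖ ≤ _
        set y := TopologicalSpace.denseSeq C j - ⟪ξ, π (TopologicalSpace.denseSeq C j) ξ⟫_ℂ • 1
        set d := b j m with hd
        rw [hbs, show d * d * y * (d * d) = d * (d * y * d) * d by simp only [mul_assoc]]
        calc ‖d * (d * y * d) * d‖ ≤ ‖d‖ * ‖d * y * d‖ * ‖d‖ :=
              (norm_mul_le _ _).trans (mul_le_mul_of_nonneg_right (norm_mul_le _ _) (norm_nonneg _))
          _ ≤ 1 * (1 / (m + 1)) * 1 :=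
              mul_le_mul (mul_le_mul (hb1 j m) (hb j m) (norm_nonneg _) zero_le_one) (hb1 j m)
                (norm_nonneg _) (by positivity)
          _ = _ := by rw [one_mul, mul_one]
  exact ⟨fun n => (p n : Op H), excised_coe hp,
    fun n _ => hp.fixed_of_state π hξ (fun _ => rfl) n⟩

end Vale.Agent.P070.Club
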