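import Vale.Agent.P070.Club.Transit
import Vale.Agent.P070.Club.Proj
import Vale.Agent.P070.ZFC.Base.Exists

/-!
# The base node

A separable purely infinite algebra acting irreducibly with a cyclic vector; the functional is a
limit of averages of vector states along the words in two isometries with orthogonal ranges.
-/

namespace Vale.Agent.P070.Club

open Filter Topology ComplexOrder
open scoped InnerProductSpace

section Avg

variable {K : Type} [NormedAddCommGroup K] [InnerProductSpace ℂ K] [CompleteSpace K]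
variable (ξ : K) (s v : Op K)

private noncomputable def conjMap (w : Op K) : Op K →ₗ[ℂ] Op K :=
  (LinearMap.mulLeft ℂ (star w)).comp (LinearMap.mulRight ℂ w)

/-- The average of the vector functionals of the words of length `j` in `s` and `v`. -/
private noncomputable def avg : ℕ → (Op K →ₗ[ℂ] ℂ)
  | 0 => (innerSL ℂ ξ).toLinearMap ∘ₗ (ContinuousLinearMap.apply ℂ K ξ).toLinearMap
  | j + 1 => (2⁻¹ : ℂ) • (avg j ∘ₗ conjMap s + avg j ∘ₗ conjMap v)

private lemma avg_zero (T : Op K) : avg ξ s v 0 T = ⟪ξ, T ξ⟫_ℂ := rfl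

private lemma avg_succ (j : ℕ) (T : Op K) : avg ξ s v (j + 1) T =
    2⁻¹ * (avg ξ s v j (star s * T * s) + avg ξ s v j (star v * T * v)) := by
  simp [avg, conjMap, mul_assoc, mul_add]

variable {ξ s v}

private lemma norm_le_one_of_isometry {w : Op K} (h : star w * w = 1) : ‖w‖ ≤ 1 := by
  refine ContinuousLinearMap.opNorm_le_bound _ zero_le_one fun x => ?_
  rw [one_mul, ← sq_le_sq₀ (norm_nonneg _) (norm_nonneg _), ← inner_self_eq_norm_sq (𝕜 := ℂ),
    ← ContinuousLinearMap.adjoint_inner_right, ← inner_self_eq_norm_sq (𝕜 := ℂ) x]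
  exact le_of_eq (congrArg (fun T : Op K => RCLike.re ⟪x, T x⟫_ℂ) h)

private lemma norm_conj_le {w : Op K} (h : star w * w = 1) (T : Op K) :
    ‖star w * T * w‖ ≤ ‖T‖ := by
  have h1 := norm_le_one_of_isometry h
  calc ‖star w * T * w‖ ≤ ‖star w‖ * ‖T‖ * ‖w‖ := norm_mul₃_le
    _ ≤ 1 * ‖T‖ * 1 := by rw [norm_star]; gcongr
    _ = ‖T‖ := by ring

private lemma avg_one (hξ : ‖ξ‖ = 1) (hs : star s * s = 1) (hv : star v * v = 1) :
    ∀ j, avg ξ s v j 1 = 1
  | 0 => by simp [avg_zero, inner_self_eq_norm_sq_to_K, hξ]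
  | j + 1 => by
      rw [avg_succ, mul_one, hs, mul_one, hv, avg_one hξ hs hv j]
      norm_num

private lemma norm_avg (hξ : ‖ξ‖ = 1) (hs : star s * s = 1) (hv : star v * v = 1) :
    ∀ j T, ‖avg ξ s v j T‖ ≤ ‖T‖
  | 0, T => by
      rw [avg_zero]
      refine (norm_inner_le_norm _ _).trans ?_
      have := T.le_opNorm ξ
      rw [hξ] at this ⊢
      simpa using this
  | j + 1, T => by
      rw [avg_succ, norm_mul]
      have h1 := (norm_avg hξ hs hv j (star s * T * s)).trans (norm_conj_le hs T)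
      have h2 := (norm_avg hξ hs hv j (star v * T * v)).trans (norm_conj_le hv T)
      have h3 := norm_add_le (avg ξ s v j (star s * T * s)) (avg ξ s v j (star v * T * v))
      rw [show ‖(2⁻¹ : ℂ)‖ = 2⁻¹ by simp]
      linarith

private lemma avg_nonneg : ∀ j (x : Op K), 0 ≤ avg ξ s v j (star x * x)
  | 0, x => by
      rw [avg_zero]
      have : ⟪ξ, (star x * x) ξ⟫_ℂ = ((‖x ξ‖ : ℝ) : ℂ) ^ 2 := by
        rw [mul_apply_eq_comp, ContinuousLinearMap.star_eq_adjoint,
          ContinuousLinearMap.adjoint_inner_right]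
        exact inner_self_eq_norm_sq_to_K (x ξ)
      rw [this, ← Complex.ofReal_pow]
      exact Complex.zero_le_real.2 (sq_nonneg _)
  | j + 1, x => by
      rw [avg_succ]
      have h : ∀ w : Op K, 0 ≤ avg ξ s v j (star w * (star x * x) * w) := fun w => by
        have h := avg_nonneg j (x * w)
        rwa [star_mul, show star w * star x * (x * w) = star w * (star x * x) * w by
          simp only [mul_assoc]] at h
      exact mul_nonneg (by norm_num [Complex.le_def]) (add_nonneg (h s) (h v))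

private lemma bessel (hs : star s * s = 1) (hv : star v * v = 1) (ho : star s * v = 0) (u : K) :
    ‖star s u‖ ^ 2 + ‖star v u‖ ^ 2 ≤ ‖u‖ ^ 2 := by
  have h0 : ∀ {w : Op K}, star w * w = 1 → ∀ a, ⟪w a, w a⟫_ℂ = ⟪a, a⟫_ℂ := fun {w} hw a => by
    rw [← ContinuousLinearMap.adjoint_inner_right]
    exact congrArg (fun T : Op K => ⟪a, T a⟫_ℂ) hw
  have h1 : ∀ a b, ⟪s a, v b⟫_ℂ = 0 := fun a b => by
    rw [← ContinuousLinearMap.adjoint_inner_right]
    exact (congrArg (fun T : Op K => ⟪a, T b⟫_ℂ) ho).trans (inner_zero_right _)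
  have h2 : ∀ (w : Op K) (a : K), ⟪u, w a⟫_ℂ = ⟪star w u, a⟫_ℂ := fun w a =>
    (ContinuousLinearMap.adjoint_inner_left w a u).symm
  have hn := @norm_sub_sq ℂ _ _ _ _ u (s (star s u) + v (star v u))
  have hm := @norm_add_sq ℂ _ _ _ _ (s (star s u)) (v (star v u))
  rw [h1] at hm
  rw [inner_add_right, h2, h2] at hn
  have e1 : ‖s (star s u)‖ ^ 2 = ‖star s u‖ ^ 2 := by
    rw [← inner_self_eq_norm_sq (𝕜 := ℂ), h0 hs, inner_self_eq_norm_sq]
  have e2 : ‖v (star v u)‖ ^ 2 = ‖star v u‖ ^ 2 := by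
    rw [← inner_self_eq_norm_sq (𝕜 := ℂ), h0 hv, inner_self_eq_norm_sq]
  simp only [map_add, inner_self_eq_norm_sq, map_zero] at hn hm
  nlinarith [sq_nonneg ‖u - (s (star s u) + v (star v u))‖]

/-- The averages as sums over the words of a fixed length. -/
private lemma exists_words {A : StarSubalgebra ℂ (Op K)} (hsA : s ∈ A) (hvA : v ∈ A)
    (hs : star s * s = 1) (hv : star v * v = 1) (ho : star s * v = 0) :
    ∀ k : ℕ, ∃ (ι : Type) (_ : Fintype ι) (w : ι → Op K), (∀ i, w i ∈ A) ∧
      (∀ u, ∑ i, ‖star (w i) u‖ ^ 2 ≤ ‖u‖ ^ 2) ∧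
      ∀ j T, avg ξ s v (k + j) T = (2⁻¹ : ℂ) ^ k * ∑ i, avg ξ s v j (star (w i) * T * w i)
  | 0 => ⟨Unit, inferInstance, fun _ => 1, fun _ => one_mem A, fun u => by simp,
      fun j T => by simp⟩
  | k + 1 => by
      obtain ⟨ι, _, w, hw, hb, hk⟩ := exists_words hsA hvA hs hv ho k
      refine ⟨ι ⊕ ι, inferInstance, Sum.elim (fun i => s * w i) (fun i => v * w i), ?_, ?_, ?_⟩
      · rintro (i | i)
        · exact mul_mem hsA (hw i)
        · exact mul_mem hvA (hw i)
      · intro u
        simp only [Fintype.sum_sum_type, Sum.elim_inl, Sum.elim_inr, star_mul,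
          mul_apply_eq_comp]
        linarith [hb (star s u), hb (star v u), bessel hs hv ho u]
      · intro j T
        rw [show k + 1 + j = k + j + 1 by omega, avg_succ, hk, hk]
        simp only [Fintype.sum_sum_type, Sum.elim_inl, Sum.elim_inr, star_mul, mul_assoc]
        ring

/-- The averaged functional does not see an excised sequence. -/
private lemma exists_bound {A : StarSubalgebra ℂ (Op K)} (hξ : ‖ξ‖ = 1) (hsA : s ∈ A)
    (hvA : v ∈ A) (hs : star s * s = 1) (hv : star v * v = 1) (ho : star s * v = 0)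
    {p : ℕ → Op K} (hp : Excised A p) {x : Op K} (hx : x ∈ A) (k : ℕ) :
    ∀ᶠ m in atTop, ∀ j, k ≤ j →
      ‖avg ξ s v j (x * p m * star x)‖ ≤ (2⁻¹ : ℝ) ^ k * (‖x‖ ^ 2 + 1) := by
  obtain ⟨χ, hP, hχ⟩ := hp
  obtain ⟨ι, _, w, hw, hb, hk⟩ := exists_words (ξ := ξ) hsA hvA hs hv ho k
  set z : ι → Op K := fun i => star x * (w i * star (w i)) * x with hz
  have hzA : ∀ i, z i ∈ A := fun i =>
    mul_mem (mul_mem (star_mem hx) (mul_mem (hw i) (star_mem (hw i)))) hx
  have ht : Tendsto (fun m => 2 * ∑ i, ‖p m * z i * p m - χ (z i) • p m‖) atTop (𝓝 0) := by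
    simpa using (tendsto_finsetSum Finset.univ fun i _ => hχ (z i) (hzA i)).const_mul 2
  filter_upwards [ht.eventually_le_const zero_lt_one] with m hm j hj
  obtain ⟨i₀, rfl⟩ := Nat.exists_eq_add_of_le hj
  have hsp := hP.star_eq m
  have hpp := hP.mul_eq m m le_rfl
  have hpn : ‖p m‖ ≤ 1 := by
    have h := CStarRing.norm_star_mul_self (x := p m)
    rw [hsp, hpp] at h
    nlinarith [norm_nonneg (p m)]
  obtain ⟨u, hu⟩ : ∃ u, p m u ≠ 0 := by
    by_contra h
    exact hP.ne_zero m (ContinuousLinearMap.ext fun u => not_not.1 (not_exists.1 h u))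
  set η : K := (↑(‖p m u‖⁻¹) : ℂ) • p m u with hη
  have hη1 : ‖η‖ = 1 := by
    rw [hη, norm_smul, Complex.norm_real, norm_inv, norm_norm,
      inv_mul_cancel₀ (norm_ne_zero_iff.2 hu)]
  have hpη : p m η = η := by
    rw [hη, map_smul]
    exact congrArg (fun T : Op K => (↑(‖p m u‖⁻¹) : ℂ) • T u) hpp
  have key : ∀ i, ‖avg ξ s v i₀ (star (w i) * (x * p m * star x) * w i)‖ ≤
      ‖star (w i) (x η)‖ ^ 2 + 2 * ‖p m * z i * p m - χ (z i) • p m‖ := fun i => by
    set δ := ‖p m * z i * p m - χ (z i) • p m‖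
    refine (norm_avg hξ hs hv i₀ _).trans ?_
    have e : star (w i) * (x * p m * star x) * w i =
        star (p m * (star x * w i)) * (p m * (star x * w i)) := by
      simp only [star_mul, star_star, hsp, mul_assoc]
      rw [← mul_assoc (p m) (p m), hpp]
    have e' : p m * (star x * w i) * star (p m * (star x * w i)) = p m * z i * p m := by
      simp only [hz, star_mul, star_star, hsp, mul_assoc]
    rw [e, CStarRing.norm_star_mul_self, ← CStarRing.norm_self_mul_star, e']
    have h1 : ‖χ (z i)‖ ≤ ‖star (w i) (x η)‖ ^ 2 + δ := by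
      have h2 : ⟪η, (p m * z i * p m - χ (z i) • p m) η⟫_ℂ =
          ((‖star (w i) (x η)‖ : ℝ) : ℂ) ^ 2 - χ (z i) := by
        have h3 : ⟪η, p m (z i (p m η))⟫_ℂ = ⟪η, z i η⟫_ℂ := by
          rw [← ContinuousLinearMap.adjoint_inner_left, ← ContinuousLinearMap.star_eq_adjoint,
            hsp, hpη]
        simp only [sub_apply, mul_apply_eq_comp,
          smul_apply, inner_sub_right, inner_smul_right, h3]
        simp only [hpη, hz, mul_apply_eq_comp, inner_self_eq_norm_sq_to_K, hη1]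
        rw [ContinuousLinearMap.star_eq_adjoint x, ContinuousLinearMap.adjoint_inner_right,
          ← ContinuousLinearMap.adjoint_inner_left (w i), ← ContinuousLinearMap.star_eq_adjoint,
          inner_self_eq_norm_sq_to_K]
        norm_num
      have h4 : ‖((‖star (w i) (x η)‖ : ℝ) : ℂ) ^ 2 - χ (z i)‖ ≤ δ := by
        rw [← h2]
        refine (norm_inner_le_norm _ _).trans ?_
        rw [hη1, one_mul]
        exact ((p m * z i * p m - χ (z i) • p m).le_opNorm η).trans (by rw [hη1, mul_one])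
      have h5 := norm_le_norm_add_norm_sub' (χ (z i)) (((‖star (w i) (x η)‖ : ℝ) : ℂ) ^ 2)
      rw [norm_sub_rev] at h5
      rw [norm_pow, Complex.norm_real, norm_norm] at h5
      linarith
    have h6 := norm_le_norm_add_norm_sub' (p m * z i * p m) (χ (z i) • p m)
    rw [norm_smul] at h6
    nlinarith [norm_nonneg (χ (z i))]
  rw [hk, norm_mul, norm_pow, show ‖(2⁻¹ : ℂ)‖ = 2⁻¹ by simp]
  refine mul_le_mul_of_nonneg_left ((norm_sum_le _ _).trans ?_) (by positivity)
  refine (Finset.sum_le_sum fun i _ => key i).trans ?_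
  rw [Finset.sum_add_distrib, ← Finset.mul_sum]
  have h7 := x.le_opNorm η
  rw [hη1, mul_one] at h7
  linarith [hb (x η), pow_le_pow_left₀ (norm_nonneg _) h7 2]

/-- A diffuse state of all operators. -/
lemma exists_diffuse_state {A : StarSubalgebra ℂ (Op K)} (hξ : ‖ξ‖ = 1) (hsA : s ∈ A)
    (hvA : v ∈ A) (hs : star s * s = 1) (hv : star v * v = 1) (ho : star s * v = 0) :
    ∃ σ : Op K →ₗ[ℂ] ℂ, IsState σ ∧ Diffuse A σ := by
  set f : Filter ℕ := ↑(hyperfilter ℕ)
  have hf : f ≤ atTop := hyperfilter_le_cofinite.trans Nat.cofinite_eq_atTop.le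
  have hex : ∀ T, ∃ c, Tendsto (fun j => avg ξ s v j T) f (𝓝 c) := fun T => by
    obtain ⟨c, -, hc⟩ := (isCompact_closedBall (0 : ℂ) ‖T‖).ultrafilter_le_nhds
      ((hyperfilter ℕ).map fun j => avg ξ s v j T) (by
        rw [Ultrafilter.coe_map, le_principal_iff, mem_map]
        exact univ_mem' fun j => by simpa using norm_avg hξ hs hv j T)
    exact ⟨c, hc⟩
  choose c hc using hex
  let σ : Op K →ₗ[ℂ] ℂ :=
    { toFun := c
      map_add' := fun S T => tendsto_nhds_unique (hc (S + T)) (by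
        simpa using (hc S).add (hc T))
      map_smul' := fun r T => tendsto_nhds_unique (hc (r • T)) (by
        simpa using (hc T).const_mul r) }
  refine ⟨σ, ⟨tendsto_nhds_unique (hc 1) ?_, fun x => ?_⟩, fun p hp x hx => ?_⟩
  · simp [avg_one hξ hs hv]
  · exact ge_of_tendsto' (hc _) fun j => avg_nonneg j x
  · refine Metric.tendsto_nhds.2 fun ε hε => ?_
    obtain ⟨k, hk⟩ : ∃ k : ℕ, (2⁻¹ : ℝ) ^ k < ε / (‖x‖ ^ 2 + 1) :=
      exists_pow_lt_of_lt_one (by positivity) (by norm_num)
    filter_upwards [exists_bound hξ hsA hvA hs hv ho hp hx k] with m hm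
    rw [dist_zero_right]
    refine lt_of_le_of_lt ?_ ((lt_div_iff₀ (by positivity)).1 hk)
    exact le_of_tendsto (hc _).norm (hf ((eventually_ge_atTop k).mono fun j => hm j))

end Avg

section Seq

variable {K : Type} [NormedAddCommGroup K] [InnerProductSpace ℂ K] [CompleteSpace K]

/-- An excised sequence of an infinite dimensional purely infinite algebra has a strict excised
subsequence. -/
private lemma exists_strict_subseq {A : StarSubalgebra ℂ (Op K)} (hpi : IsPI A)
    (hinf : ¬ FiniteDimensional ℂ A) {p : ℕ → Op K} (hp : Excised A p) :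
    ∃ k : ℕ → ℕ, StrictMono k ∧ IsStrict (p ∘ k) ∧ Excised A (p ∘ k) := by
  obtain ⟨χ, hP, hχ⟩ := hp
  have hne : ∀ n, ∃ m, n < m ∧ p m ≠ p n := by
    intro n
    by_contra h
    push Not at h
    refine hinf ?_
    obtain ⟨y, hy, h1⟩ := hpi (p n) (hP.mem n) (hP.ne_zero n)
    rw [hP.star_eq, hP.mul_eq n n le_rfl] at h1
    have hr : ∀ z ∈ A, p n * z * p n = χ z • p n := fun z hz => by
      refine sub_eq_zero.1 (norm_eq_zero.1 (tendsto_nhds_unique (tendsto_const_nhds.congr'
        ((eventually_gt_atTop n).mono fun m hm => ?_)) (hχ z hz)))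
      simp only [h m hm]
    refine FiniteDimensional.of_surjective (LinearMap.toSpanSingleton ℂ A 1) fun a =>
      ⟨χ (y * a * star y), Subtype.ext ?_⟩
    show χ (y * a * star y) • (1 : Op K) = a
    have h2 := congrArg (fun T => star y * T * y) (hr _ (mul_mem (mul_mem hy a.2) (star_mem hy)))
    simp only [mul_smul_comm, smul_mul_assoc] at h2
    rw [h1] at h2
    rw [← h2, show star y * (p n * (y * a * star y) * p n) * y =
      (star y * p n * y) * a * (star y * p n * y) by simp only [mul_assoc], h1, one_mul, mul_one]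
  choose g hg hg' using hne
  let k : ℕ → ℕ := fun i => g^[i] 0
  have hs : ∀ i, k (i + 1) = g (k i) := fun i => Function.iterate_succ_apply' g i 0
  have hm : StrictMono k := strictMono_nat_of_lt_succ fun i => by rw [hs]; exact hg _
  refine ⟨k, hm, fun i => ?_, χ, ⟨fun i => hP.mem _, fun i => hP.star_eq _, hP.zero_eq,
    fun i j hij => hP.mul_eq _ _ (hm.monotone hij), fun i => hP.ne_zero _⟩, fun x hx =>
      (hχ x hx).comp hm.tendsto_atTop⟩
  show p (k i) ≠ p (k (i + 1))
  rw [hs]
  exact (hg' _).symm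

/-- The cyclic projection of a cyclic vector. -/
lemma cyc_eq_one {A : StarSubalgebra ℂ (Op K)} {ξ : K}
    (hd : DenseRange fun a : A => (a : Op K) ξ) : cyc A ξ = 1 := by
  have hmem : ∀ x, x ∈ cycSpace A ξ := fun x =>
    closure_mono (by rintro _ ⟨a, rfl⟩; exact Submodule.subset_span ⟨a, a.2, rfl⟩) (hd x)
  exact ContinuousLinearMap.ext fun x =>
    (Submodule.starProjection_eq_self_iff.2 (hmem x) :)

end Seq

/-- A good node exists. -/
theorem base : BaseGoal := by
  obtain ⟨K, _, _, _, A, ξ, hcl, hsep, ⟨-, hPI⟩, hinf, hξ, hirr, hd⟩ :=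
    Vale.Agent.P070.ZFC.Base.exists_base
  have hpi : IsPI A := fun a ha ha0 => by
    obtain ⟨x, hx⟩ := hPI ⟨a, ha⟩ fun h => ha0 (congrArg Subtype.val h)
    refine ⟨x, x.2, ?_⟩
    have h := congrArg Subtype.val hx
    simpa [mul_assoc] using h
  have hnt : Nontrivial K := ⟨⟨ξ, 0, fun h => by simp [h] at hξ⟩⟩
  let π : A →⋆ₐ[ℂ] Op K := A.subtype
  have hπ : Irred π := ⟨hnt, fun M hM hinv => hirr M hM fun a ha x hx => hinv ⟨a, ha⟩ x hx⟩
  obtain ⟨p, hp, hfix⟩ :=
    excisedVector K K A hcl hsep hpi π ξ hξ (reflects K K A hcl π hπ ξ hξ)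
  obtain ⟨k, hk, hstrict, hex⟩ := exists_strict_subseq hpi hinf hp
  obtain ⟨χ, hP, hχ⟩ := hex
  obtain ⟨x, hx, hx1⟩ := hpi _ (hP.mem 1) (hP.ne_zero 1)
  set r := (p ∘ k) 1
  set s := r * x with hs_def
  have hrr : r * r = r := hP.mul_eq 1 1 le_rfl
  have hr : star r = r := hP.star_eq 1
  have hs : star s * s = 1 := by
    rw [hs_def, star_mul]; simpa only [mul_assoc] using hx1
  have hq : (1 - s * star s) ≠ 0 := by
    intro h
    have h1 : s * star s = 1 := (sub_eq_zero.1 h).symm
    refine hstrict 0 ?_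
    have h2 : r * (s * star s) = s * star s := by rw [hs_def, ← mul_assoc, ← mul_assoc, hrr]
    rw [h1, mul_one] at h2
    exact (hP.zero_eq).trans h2.symm
  have hsA : s ∈ A := mul_mem (hP.mem 1) hx
  have hqA : 1 - s * star s ∈ A := sub_mem (one_mem A) (mul_mem hsA (star_mem hsA))
  obtain ⟨y, hy, hy1⟩ := hpi _ hqA hq
  set v := (1 - s * star s) * y with hv_def
  have hv : star v * v = 1 := by rw [hv_def, star_mul]; simpa only [mul_assoc] using hy1
  have ho : star s * v = 0 := by
    rw [hv_def, ← mul_assoc, mul_sub, mul_one, ← mul_assoc, hs, one_mul, sub_self, zero_mul]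
  obtain ⟨σ, hσ, hdiff⟩ :=
    exists_diffuse_state hξ hsA (mul_mem hqA hy) hs hv ho
  let N : Node :=
    { K := K
      A := A
      ξ₀ := ξ
      p₀ := p ∘ k
      C₀₀ := A
      σ := σ
      mem := fun C => C = A }
  refine ⟨N,
    { closed := hcl
      norm_xi := hξ
      p0_mem := hP.mem
      p0_fix := fun n => hfix (k n) (hP.mem n)
      p0_strict := hstrict
      p0_excised := ⟨χ, hP, hχ⟩
      base_mem := rfl
      base_le := fun C hC => ?_
      member := fun C hC => ?_
      cofinal := fun S _ hS => ⟨A, rfl, hS⟩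
      union := fun f _ hf => ?_
      σ_state := hσ
      σ_supp := ?_
      σ_diffuse := hdiff }⟩
  · rw [show C = A from hC]
  · rw [show C = A from hC]
    refine ⟨hcl, hsep, hpi, ?_, fun q hq => hq⟩
    rw [cyc_eq_one hd]
    exact ⟨star_one _, one_mul _, le_rfl, fun c _ => by simp, fun c _ h => by simpa using h,
      fun y hy => ⟨y, hy, by simp⟩⟩
  · show (⨆ i, f i).topologicalClosure = A
    have hA : ∀ i, f i = A := hf
    rw [iSup_congr hA, iSup_const]
    exact le_antisymm (StarSubalgebra.topologicalClosure_minimal le_rfl hcl)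
      (StarSubalgebra.le_topologicalClosure A)
  · show σ (cyc A ξ) = 1
    rw [cyc_eq_one hd]
    exact hσ.1

end Vale.Agent.P070.Club
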