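import Vale.Agent.P070.Club.Goals
import Vale.Agent.P070.ZFC.Tower.Hilb

/-!
Limit spaces of coherent families of nodes exist.
-/

namespace Vale.Agent.P070.Club

open Vale.Agent.P070.ZFC

variable {I : Type} [LinearOrder I] (S : Sys I)

/-- A node as a pointed Hilbert space. -/
noncomputable def Node.toH (N : Node) : Tower.HNode.{0} where
  K := N.K
  xi := N.ξ₀

/-- An embedding as a map of pointed Hilbert spaces. -/
noncomputable def Emb.toH {M N : Node} (e : Emb M N) : Tower.HMap M.toH N.toH where
  j := e.J
  lift := e.ι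
  inter := e.comm
  j_xi := e.xi

/-- The underlying system of Hilbert spaces. -/
noncomputable def Sys.toH : Tower.HSys.{0} I where
  N i := (S.N i).toH
  f i j h := (S.e i j h).toH
  f_self i := Tower.HMap.ext (LinearIsometry.ext (S.J_self i)) (StarAlgHom.ext (S.ι_self i))
  f_comp i j k h₁ h₂ := Tower.HMap.ext (LinearIsometry.ext (S.J_trans i j k h₁ h₂))
    (StarAlgHom.ext (S.ι_trans i j k h₁ h₂))

/-- The limit space of the family. -/
noncomputable def Sys.colim [Nonempty I] : Colim S where
  K := S.toH.lim.K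
  J i := (S.toH.toLim i).j
  ι i := (S.toH.toLim i).lift
  comm i := (S.toH.toLim i).inter
  J_compat i j h x := S.toH.leg_f h x
  ι_compat i j h T := by
    show ((S.toH.f i j h).comp (S.toH.toLim j)).lift T = (S.toH.toLim i).lift T
    rw [S.toH.toLim_comm h]
  dense := by
    refine (S.toH.dense_legs (Classical.arbitrary I)).mono ?_
    rintro _ ⟨i, -, x, rfl⟩
    exact Set.mem_iUnion.2 ⟨i, x, rfl⟩

/-- The distinguished vectors agree in the limit space. -/
lemma Sys.colim_xi [Nonempty I] (i j : I) :
    S.colim.J i (S.N i).ξ₀ = S.colim.J j (S.N j).ξ₀ :=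
  (S.toH.leg_xi i).trans (S.toH.leg_xi j).symm

/-- Module Colim. -/
theorem colim : ColimGoal := fun _ _ _ S => ⟨S.colim⟩

end Vale.Agent.P070.Club
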