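import Vale.Agent.P070.Club.Goals
import Vale.Agent.P070.ZFC.Witness

/-!
Irreducible representations reflect their vector states.
-/

universe u

namespace Vale.Agent.P070.Club

open InnerProductSpace

/-- Every vector state of an irreducible representation has witnesses. -/
theorem reflects : ReflectsGoal.{u} := by
  intro H _ _ _ G _ _ _ C hC π hπ ξ hξ x ε hε
  have : IsClosed (C : Set (Op H)) := hC
  let _ := CStarAlgebra.spectralOrder C
  have := CStarAlgebra.spectralOrderedRing C
  have := hπ.1
  have hir : IsIrreducibleRep (ZFC.nuRep π) := by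
    refine ⟨⟨1, ?_⟩, hπ.2⟩
    show π 1 ≠ 0
    rw [map_one]
    intro h
    obtain ⟨v, hv⟩ := exists_ne (0 : G)
    exact hv (by simpa using DFunLike.congr_fun h v)
  obtain ⟨a, ha0, ha1, haξ, hab⟩ := ZFC.exists_witness hir hξ x hε
  exact ⟨a, (IsSelfAdjoint.of_nonneg ha0).star_eq,
    (CStarAlgebra.norm_le_one_iff_of_nonneg a ha0).2 ha1, haξ, hab⟩

end Vale.Agent.P070.Club
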