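import Vale.Agent.P070.Club.Goals
import Vale.Agent.P070.Club.Transit
import Vale.Agent.P070.Club.Proj
import Vale.Agent.P070.ZFC.Dicho.Main

/-!
# Module Dicho: the dichotomy for compressing projections

A state supported by a compressing projection which sees an excised sequence of the large algebra
also sees an excised sequence of the small one, equivalent to it.
-/

noncomputable section

universe u

namespace Vale.Agent.P070.Club

open Filter Topology
open scoped InnerProductSpace ComplexOrder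

section

variable {H : Type u} [NormedAddCommGroup H] [InnerProductSpace ℂ H] [CompleteSpace H]
  {W : Op H} {C₀ C : StarSubalgebra ℂ (Op H)}

namespace DichoAux

/-- The elements of the small algebra have their norm at the compressing projection. -/
lemma norm_eq_mul (hW : Compresses W C₀ C) (hc : IsClosed (C₀ : Set (Op H))) {c : Op H}
    (hmem : c ∈ C₀) : ‖c * W‖ = ‖c‖ := by
  have : IsClosed (C₀ : Set (Op H)) := hc
  let _ : CStarAlgebra C₀ := StarSubalgebra.cstarAlgebra C₀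
  let f : C₀ →⋆ₙₐ[ℂ] Op H :=
    { toFun := fun a => (a : Op H) * W
      map_smul' := fun z a => smul_mul_assoc z (a : Op H) W
      map_zero' := zero_mul W
      map_add' := fun a b => add_mul (a : Op H) (b : Op H) W
      map_mul' := fun a b => by
        show (a : Op H) * b * W = (a : Op H) * W * ((b : Op H) * W)
        rw [mul_assoc (a : Op H) W, ← mul_assoc W, ← hW.comm b b.2, mul_assoc (b : Op H) W W,
          hW.idem, mul_assoc]
      map_star' := fun a => by
        show star (a : Op H) * W = star ((a : Op H) * W)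
        rw [star_mul, hW.star_eq, hW.comm _ (star_mem a.2)] }
  have hinj : Function.Injective f :=
    (injective_iff_map_eq_zero f).2 fun a ha => Subtype.ext (hW.inj a a.2 ha)
  exact NonUnitalStarAlgHom.norm_map f hinj ⟨c, hmem⟩

/-- The compression extends to the closure of the large algebra. -/
lemma compress_closure (hW : Compresses W C₀ C) (hc : IsClosed (C₀ : Set (Op H))) {y : Op H}
    (hy : y ∈ C.topologicalClosure) : ∃ c ∈ C₀, W * y * W = c * W := by
  have hy' : y ∈ closure (C : Set (Op H)) := hy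
  obtain ⟨s, hs, hlim⟩ := mem_closure_iff_seq_limit.1 hy'
  choose c hcm hceq using fun n => hW.compress (s n) (hs n)
  have hs' : CauchySeq fun n => c n * W := by
    simp only [← hceq]
    exact ((hlim.const_mul W).mul_const W).cauchySeq
  have hcau : CauchySeq c := by
    rw [Metric.cauchySeq_iff] at hs' ⊢
    intro ε hε
    obtain ⟨N, hN⟩ := hs' ε hε
    refine ⟨N, fun m hm n hn => ?_⟩
    have h := hN m hm n hn
    rw [dist_eq_norm] at h ⊢
    rwa [← sub_mul, norm_eq_mul hW hc (sub_mem (hcm m) (hcm n))] at h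
  obtain ⟨c', hc'⟩ := cauchySeq_tendsto_of_complete hcau
  refine ⟨c', hc.mem_of_tendsto hc' (Eventually.of_forall hcm), ?_⟩
  refine tendsto_nhds_unique ((hlim.const_mul W).mul_const W) ?_
  simp only [hceq]
  exact hc'.mul_const W

lemma mul_proj {B : Type u} [CStarAlgebra B] {C : StarSubalgebra ℂ B} {p : ℕ → B}
    (hp : ProjSeq C p) {m n : ℕ} (h : m ≤ n) : p m * p n = p n := by
  have := congrArg star (hp.mul_eq m n h)
  rwa [star_mul, hp.star_eq, hp.star_eq] at this

lemma norm_proj_le {B : Type u} [CStarAlgebra B] {C : StarSubalgebra ℂ B} {p : ℕ → B}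
    (hp : ProjSeq C p) (n : ℕ) : ‖p n‖ ≤ 1 := by
  rcases eq_or_ne (p n) 0 with h | h
  · simp [h]
  have h1 : ‖p n‖ * ‖p n‖ = ‖p n‖ := by
    rw [← CStarRing.norm_star_mul_self, hp.star_eq, hp.mul_eq n n le_rfl]
  exact le_of_eq (mul_right_cancel₀ (norm_ne_zero_iff.2 h) (h1.trans (one_mul _).symm))

lemma apply_adj {A G : Type*} [CStarAlgebra A] [NormedAddCommGroup G] [InnerProductSpace ℂ G]
    [CompleteSpace G] (π : A →⋆ₐ[ℂ] (G →L[ℂ] G)) (a : A) (x y : G) :
    ⟪x, π a y⟫_ℂ = ⟪π (star a) x, y⟫_ℂ :=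
  ZFC.Dicho.apply_adj π a x y

lemma apply_mul {A G : Type*} [CStarAlgebra A] [NormedAddCommGroup G] [InnerProductSpace ℂ G]
    [CompleteSpace G] (π : A →⋆ₐ[ℂ] (G →L[ℂ] G)) (a b : A) (x : G) :
    π a (π b x) = π (a * b) x :=
  ZFC.Dicho.apply_mul π a b x

end DichoAux

end

open DichoAux in
/-- The core of the dichotomy. -/
theorem dichoCore : DichoCoreGoal.{u} := by
  intro H _ _ _ W C₀ C hW hC₀ hsep hPI τ hτ hτW p hp z hz hnot
  obtain ⟨χ, hP, hexc⟩ := hp
  obtain ⟨hτ1, hτpos⟩ := hτ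
  have hst : ZFC.IsState (fun x : Op H => τ x) :=
    ⟨fun a b => map_add τ a b, fun c a => by rw [map_smul, smul_eq_mul], hτ1, hτpos⟩
  obtain ⟨G, _, _, _, ρ, Ω, hΩ, -⟩ := ZFC.Dicho.exists_gns hst
  -- the state is carried by `W`
  have hWΩ : ρ W Ω = Ω := by
    refine sub_eq_zero.1 (inner_self_eq_zero (𝕜 := ℂ).1 ?_)
    have e : ρ W Ω - Ω = ρ (W - 1) Ω := by simp
    have e2 : star (W - 1) * (W - 1) = 1 - W := by
      rw [star_sub, star_one, hW.star_eq, sub_mul, mul_sub, hW.idem, mul_one, one_mul]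
      abel
    rw [e]
    nth_rw 1 [← star_star (W - 1)]
    rw [← apply_adj, apply_mul, e2, hΩ, map_sub, hτ1, hτW, sub_self]
  -- closed algebras
  set C' := C.topologicalClosure
  have hC'c : IsClosed (C' : Set (Op H)) := C.isClosed_topologicalClosure
  have hCC' : C ≤ C' := C.le_topologicalClosure
  have h0 : C₀ ≤ C' := hW.le.trans hCC'
  let _ : CStarAlgebra C₀ := @StarSubalgebra.cstarAlgebra _ _ _ _ _ _ _ C₀ hC₀
  let _ : CStarAlgebra C' := @StarSubalgebra.cstarAlgebra _ _ _ _ _ _ _ C' hC'c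
  let j : C₀ →⋆ₐ[ℂ] C' := StarSubalgebra.inclusion h0
  let ρ' : C' →⋆ₐ[ℂ] (G →L[ℂ] G) := ρ.comp C'.subtype
  choose Φ hΦm hΦ using fun y : C' => compress_closure hW hC₀ y.2
  let Φ' : C' → C₀ := fun y => ⟨Φ y, hΦm y⟩
  -- the vector fixed by the sequence
  set v : ℕ → G := fun n => ρ (p n) (ρ (star z) Ω) with hv
  have hvv : ∀ m n, m ≤ n → ⟪v m, v n⟫_ℂ = τ (z * p n * star z) := fun m n hmn => by
    show ⟪ρ (p m) (ρ (star z) Ω), ρ (p n) (ρ (star z) Ω)⟫_ℂ = τ (z * p n * star z)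
    rw [← hΩ, apply_mul, apply_mul, apply_adj ρ (p n * star z), apply_mul,
      apply_adj ρ (z * p n * star z)]
    congr 2
    simp only [star_mul, star_star, hP.star_eq]
    rw [mul_assoc z, ← mul_assoc (p n), hP.mul_eq m n hmn]
  set a : ℕ → ℝ := fun n => ‖v n‖ ^ 2 with ha
  have hva : ∀ n, τ (z * p n * star z) = (a n : ℂ) := fun n => by
    rw [← hvv n n le_rfl, inner_self_eq_norm_sq_to_K, ha]
    norm_cast
  have hdiff : ∀ m n, m ≤ n → ‖v m - v n‖ ^ 2 = a m - a n := fun m n hmn => by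
    rw [norm_sub_sq (𝕜 := ℂ), hvv m n hmn, hva, RCLike.re_to_complex, Complex.ofReal_re, ha]
    ring
  have hanti : Antitone a := fun m n hmn => by nlinarith [hdiff m n hmn, sq_nonneg ‖v m - v n‖]
  have hbdd : BddBelow (Set.range a) := ⟨0, by rintro _ ⟨n, rfl⟩; exact sq_nonneg _⟩
  have hlim := tendsto_atTop_ciInf hanti hbdd
  have hcau : CauchySeq v := by
    refine Metric.cauchySeq_iff'.2 fun ε hε => ?_
    obtain ⟨N, hN⟩ := Metric.tendsto_atTop.1 hlim (ε ^ 2) (by positivity)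
    refine ⟨N, fun n hn => ?_⟩
    rw [dist_eq_norm, norm_sub_rev]
    refine lt_of_pow_lt_pow_left₀ 2 hε.le ?_
    rw [hdiff N n hn]
    linarith [(abs_lt.1 (hN N le_rfl)).2, ciInf_le hbdd n]
  obtain ⟨u, hu⟩ := cauchySeq_tendsto_of_complete hcau
  have hu0 : u ≠ 0 := by
    intro h
    refine hnot ?_
    have h1 : Tendsto a atTop (𝓝 0) := by simpa [h, ha] using hu.norm.pow 2
    simp only [hva]
    simpa [Function.comp_def] using (Complex.continuous_ofReal.tendsto _).comp h1
  set w : G := (‖u‖⁻¹ : ℂ) • u with hw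
  have hw1 : ‖w‖ = 1 := norm_smul_inv_norm hu0
  have hufix : ∀ n, ρ (p n) u = u := fun n => by
    refine tendsto_nhds_unique (((ρ (p n)).continuous.tendsto u).comp hu) (hu.congr' ?_)
    filter_upwards [eventually_ge_atTop n] with m hm
    simp only [hv, Function.comp_apply]
    rw [apply_mul ρ (p n), mul_proj hP hm]
  have hwfix : ∀ n, ρ (p n) w = w := fun n => by rw [hw, map_smul, hufix]
  have hwΩ : w ∈ ZFC.Dicho.orbitCl ρ' Ω := by
    rw [hw]
    refine Submodule.smul_mem _ _ ?_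
    refine (ZFC.Dicho.isClosed_orbitCl Ω).mem_of_tendsto hu (Eventually.of_forall fun n => ?_)
    have := ZFC.Dicho.apply_mem_orbitCl (π := ρ') Ω
      ⟨p n * star z, mul_mem (hCC' (hP.mem n)) (star_mem (hCC' hz))⟩
    rwa [show ρ' ⟨p n * star z, _⟩ Ω = v n from (apply_mul ρ _ _ Ω).symm] at this
  clear_value w
  -- excision in the closure
  set η : C' → ℂ := fun x => ⟪w, ρ' x w⟫_ℂ with hη
  have hηn : ∀ x : C', ‖η x‖ ≤ ‖(x : Op H)‖ := fun x => by
    refine (norm_inner_le_norm _ _).trans ?_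
    rw [hw1, one_mul]
    refine ((ρ (x : Op H)).le_opNorm w).trans ?_
    rw [hw1, mul_one]
    exact NonUnitalStarAlgHom.norm_apply_le ρ _
  have hηC : ∀ (x : Op H) (hx : x ∈ C), η ⟨x, hCC' hx⟩ = χ x := by
    intro x hx
    refine sub_eq_zero.1 (norm_le_zero_iff.1 (ge_of_tendsto (hexc x hx)
      (Eventually.of_forall fun n => ?_)))
    have e : η ⟨x, hCC' hx⟩ - χ x = ⟪w, ρ (p n * x * p n - χ x • p n) w⟫_ℂ := by
      rw [map_sub, map_smul, sub_apply, smul_apply, inner_sub_right, inner_smul_right, hwfix,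
        ← apply_mul, hwfix, ← apply_mul, apply_adj ρ (p n), hP.star_eq, hwfix,
        inner_self_eq_norm_sq_to_K, hw1]
      simp [hη, ρ']
    rw [e]
    refine (norm_inner_le_norm _ _).trans ?_
    rw [hw1, one_mul]
    refine ((ρ _).le_opNorm w).trans ?_
    rw [hw1, mul_one]
    exact NonUnitalStarAlgHom.norm_apply_le ρ _
  let p' : ℕ → C' := fun n => ⟨p n, hCC' (hP.mem n)⟩
  have hexc' : ∀ x : C', Tendsto (fun n => ‖p' n * x * p' n - η x • p' n‖) atTop (𝓝 0) := by
    intro x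
    rw [Metric.tendsto_atTop]
    intro ε hε
    obtain ⟨y, hy, hxy⟩ := Metric.mem_closure_iff.1 (x.2 : (x : Op H) ∈ closure (C : Set (Op H)))
      (ε / 4) (by positivity)
    rw [dist_eq_norm] at hxy
    obtain ⟨N, hN⟩ := Metric.tendsto_atTop.1 (hexc y hy) (ε / 4) (by positivity)
    refine ⟨N, fun n hn => ?_⟩
    have h1 := hN n hn
    rw [dist_zero_right, norm_norm] at h1 ⊢
    show ‖p n * (x : Op H) * p n - η x • p n‖ < ε
    have e : p n * (x : Op H) * p n - η x • p n = p n * ((x : Op H) - y) * p n +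
        (p n * y * p n - χ y • p n) + (χ y - η x) • p n := by
      rw [mul_sub, sub_mul, sub_smul]; abel
    rw [e]
    refine lt_of_le_of_lt (norm_add₃_le ..) ?_
    have q1 : ‖p n * ((x : Op H) - y) * p n‖ ≤ ε / 4 := by
      refine (norm_mul_le _ _).trans ((mul_le_of_le_one_right (norm_nonneg _) (norm_proj_le hP n)).trans
        ((norm_mul_le _ _).trans ?_))
      exact (mul_le_of_le_one_left (norm_nonneg _) (norm_proj_le hP n)).trans hxy.le
    have q2 : ‖(χ y - η x) • p n‖ ≤ ε / 4 := by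
      rw [norm_smul]
      refine (mul_le_of_le_one_right (norm_nonneg _) (norm_proj_le hP n)).trans ?_
      rw [← hηC y hy, norm_sub_rev]
      have e2 : η x - η ⟨y, hCC' hy⟩ = η (x - ⟨y, hCC' hy⟩) := by
        simp [hη, map_sub]
      rw [e2]
      exact (hηn _).trans hxy.le
    linarith
  -- the pinching argument
  obtain ⟨E, E', hEL, hEi, -, -, hmeet⟩ := ZFC.Dicho.exists_irrInv j Φ' ρ' (Ω := Ω) (w := w)
    (fun y d e => by
      show ⟪ρ (d : Op H) Ω, ρ (y : Op H) (ρ (e : Op H) Ω)⟫_ℂ =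
        ⟪ρ (d : Op H) Ω, ρ (Φ y) (ρ (e : Op H) Ω)⟫_ℂ
      have hd : ∀ b ∈ C₀, ρ W (ρ b Ω) = ρ b Ω := fun b hb => by
        rw [apply_mul, ← hW.comm b hb, ← apply_mul, hWΩ]
      calc ⟪ρ (d : Op H) Ω, ρ (y : Op H) (ρ (e : Op H) Ω)⟫_ℂ
          = ⟪ρ W (ρ (d : Op H) Ω), ρ (y : Op H) (ρ W (ρ (e : Op H) Ω))⟫_ℂ := by
            rw [hd _ d.2, hd _ e.2]
        _ = ⟪ρ (d : Op H) Ω, ρ (W * (y : Op H) * W) (ρ (e : Op H) Ω)⟫_ℂ := by
            rw [← apply_mul ρ (W * (y : Op H)) W, ← apply_mul ρ W (y : Op H), apply_adj ρ W,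
              hW.star_eq]
        _ = ⟪ρ (d : Op H) Ω, ρ (Φ y) (ρ (e : Op H) Ω)⟫_ℂ := by
            rw [hΦ, ← apply_mul ρ (Φ y) W, hd _ e.2])
    hwΩ (p := p') (η := η) (fun n => Subtype.ext (hP.star_eq n)) hwfix hexc' hw1
  -- an excised sequence of the small algebra fixing a vector of the piece
  have : CompleteSpace E := hEi.closed.completeSpace_coe
  let π : C₀ →⋆ₐ[ℂ] Op E := ZFC.Dicho.restrict (ρ'.comp j) E hEi.inv
  obtain ⟨e₀, he₀, he₀0⟩ := E.ne_bot_iff.1 hEi.ne_bot
  have hirr : Irred π := by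
    refine ⟨⟨⟨⟨e₀, he₀⟩, 0, fun h => he₀0 (congrArg Subtype.val h)⟩⟩, fun N hN hNi => ?_⟩
    have hNc : IsClosed (N.map E.subtype : Set G) := by
      rw [Submodule.map_coe]
      exact hEi.closed.isClosedEmbedding_subtypeVal.isClosedMap _ hN
    rcases hEi.minimal (N.map E.subtype) (Submodule.map_subtype_le E N) hNc
        (by rintro d _ ⟨x, hx, rfl⟩; exact ⟨π d x, hNi d x hx, rfl⟩) with h | h
    · exact Or.inl (Submodule.map_injective_of_injective E.injective_subtype
        (by rw [h, Submodule.map_bot]))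
    · exact Or.inr (Submodule.map_injective_of_injective E.injective_subtype
        (by rw [h, Submodule.map_top, Submodule.range_subtype]))
  set e : E := (‖(⟨e₀, he₀⟩ : E)‖⁻¹ : ℂ) • ⟨e₀, he₀⟩
  have he1 : ‖e‖ = 1 := norm_smul_inv_norm fun h => he₀0 (congrArg Subtype.val h)
  obtain ⟨q, hq, hqfix⟩ :=
    excisedVector H E C₀ hC₀ hsep hPI π e he1 (reflects H E C₀ hC₀ π hirr e he1)
  obtain ⟨χq, hQ, hqexc⟩ := hq
  have hfix : ∀ n, ρ (q n) (e : G) = e := fun n => congrArg Subtype.val (hqfix n (hQ.mem n))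
  have he0' : (e : G) ≠ 0 := by
    intro h
    have h' : ‖(e : G)‖ = 1 := he1
    rw [h, norm_zero] at h'
    exact zero_ne_one h'
  refine ⟨q, ⟨χq, hQ, hqexc⟩, fun hI => ?_, ?_⟩
  · obtain ⟨m, hm, hme⟩ := hmeet e e.2 he0'
    refine hme ?_
    rw [ZFC.Dicho.orbitCl, ← SetLike.mem_coe, Submodule.topologicalClosure_coe] at hm
    refine closure_minimal (t := {m | ⟪m, (e : G)⟫_ℂ = 0}) ?_
      (isClosed_eq (by fun_prop) continuous_const) hm
    rintro _ ⟨x, rfl⟩
    show ⟪ρ (x : Op H) w, (e : G)⟫_ℂ = 0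
    have hall : ∀ y ∈ C, ⟪ρ y w, (e : G)⟫_ℂ = 0 := by
      intro y hy
      refine norm_le_zero_iff.1 (ge_of_tendsto (hI (star y) (star_mem hy))
        (Eventually.of_forall fun n => ?_))
      rw [← hfix n, ← hwfix n, apply_mul, apply_adj ρ (q n), hQ.star_eq, apply_mul]
      refine (norm_inner_le_norm _ _).trans ?_
      rw [show ‖(e : G)‖ = 1 from he1, mul_one]
      refine ((ρ _).le_opNorm w).trans ?_
      rw [hw1, mul_one]
      refine (NonUnitalStarAlgHom.norm_apply_le ρ _).trans (le_of_eq ?_)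
      rw [← norm_star, star_mul, star_mul, hQ.star_eq, hP.star_eq, mul_assoc]
    exact closure_minimal (t := {y : Op H | ⟪ρ y w, (e : G)⟫_ℂ = 0}) hall
      (isClosed_eq (((ContinuousLinearMap.apply ℂ G w).continuous.comp
        (map_continuous ρ)).inner continuous_const) continuous_const)
      (x.2 : (x : Op H) ∈ closure (C : Set (Op H)))
  · by_contra hcon
    push Not at hcon
    have heL := hEL e.2
    refine he0' (inner_self_eq_zero (𝕜 := ℂ).1 ?_)
    rw [ZFC.Dicho.orbitCl, ← SetLike.mem_coe, Submodule.topologicalClosure_coe] at heL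
    refine closure_minimal (t := {m | ⟪m, (e : G)⟫_ℂ = 0}) ?_
      (isClosed_eq (by fun_prop) continuous_const) heL
    rintro _ ⟨d, rfl⟩
    show ⟪ρ (d : Op H) Ω, (e : G)⟫_ℂ = 0
    have hle : ∀ n, ‖⟪ρ (d : Op H) Ω, (e : G)⟫_ℂ‖ ^ 2 ≤
        ‖τ (star (d : Op H) * q n * star (star (d : Op H)))‖ := by
      intro n
      rw [← hfix n, apply_adj ρ (q n), hQ.star_eq, apply_mul]
      refine (pow_le_pow_left₀ (norm_nonneg _) (norm_inner_le_norm _ _) 2).trans ?_
      rw [show ‖(e : G)‖ = 1 from he1, mul_one, star_star]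
      refine le_of_eq ?_
      have e2 : star (d : Op H) * q n * (d : Op H) =
          star (q n * (d : Op H)) * (q n * (d : Op H)) := by
        conv_rhs => rw [star_mul, hQ.star_eq, mul_assoc, ← mul_assoc (q n), hQ.mul_eq n n le_rfl,
          ← mul_assoc]
      rw [e2, ← hΩ, ← apply_mul ρ (star (q n * (d : Op H))) (q n * (d : Op H)) Ω,
        apply_adj ρ (star (q n * (d : Op H))), star_star,
        inner_self_eq_norm_sq_to_K]
      simp
    have hlim0 := (hcon (star (d : Op H)) (star_mem d.2)).norm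
    rw [norm_zero] at hlim0
    refine norm_eq_zero.1 ?_
    nlinarith [ge_of_tendsto hlim0 (Eventually.of_forall hle),
      norm_nonneg (⟪ρ (d : Op H) Ω, (e : G)⟫_ℂ)]

open DichoAux in
/-- The dichotomy for an excised sequence under a compression. -/
theorem dichotomy : DichotomyGoal.{u} := by
  intro H _ _ _ W C₀ C hW hC₀ hsep hPI p hp
  refine or_iff_not_imp_left.2 fun hne => ?_
  push Not at hne
  obtain ⟨z, hz, hnot⟩ := hne
  obtain ⟨χ, hP, hexc⟩ := id hp
  have hanti : ∀ m n, m ≤ n → ∀ v : H, ‖p n v‖ ≤ ‖p m v‖ := fun m n h v => by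
    have e : p n v = p n (p m v) := by
      rw [← mul_apply_eq_comp, hP.mul_eq m n h]
    rw [e]
    exact ((p n).le_opNorm _).trans (mul_le_of_le_one_left (norm_nonneg _) (norm_proj_le hP n))
  have hnanti : ∀ m n, m ≤ n → ‖W * z * p n‖ ≤ ‖W * z * p m‖ := fun m n h => by
    rw [← mul_proj hP h, ← mul_assoc]
    exact (norm_mul_le _ _).trans (mul_le_of_le_one_right (norm_nonneg _) (norm_proj_le hP n))
  obtain ⟨δ, hδ, hlow⟩ : ∃ δ : ℝ, 0 < δ ∧ ∀ n, δ ≤ ‖W * z * p n‖ := by
    by_contra h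
    push Not at h
    refine hnot (Metric.tendsto_atTop.2 fun ε hε => ?_)
    obtain ⟨N, hN⟩ := h ε hε
    exact ⟨N, fun n hn => by
      rw [dist_zero_right, norm_norm]
      exact lt_of_le_of_lt (hnanti N n hn) hN⟩
  -- unit vectors carried by `W`
  have hvec : ∀ n, ∃ v : H, ‖v‖ = 1 ∧ W v = v ∧ δ / 2 ≤ ‖p n (star z v)‖ := by
    intro n
    have h1 : δ ≤ ‖p n * (star z * W)‖ := by
      have h := hlow n
      rwa [← norm_star, star_mul, star_mul, hW.star_eq, hP.star_eq] at h
    obtain ⟨x, hx1, hx⟩ : ∃ x : H, ‖x‖ ≤ 1 ∧ δ / 2 < ‖(p n * (star z * W)) x‖ := by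
      by_contra h
      push Not at h
      have h2 : ‖p n * (star z * W)‖ ≤ δ / 2 := by
        refine ContinuousLinearMap.opNorm_le_of_unit_norm (by positivity) fun x hx => h x hx.le
      linarith
    have hWx : ‖W x‖ ≤ 1 := by
      have hW1 : ‖W‖ ≤ 1 := by
        rcases eq_or_ne W 0 with h | h
        · simp [h]
        have h' : ‖W‖ * ‖W‖ = ‖W‖ := by
          rw [← CStarRing.norm_star_mul_self, hW.star_eq, hW.idem]
        exact le_of_eq (mul_right_cancel₀ (norm_ne_zero_iff.2 h) (h'.trans (one_mul _).symm))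
      exact (W.le_opNorm x).trans (mul_le_one₀ hW1 (norm_nonneg _) hx1)
    have hWx0 : W x ≠ 0 := fun h => by
      have hzero : (p n * (star z * W)) x = 0 := by
        show p n (star z (W x)) = 0
        rw [h, map_zero, map_zero]
      rw [hzero, norm_zero] at hx
      linarith
    refine ⟨(‖W x‖⁻¹ : ℂ) • W x, norm_smul_inv_norm hWx0, ?_, ?_⟩
    · rw [map_smul, ← mul_apply_eq_comp, hW.idem]
    · rw [map_smul, map_smul, norm_smul, norm_inv, Complex.norm_real, norm_norm]
      refine hx.le.trans ?_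
      show ‖p n (star z (W x))‖ ≤ _
      exact le_mul_of_one_le_left (norm_nonneg _)
        ((one_le_inv₀ (norm_pos_iff.2 hWx0)).2 hWx)
  choose v hv1 hvW hvp using hvec
  -- their limit state
  set F : ℕ → Op H → ℂ := fun n T => ⟪v n, T (v n)⟫_ℂ
  have hF : ∀ n, ZFC.IsState (F n) := fun n => by
    refine ⟨fun a b => by simp [F], fun c a => by simp [F], ?_,
      fun a => ?_⟩
    · show ⟪v n, v n⟫_ℂ = 1
      rw [inner_self_eq_norm_sq_to_K, hv1]; simp
    · show 0 ≤ ⟪v n, (star a * a) (v n)⟫_ℂ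
      rw [mul_apply_eq_comp, ContinuousLinearMap.star_eq_adjoint,
        ContinuousLinearMap.adjoint_inner_right, inner_self_eq_norm_sq_to_K]
      exact pow_nonneg (RCLike.ofReal_nonneg.2 (norm_nonneg _)) 2
  obtain ⟨f, hf, hU⟩ := (ZFC.isCompact_states (A := Op H)).ultrafilter_le_nhds
    ((Ultrafilter.of (atTop : Filter ℕ)).map F)
    (by
      rw [Ultrafilter.coe_map, le_principal_iff, mem_map]
      exact Eventually.of_forall hF)
  have hpt : ∀ T : Op H, Tendsto (fun n => F n T) (Ultrafilter.of (atTop : Filter ℕ)) (𝓝 (f T)) :=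
    fun T => ((continuous_apply T).tendsto f).comp hU
  let τ : Op H →ₗ[ℂ] ℂ := hf.toLinearMap
  have hτW : τ W = 1 := by
    refine tendsto_nhds_unique (hpt W) (tendsto_const_nhds.congr fun n => ?_)
    show (1 : ℂ) = ⟪v n, W (v n)⟫_ℂ
    rw [hvW, inner_self_eq_norm_sq_to_K, hv1]; simp
  have hτlow : ∀ m, δ ^ 2 / 4 ≤ (τ (z * p m * star z)).re := by
    intro m
    refine ge_of_tendsto ((Complex.continuous_re.tendsto _).comp (hpt _)) ?_
    have hmem : Set.Ici m ∈ (Ultrafilter.of (atTop : Filter ℕ) : Filter ℕ) :=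
      Ultrafilter.of_le _ (Ici_mem_atTop m)
    filter_upwards [hmem] with n hn
    show δ ^ 2 / 4 ≤ (⟪v n, (z * p m * star z) (v n)⟫_ℂ).re
    have e : ⟪v n, (z * p m * star z) (v n)⟫_ℂ = ((‖p m (star z (v n))‖ ^ 2 : ℝ) : ℂ) := by
      show ⟪v n, z (p m (star z (v n)))⟫_ℂ = _
      conv_lhs => rw [← hP.mul_eq m m le_rfl]
      rw [mul_apply_eq_comp, ← ContinuousLinearMap.adjoint_inner_left z,
        ← ContinuousLinearMap.star_eq_adjoint]
      nth_rw 1 [← hP.star_eq m]
      rw [ContinuousLinearMap.star_eq_adjoint (p m), ContinuousLinearMap.adjoint_inner_right,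
        inner_self_eq_norm_sq_to_K]
      norm_cast
    rw [e, Complex.ofReal_re, show δ ^ 2 / 4 = (δ / 2) ^ 2 by ring]
    exact pow_le_pow_left₀ (by positivity) ((hvp n).trans (hanti m n hn _)) 2
  obtain ⟨q, hq, hqp, -⟩ := dichoCore H W C₀ C hW hC₀ hsep hPI τ ⟨hf.map_one, hf.nonneg⟩
    hτW p hp z hz (fun hlim => by
      have h := ge_of_tendsto ((Complex.continuous_re.tendsto _).comp hlim)
        (Eventually.of_forall hτlow)
      simp at h
      nlinarith)
  exact ⟨q, hq, hqp⟩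

end Vale.Agent.P070.Club
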