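import Vale.Agent.P070.Club.Goals
import Vale.Agent.P070.ZFC.Dicho.Main

/-!
# Edge data of one step

Every good node carries a maximal family of pairwise inequivalent strict excised sequences, with
diffuse finite fibres and supported infinite fibres.
-/

namespace Vale.Agent.P070.Club.Edges

open Filter Topology ComplexOrder

section General

variable {H : Type} [NormedAddCommGroup H] [InnerProductSpace ℂ H] [CompleteSpace H]
  {C : StarSubalgebra ℂ (Op H)} {p q : ℕ → Op H}

lemma le_mul (hp : ProjSeq C p) {m n : ℕ} (h : m ≤ n) : p m * p n = p n := by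
  have := congrArg star (hp.mul_eq m n h)
  rwa [star_mul, hp.star_eq, hp.star_eq] at this

lemma idem (hp : ProjSeq C p) (n : ℕ) : p n * p n = p n :=
  hp.mul_eq n n le_rfl

lemma isStarProjection (hp : ProjSeq C p) (n : ℕ) : IsStarProjection (p n) :=
  ⟨idem hp n, hp.star_eq n⟩

lemma norm_proj (hp : ProjSeq C p) (n : ℕ) : ‖p n‖ = 1 := by
  have h := CStarRing.norm_star_mul_self (x := p n)
  rw [hp.star_eq, idem hp] at h
  exact mul_left_cancel₀ (norm_ne_zero_iff.2 (hp.ne_zero n)) (h.symm.trans (mul_one _).symm)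

lemma not_inequiv_self (hp : ProjSeq C p) : ¬ Inequiv C p p := fun h => by
  have h1 := h 1 C.one_mem
  simp only [mul_one, idem hp, norm_proj hp] at h1
  exact one_ne_zero (tendsto_nhds_unique tendsto_const_nhds h1)

lemma inequiv_symm (hp : ProjSeq C p) (hq : ProjSeq C q) (h : Inequiv C p q) : Inequiv C q p :=
  fun x hx => by
    refine (h (star x) (star_mem hx)).congr fun n => ?_
    rw [← norm_star, star_mul, star_mul, star_star, hp.star_eq, hq.star_eq, mul_assoc]

lemma inequiv_subseq (hp : ProjSeq C p) {k : ℕ → ℕ} (hk : ∀ n, n ≤ k n) (h : Inequiv C p q) :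
    Inequiv C (fun n => p (k n)) q := by
  intro x hx
  refine squeeze_zero (fun n => norm_nonneg _) (fun n => ?_) (h x hx)
  show ‖q n * x * p (k n)‖ ≤ ‖q n * x * p n‖
  rw [← le_mul hp (hk n), ← mul_assoc]
  refine (norm_mul_le _ _).trans ?_
  rw [norm_proj hp, mul_one]

/-- In a purely infinite algebra containing two different projections of a sequence, excised
sequences are not stationary, hence have strict subsequences. -/
lemma exists_strict (hC : IsPI C) (he : Excised C p) {p' : ℕ → Op H} (hp' : ProjSeq C p')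
    (hne : p' 0 ≠ p' 1) :
    ∃ k : ℕ → ℕ, (∀ n, n ≤ k n) ∧ Excised C (fun n => p (k n)) ∧ IsStrict (fun n => p (k n)) := by
  obtain ⟨χ, hp, hlim⟩ := he
  have hmove : ∀ N, ∃ n, N < n ∧ p N ≠ p n := by
    intro N
    by_contra hcon
    simp only [not_exists, not_and, not_not] at hcon
    have hc : ∀ y ∈ C, p N * y * p N = χ y • p N := by
      intro y hy
      have h1 : (fun n => ‖p n * y * p n - χ y • p n‖) =ᶠ[atTop]
          fun _ => ‖p N * y * p N - χ y • p N‖ := by
        filter_upwards [eventually_gt_atTop N] with n hn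
        rw [← hcon n hn]
      have := tendsto_nhds_unique ((tendsto_congr' h1).1 (hlim y hy)) tendsto_const_nhds
      exact sub_eq_zero.1 (norm_eq_zero.1 this.symm)
    obtain ⟨x, hx, hx1⟩ := hC (p N) (hp.mem N) (hp.ne_zero N)
    rw [hp.star_eq, idem hp] at hx1
    have hscal : ∀ y ∈ C, ∃ c : ℂ, y = c • (1 : Op H) := by
      intro y hy
      obtain ⟨v, hvdef⟩ : ∃ v, v = p N * x := ⟨_, rfl⟩
      have hv : v ∈ C := hvdef ▸ mul_mem (hp.mem N) hx
      have hvv : star v * v = 1 := by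
        rw [hvdef, star_mul, hp.star_eq, mul_assoc, ← mul_assoc (p N), idem hp, ← mul_assoc, hx1]
      have hPv : p N * v = v := by rw [hvdef, ← mul_assoc, idem hp]
      have hvP : star v * p N = star v := by
        have := congrArg star hPv
        rwa [star_mul, hp.star_eq] at this
      have h2 := hc (v * y * star v) (mul_mem (mul_mem hv hy) (star_mem hv))
      refine ⟨χ (v * y * star v), ?_⟩
      calc y = (star v * p N) * (v * y * star v) * (p N * v) := by
              rw [hvP, hPv, ← mul_assoc, ← mul_assoc, hvv, one_mul, mul_assoc, hvv, mul_one]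
        _ = star v * (p N * (v * y * star v) * p N) * v := by simp only [mul_assoc]
        _ = χ (v * y * star v) • (star v * p N * v) := by
              rw [h2, mul_smul_comm, smul_mul_assoc]
        _ = χ (v * y * star v) • (1 : Op H) := by rw [hvP, hvv]
    obtain ⟨a, ha⟩ := hscal _ (hp'.mem 1)
    have hne1 := hp'.ne_zero 1
    have hid := idem hp' 1
    rw [ha] at hne hid hne1
    rw [smul_mul_assoc, one_mul] at hid
    have ha0 : a ≠ 0 := fun h => hne1 (by rw [h, zero_smul])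
    rw [hp'.zero_eq] at hne
    exact hne (smul_right_injective (Op H) ha0 hid).symm
  choose g hg1 hg2 using hmove
  have hg0 : ∀ n, g^[n + 1] 0 = g (g^[n] 0) := fun n => Function.iterate_succ_apply' g n 0
  have hsm : StrictMono fun n => g^[n] 0 := strictMono_nat_of_lt_succ fun n => by
    rw [hg0]; exact hg1 _
  refine ⟨fun n => g^[n] 0, hsm.id_le, ⟨χ, ⟨fun n => hp.mem _, fun n => hp.star_eq _, ?_,
    fun m n h => hp.mul_eq _ _ (hsm.monotone h), fun n => hp.ne_zero _⟩,
    fun x hx => (hlim x hx).comp hsm.tendsto_atTop⟩, fun n => ?_⟩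
  · exact hp.zero_eq
  · simp only [hg0]
    exact hg2 _

/-- A projection which the vector functional takes to one fixes the vector. -/
lemma fixed_of_eq_one {X : Type} [NormedAddCommGroup X] [InnerProductSpace ℂ X] [CompleteSpace X]
    (ρ : Op H →⋆ₐ[ℂ] Op X) {η : X} (hη : ‖η‖ = 1) {e : Op H} (he : IsStarProjection e)
    (h : inner ℂ η (ρ e η) = (1 : ℂ)) : ρ e η = η := by
  have hs : ContinuousLinearMap.adjoint (ρ e) = ρ e := by
    rw [← ContinuousLinearMap.star_eq_adjoint, ← map_star, he.isSelfAdjoint.star_eq]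
  have hi : ρ e (ρ e η) = ρ e η := by
    rw [← mul_apply_eq_comp, ← map_mul, he.isIdempotentElem.eq]
  have hself : inner ℂ (ρ e η) (ρ e η) = (1 : ℂ) := by
    calc inner ℂ (ρ e η) (ρ e η) = inner ℂ (ContinuousLinearMap.adjoint (ρ e) η) (ρ e η) := by
          rw [hs]
      _ = inner ℂ η (ρ e (ρ e η)) := ContinuousLinearMap.adjoint_inner_left _ _ _
      _ = 1 := by rw [hi, h]
  have h1 : inner ℂ (ρ e η) η = (1 : ℂ) := by rw [← inner_conj_symm, h, map_one]
  have h2 : inner ℂ (ρ e η - η) (ρ e η - η) = (0 : ℂ) := by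
    rw [inner_sub_sub_self, hself, h1, h, inner_self_eq_norm_sq_to_K, hη]
    simp
  exact sub_eq_zero.1 (inner_self_eq_zero.1 h2)

/-- The representation of a state, as a fibre. -/
lemma exists_fibre {τ : Op H → ℂ} (hτ : ZFC.IsState τ) :
    ∃ F : Fibre H, ∀ T, F.μ T = τ T := by
  obtain ⟨X, i1, i2, i3, π, Ω, hΩ, -⟩ := ZFC.Dicho.exists_gns hτ
  refine ⟨@Fibre.mk H _ _ _ X i1 i2 i3 π Ω ?_, hΩ⟩
  have h := hΩ 1
  rw [hτ.map_one, map_one, one_apply_eq_self, inner_self_eq_norm_sq_to_K] at h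
  have h' : ‖Ω‖ ^ 2 = 1 := Complex.ofReal_injective (by simpa using h)
  nlinarith [norm_nonneg Ω]

lemma isState_coe {τ : Op H →ₗ[ℂ] ℂ} (hτ : IsState τ) : ZFC.IsState (τ : Op H → ℂ) where
  map_add := map_add τ
  map_smul c a := by simp
  map_one := hτ.1
  nonneg := hτ.2

end General

section Node

variable {N : Node}

lemma isStarProjection_cyc (C : StarSubalgebra ℂ (Op N.K)) : IsStarProjection (cyc C N.ξ₀) :=
  isStarProjection_starProjection

lemma cyc_mul_cyc {C D : StarSubalgebra ℂ (Op N.K)} (h : D ≤ C) :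
    cyc C N.ξ₀ * cyc D N.ξ₀ = cyc D N.ξ₀ := by
  have hsub : cycSpace D N.ξ₀ ≤ cycSpace C N.ξ₀ :=
    Submodule.topologicalClosure_mono (Submodule.span_mono
      fun v ⟨c, hc, hv⟩ => ⟨c, h hc, hv⟩)
  ext v
  exact Submodule.starProjection_eq_self_iff.2
    (hsub (Submodule.starProjection_apply_mem _ v))

lemma fix_cyc {C D : StarSubalgebra ℂ (Op N.K)} (h : D ≤ C) (F : Fibre N.K)
    (hF : F.ρ (cyc D N.ξ₀) F.η = F.η) : F.ρ (cyc C N.ξ₀) F.η = F.η := by
  conv_lhs => rw [← hF]
  rw [← mul_apply_eq_comp, ← map_mul, cyc_mul_cyc h, hF]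

variable (hN : N.Good) {D : StarSubalgebra ℂ (Op N.K)} (hD : N.mem D) {r : ℕ → Op N.K}

include hN hD

/-- The fibre at infinity of a sequence. -/
lemma exists_fib_none (hr : ProjSeq D r) :
    ∃ F : Fibre N.K, (∀ m, F.ρ (r m) F.η = F.η) ∧ F.ρ (cyc D N.ξ₀) F.η = F.η := by
  have hW := (hN.member D hD).compresses
  set P := cyc D N.ξ₀ with hP
  have hc : ∀ m, r m * P = P * r m := fun m => hW.comm _ (hr.mem m)
  have hproj : ∀ m, IsStarProjection (r m * P) := fun m =>
    (isStarProjection hr m).mul (isStarProjection_cyc D) (hc m)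
  have hmul : ∀ m n, m ≤ n → (r m * P) * (r n * P) = r n * P := fun m n h => by
    rw [mul_assoc, ← mul_assoc P, ← hc, mul_assoc, (isStarProjection_cyc D).isIdempotentElem.eq,
      ← mul_assoc, le_mul hr h]
  set S : ℕ → Set (Op N.K → ℂ) :=
    fun m => {f | ZFC.IsState f} ∩ {f | f (r m * P) = 1}
  have hmono : ∀ m, S (m + 1) ⊆ S m := by
    intro m f hf
    refine ⟨hf.1, ?_⟩
    have h2 := (hf.1.map_mul_of_proj (hproj (m + 1)) hf.2 (r m * P)).2
    rw [hmul m (m + 1) m.le_succ] at h2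
    exact h2.symm.trans hf.2
  have hne : ∀ m, (S m).Nonempty := fun m =>
    ZFC.exists_state_proj (hproj m) fun h0 => hr.ne_zero m (hW.inj _ (hr.mem m) h0)
  obtain ⟨τ, hτ⟩ := IsCompact.nonempty_iInter_of_sequence_nonempty_isCompact_isClosed S hmono hne
    (ZFC.isCompact_states.inter_right (isClosed_eq (by fun_prop) continuous_const))
    (fun n => ZFC.isClosed_states.inter (isClosed_eq (by fun_prop) continuous_const))
  rw [Set.mem_iInter] at hτ
  obtain ⟨F, hF⟩ := exists_fibre (hτ 0).1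
  have hfix : ∀ m, F.ρ (r m * P) F.η = F.η := fun m =>
    fixed_of_eq_one F.ρ F.norm_eta (hproj m) ((hF _).trans (hτ m).2)
  refine ⟨F, fun m => ?_, ?_⟩
  · conv_lhs => rw [← hfix m]
    rw [← mul_apply_eq_comp, ← map_mul, ← mul_assoc, idem hr, hfix m]
  · have := hfix 0
    rwa [hr.zero_eq, one_mul] at this

/-- A finite fibre of a strict sequence. -/
lemma exists_fib_some (hcore : DichoCoreGoal.{0}) (hr : ProjSeq D r) (hrs : IsStrict r) (n : ℕ) :
    ∃ F : Fibre N.K, (∀ m, F.ρ (r m) F.η = if m ≤ n then F.η else 0) ∧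
      (∀ C, N.mem C → D ≤ C → F.ρ (cyc C N.ξ₀) F.η = F.η) ∧ Diffuse N.A F.μ := by
  have hM := hN.member D hD
  obtain ⟨Δ, hΔ⟩ : ∃ Δ, Δ = r n - r (n + 1) := ⟨_, rfl⟩
  have hΔs : star Δ = Δ := by rw [hΔ, star_sub, hr.star_eq, hr.star_eq]
  have hΔi : Δ * Δ = Δ := by
    rw [hΔ, sub_mul, mul_sub, mul_sub, idem hr, idem hr, le_mul hr n.le_succ,
      hr.mul_eq n (n + 1) n.le_succ]
    abel
  have hΔD : Δ ∈ D := hΔ ▸ sub_mem (hr.mem n) (hr.mem (n + 1))
  obtain ⟨x, hx, hx1⟩ := hM.pi Δ hΔD (hΔ ▸ sub_ne_zero.2 (hrs n))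
  rw [hΔs, hΔi] at hx1
  obtain ⟨v, hv⟩ : ∃ v, v = Δ * x := ⟨_, rfl⟩
  have hvD : v ∈ D := hv ▸ mul_mem hΔD hx
  have hvv : star v * v = 1 := by
    rw [hv, star_mul, hΔs, mul_assoc, ← mul_assoc Δ, hΔi, ← mul_assoc, hx1]
  have hrv : ∀ m, r m * v = if m ≤ n then v else 0 := by
    intro m
    split_ifs with h
    · rw [hv, hΔ, ← mul_assoc, mul_sub, le_mul hr h, le_mul hr (h.trans n.le_succ)]
    · rw [hv, hΔ, ← mul_assoc, mul_sub, hr.mul_eq n m (le_of_not_ge h),
        hr.mul_eq (n + 1) m (Nat.lt_of_not_le h), sub_self, zero_mul]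
  obtain ⟨G, hG⟩ := exists_fibre (isState_coe hN.σ_state)
  have hP₀ : G.ρ (cyc N.C₀₀ N.ξ₀) G.η = G.η :=
    fixed_of_eq_one G.ρ G.norm_eta (isStarProjection_cyc _) ((hG _).trans hN.σ_supp)
  have hnorm : ‖G.ρ v G.η‖ = 1 := by
    have h : inner ℂ (G.ρ v G.η) (G.ρ v G.η) = (1 : ℂ) := by
      rw [← ContinuousLinearMap.adjoint_inner_right, ← ContinuousLinearMap.star_eq_adjoint,
        ← map_star, ← mul_apply_eq_comp, ← map_mul, hvv, map_one,
        one_apply_eq_self, inner_self_eq_norm_sq_to_K, G.norm_eta]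
      simp
    rw [inner_self_eq_norm_sq_to_K] at h
    have h' : ‖G.ρ v G.η‖ ^ 2 = 1 := Complex.ofReal_injective (by simpa using h)
    nlinarith [norm_nonneg (G.ρ v G.η)]
  let F : Fibre N.K := @Fibre.mk N.K _ _ _ G.X G.normed G.ip G.complete G.ρ (G.ρ v G.η) hnorm
  have hμ : ∀ T, F.μ T = N.σ (star v * T * v) := fun T => by
    rw [← hG]
    show inner ℂ (G.ρ v G.η) (G.ρ T (G.ρ v G.η)) = inner ℂ G.η (G.ρ (star v * T * v) G.η)
    rw [map_mul, map_mul, map_star, mul_apply_eq_comp, mul_apply_eq_comp,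
      ContinuousLinearMap.star_eq_adjoint, ContinuousLinearMap.adjoint_inner_right]
  refine ⟨F, fun m => ?_, fun C hC hle => ?_, ?_⟩
  · show G.ρ (r m) (G.ρ v G.η) = if m ≤ n then G.ρ v G.η else 0
    rw [← mul_apply_eq_comp, ← map_mul, hrv]
    split_ifs <;> simp
  · show G.ρ (cyc C N.ξ₀) (G.ρ v G.η) = G.ρ v G.η
    rw [← mul_apply_eq_comp, ← map_mul, ← (hN.member C hC).compresses.comm v (hle hvD),
      map_mul, mul_apply_eq_comp, fix_cyc (hN.base_le C hC) G hP₀]
  · intro p hp y hy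
    have hM₀ := hN.member _ hN.base_mem
    have hvA : v ∈ N.A := hM.compresses.le hvD
    have hlim : Tendsto (fun k => N.σ ((star v * y) * p k * star (star v * y))) atTop (𝓝 0) := by
      by_contra hcon
      obtain ⟨q, hq, -, z, hz, hnot⟩ := hcore N.K (cyc N.C₀₀ N.ξ₀) N.C₀₀ N.A hM₀.compresses
        hM₀.closed hM₀.separable hM₀.pi N.σ hN.σ_state hN.σ_supp p hp (star v * y)
        (mul_mem (star_mem hvA) hy) hcon
      exact hnot (hN.σ_diffuse q hq z hz)
    refine hlim.congr fun k => ?_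
    rw [hμ, star_mul, star_star]
    simp only [mul_assoc]

end Node

/-- Every good node carries edge data. -/
theorem spec_of_core (hcore : DichoCoreGoal.{0}) : SpecGoal := by
  intro N hN
  classical
  obtain ⟨χ₀, hp₀, -⟩ := id hN.p0_excised
  set P : Set (ℕ → Op N.K) :=
    {q | Excised N.A q ∧ IsStrict q ∧ Inequiv N.A q N.p₀} with hPdef
  set 𝒮 : Set (Set (ℕ → Op N.K)) :=
    {S | S ⊆ P ∧ ∀ a ∈ S, ∀ b ∈ S, a ≠ b → Inequiv N.A a b} with h𝒮
  obtain ⟨S, hS⟩ := zorn_subset 𝒮 fun c hc hchain => by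
    refine ⟨⋃₀ c, ⟨Set.sUnion_subset fun s hs => (hc hs).1, ?_⟩, fun s hs =>
      Set.subset_sUnion_of_mem hs⟩
    rintro a ⟨s, hs, ha⟩ b ⟨t, ht, hb⟩ hab
    rcases hchain.total hs ht with h | h
    · exact (hc ht).2 a (h ha) b hb hab
    · exact (hc hs).2 a ha b (h hb) hab
  obtain ⟨hSP, hSI⟩ := hS.1
  have hexc : ∀ e : S, Excised N.A e.1 := fun e => (hSP e.2).1
  have hdom : ∀ e : S, ∃ D, N.mem D ∧ Set.range e.1 ⊆ D := fun e =>
    hN.cofinal _ (Set.countable_range _) (by
      rintro _ ⟨n, rfl⟩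
      obtain ⟨χ, h, -⟩ := hexc e
      exact h.mem n)
  choose dom hdom1 hdom2 using hdom
  let r : S × Bool → ℕ → Op N.K := fun f => if f.2 then f.1.1 else N.p₀
  have hr : ∀ f, Excised N.A (r f) ∧ IsStrict (r f) ∧ ∀ n, r f n ∈ dom f.1 := by
    rintro ⟨e, _ | _⟩
    · exact ⟨hN.p0_excised, hN.p0_strict,
        fun n => hN.base_le _ (hdom1 e) (hN.p0_mem n)⟩
    · exact ⟨hexc e, (hSP e.2).2.1, fun n => hdom2 e ⟨n, rfl⟩⟩
  have hrD : ∀ f, ProjSeq (dom f.1) (r f) := fun f => by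
    obtain ⟨⟨χ, h, -⟩, -, hm⟩ := hr f
    exact ⟨hm, h.star_eq, h.zero_eq, h.mul_eq, h.ne_zero⟩
  choose F₀ hF₀ hF₀' using fun f : S × Bool => exists_fib_none hN (hdom1 f.1) (hrD f)
  choose F₁ hF₁ hF₁' hF₁'' using fun (f : S × Bool) (n : ℕ) =>
    exists_fib_some hN (hdom1 f.1) hcore (hrD f) (hr f).2.1 n
  let fib : S × Bool → Option ℕ → Fibre N.K := fun f n => n.elim (F₀ f) (F₁ f)
  let d : StepData N.K := ⟨N.A, S, r, fib⟩
  have hApp : ∀ f χ x m (F : Fibre N.K), F.ρ (r f m) F.η = F.η →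
      ‖F.μ x - χ‖ ≤ ‖r f m * x * r f m - χ • r f m‖ := by
    intro f χ x m F hfix
    obtain ⟨⟨_, h, -⟩, -, -⟩ := hr f
    have hadj : ContinuousLinearMap.adjoint (F.ρ (r f m)) = F.ρ (r f m) := by
      rw [← ContinuousLinearMap.star_eq_adjoint, ← map_star, h.star_eq]
    have hval : F.μ x - χ = inner ℂ F.η (F.ρ (r f m * x * r f m - χ • r f m) F.η) := by
      rw [map_sub, map_smul, map_mul, map_mul, sub_apply,
        smul_apply, mul_apply_eq_comp, mul_apply_eq_comp, hfix, inner_sub_right,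
        inner_smul_right, inner_self_eq_norm_sq_to_K, F.norm_eta,
        ← ContinuousLinearMap.adjoint_inner_left, hadj, hfix]
      simp [Fibre.μ]
    rw [hval]
    refine (norm_inner_le_norm _ _).trans ?_
    rw [F.norm_eta, one_mul]
    refine (ContinuousLinearMap.le_opNorm _ _).trans ?_
    rw [F.norm_eta, mul_one]
    exact NonUnitalStarAlgHom.norm_apply_le F.ρ _
  have hχ : ∀ f, Excises N.A (r f) (fun x => (F₀ f).μ x) ∧
      ∀ x ∈ N.A, Tendsto (fun n => (F₁ f n).μ x) atTop (𝓝 ((F₀ f).μ x)) := by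
    intro f
    obtain ⟨⟨χ, hp, hlim⟩, -, -⟩ := hr f
    have heq : ∀ x ∈ N.A, (F₀ f).μ x = χ x := fun x hx => by
      have := ge_of_tendsto' (hlim x hx) fun m => hApp f (χ x) x m (F₀ f) (hF₀ f m)
      exact sub_eq_zero.1 (norm_le_zero_iff.1 this)
    refine ⟨⟨hp, fun x hx => by simpa only [heq x hx] using hlim x hx⟩, fun x hx => ?_⟩
    rw [heq x hx, tendsto_iff_norm_sub_tendsto_zero]
    exact squeeze_zero (fun n => norm_nonneg _)
      (fun n => hApp f (χ x) x n (F₁ f n) ((hF₁ f n n).trans (if_pos le_rfl))) (hlim x hx)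
  refine ⟨d, dom, ?_⟩
  refine
    { A_eq := rfl
      ok :=
        { closed := hN.closed
          proj := fun f => (hχ f).1.1
          eta_none := hF₀
          eta_some := hF₁
          tendsto := fun f => (hχ f).2 }
      dom_mem := hdom1
      r_mem := fun e b n => (hr (e, b)).2.2 n
      r_base := fun e => rfl
      r_strict := fun f => (hr f).2.1
      excises := fun f => (hχ f).1
      diffuse := hF₁''
      inequiv_base := fun e => (hSP e.2).2.2
      inequiv := fun e e' h => hSI e.1 e.2 e'.1 e'.2 fun h' => h (Subtype.ext h')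
      maximal := ?_
      support := ?_ }
  · intro q hq
    by_contra hcon
    rw [not_or, not_not, not_exists] at hcon
    obtain ⟨h0, hI⟩ := hcon
    obtain ⟨χ, hqp, hqlim⟩ := hq
    obtain ⟨C, hC, hqC⟩ := hN.cofinal (Set.range q) (Set.countable_range _) (by
      rintro _ ⟨n, rfl⟩; exact hqp.mem n)
    have hCA := (hN.member C hC).compresses.le
    have hq' : Excised C q :=
      ⟨χ, ⟨fun n => hqC ⟨n, rfl⟩, hqp.star_eq, hqp.zero_eq, hqp.mul_eq, hqp.ne_zero⟩,
        fun x hx => hqlim x (hCA hx)⟩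
    obtain ⟨k, hk, hke, hks⟩ := exists_strict (hN.member C hC).pi hq'
      ⟨fun n => hN.base_le C hC (hN.p0_mem n), hp₀.star_eq, hp₀.zero_eq, hp₀.mul_eq, hp₀.ne_zero⟩
      (hN.p0_strict 0)
    have hkA : Excised N.A fun n => q (k n) := (hN.member C hC).excised _ hke
    set q' : ℕ → Op N.K := fun n => q (k n) with hq'def
    obtain ⟨χ', hq'p, -⟩ := id hkA
    have hmem : q' ∈ P := ⟨hkA, hks, inequiv_subseq hqp hk h0⟩
    have hIq : ∀ b ∈ S, Inequiv N.A q' b := fun b hb =>
      inequiv_subseq hqp hk (not_not.1 (hI ⟨b, hb⟩))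
    have hins : insert q' S ∈ 𝒮 := by
      refine ⟨Set.insert_subset hmem hSP, ?_⟩
      rintro a (rfl | ha) b (rfl | hb) hab
      · exact absurd rfl hab
      · exact hIq b hb
      · obtain ⟨_, hap, -⟩ := (hSP ha).1
        exact inequiv_symm hq'p hap (hIq a ha)
      · exact hSI a ha b hb hab
    have hq'S : q' ∈ S := hS.2 hins (Set.subset_insert _ _) (Set.mem_insert _ _)
    exact not_inequiv_self hq'p (hIq q' hq'S)
  · rintro f (_ | n) C hC hle
    · exact fix_cyc hle (F₀ f) (hF₀' f)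
    · exact hF₁' f n C hC hle

end Vale.Agent.P070.Club.Edges
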