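import Vale.Agent.P070.Club.Excise
import Vale.Agent.P070.ZFC.Excision

/-!
# Tools using pure infiniteness

A separated subalgebra with an excised fixed vector is purely infinite; strict subsequences;
isometry of compressions; vectors along failures of inequivalence.
-/

universe u

namespace Vale.Agent.P070.Club

open Filter Topology ComplexOrder
open scoped InnerProductSpace

/-- An invertible positive element is conjugate to `1`. -/
lemma exists_conj_eq_one {A : Type u} [CStarAlgebra A] {w : A} (h : IsUnit (star w * w)) :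
    ∃ z : A, star z * (star w * w) * z = 1 := by
  let _ := CStarAlgebra.spectralOrder A
  have := CStarAlgebra.spectralOrderedRing A
  have h0 : 0 ≤ star w * w := star_mul_self_nonneg w
  set R := CFC.sqrt (star w * w) with hR
  have hRR : R * R = star w * w := CFC.sqrt_mul_sqrt_self _ h0
  have hRs : star R = R := (IsSelfAdjoint.of_nonneg (CFC.sqrt_nonneg _)).star_eq
  obtain ⟨z, hz⟩ := (CFC.isUnit_sqrt_iff (star w * w) h0).2 h
  rw [← hR] at hz
  have hs : star z = z := Units.ext (by rw [Units.coe_star, hz, hRs])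
  refine ⟨↑z⁻¹, ?_⟩
  rw [← Units.coe_star, star_inv, hs, ← hRR, ← hz, ← mul_assoc, Units.inv_mul, one_mul,
    Units.mul_inv]

variable {H : Type u} [NormedAddCommGroup H] [InnerProductSpace ℂ H] [CompleteSpace H]
variable {C : StarSubalgebra ℂ (Op H)} {p q r : ℕ → Op H}

/-- A subalgebra separated by the translates of a fixed vector of an excised sequence with
isometries under its members is purely infinite. -/
theorem isPI_of_separates (hC : IsClosed (C : Set (Op H))) {ξ : H} (hξ : ‖ξ‖ = 1)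
    (hfix : ∀ n, p n ξ = ξ) (hp : Excised C p)
    (hsep : ∀ b ∈ C, (∀ y ∈ C, b (y ξ) = 0) → b = 0)
    (hiso : ∀ n, ∃ v ∈ C, star v * p n * v = 1) : IsPI C := by
  intro b hb hb0
  obtain ⟨y, hy, hby⟩ : ∃ y ∈ C, b (y ξ) ≠ 0 := by
    by_contra! h
    exact hb0 (hsep b hb h)
  obtain ⟨χ, hχ⟩ := hp
  set a := b * y with ha
  have hamem : a ∈ C := mul_mem hb hy
  set T := star a * a with hT
  have hTmem : T ∈ C := mul_mem (star_mem hamem) hamem
  set α : ℝ := ‖a ξ‖ ^ 2 with hα
  have hα0 : 0 < α := pow_pos (norm_pos_iff.2 hby) 2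
  have hχT : χ T = (α : ℂ) := by
    rw [← hχ.eq_of_fixed hξ hfix hTmem, hT, mul_apply_eq_comp, ← inner_star_apply, star_star,
      inner_self_eq_norm_sq_to_K, hα]
    norm_cast
  obtain ⟨n, hn⟩ := ((hχ.2 T hTmem).eventually (gt_mem_nhds (half_pos hα0))).exists
  obtain ⟨v, hv, hvv⟩ := hiso n
  set u := p n * v with hu
  have humem : u ∈ C := mul_mem (hχ.1.mem n) hv
  have huu : star u * u = 1 := by
    rw [hu, star_mul, hχ.1.star_eq, mul_assoc, ← mul_assoc (p n) (p n), hχ.1.idem, ← mul_assoc, hvv]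
  set e := star u * T * u with he
  have hclose : ‖e - (α : ℂ) • (1 : Op H)‖ ≤ α / 2 := by
    have e1 : e - (α : ℂ) • (1 : Op H) = star v * (p n * T * p n - χ T • p n) * v := by
      rw [he, hu, hχT, star_mul, hχ.1.star_eq, mul_sub, sub_mul, mul_smul_comm, smul_mul_assoc, hvv]
      simp only [mul_assoc]
    have e2 : star v * (p n * T * p n - χ T • p n) * v
        = star u * (p n * T * p n - χ T • p n) * u := by
      rw [hu, star_mul, hχ.1.star_eq]
      simp only [mul_sub, sub_mul, mul_smul_comm, smul_mul_assoc, mul_assoc]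
      simp only [← mul_assoc (p n) (p n), hχ.1.idem]
    have hnu : ‖u‖ ≤ 1 := by
      have h : ‖u‖ * ‖u‖ ≤ 1 := by
        rw [← CStarRing.norm_star_mul_self, huu]; exact ContinuousLinearMap.norm_id_le
      nlinarith [norm_nonneg u]
    rw [e1, e2]
    refine (norm_mul_le _ _).trans ?_
    calc ‖star u * (p n * T * p n - χ T • p n)‖ * ‖u‖
        ≤ (‖star u‖ * ‖p n * T * p n - χ T • p n‖) * ‖u‖ :=
          mul_le_mul_of_nonneg_right (norm_mul_le _ _) (norm_nonneg _)
      _ ≤ (1 * (α / 2)) * 1 := by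
          refine mul_le_mul (mul_le_mul ?_ hn.le (norm_nonneg _) zero_le_one) hnu (norm_nonneg _)
            (by positivity)
          rwa [norm_star]
      _ = α / 2 := by ring
  -- invert inside the subalgebra
  have : IsClosed (C : Set (Op H)) := hC
  set w : C := ⟨a * u, mul_mem hamem humem⟩ with hw
  have hwe : ((star w * w : C) : Op H) = e := by
    show star (a * u) * (a * u) = e
    rw [he, hT, star_mul]
    simp only [mul_assoc]
  have hαC : (α : ℂ) ≠ 0 := Complex.ofReal_ne_zero.2 hα0.ne'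
  have hunit : IsUnit (star w * w) := by
    have hlt : ‖(1 : C) - (α : ℂ)⁻¹ • (star w * w)‖ < 1 := by
      show ‖(1 : Op H) - (α : ℂ)⁻¹ • ((star w * w : C) : Op H)‖ < 1
      rw [hwe]
      have e3 : (1 : Op H) - (α : ℂ)⁻¹ • e = (-(α : ℂ)⁻¹) • (e - (α : ℂ) • (1 : Op H)) := by
        rw [neg_smul, smul_sub, inv_smul_smul₀ hαC]; abel
      rw [e3, norm_smul, norm_neg, norm_inv, Complex.norm_real, Real.norm_of_nonneg hα0.le,
        inv_mul_lt_iff₀ hα0]
      linarith
    have h1 : IsUnit ((α : ℂ)⁻¹ • (star w * w)) := by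
      refine ⟨Units.oneSub _ hlt, ?_⟩
      rw [Units.val_oneSub, sub_sub_cancel]
    exact (isUnit_smul_iff (Units.mk0 _ (inv_ne_zero hαC)) (star w * w)).1 h1
  obtain ⟨z, hz⟩ := exists_conj_eq_one hunit
  refine ⟨y * u * (z : Op H), mul_mem (mul_mem hy humem) z.2, ?_⟩
  have e4 : star (z : Op H) * ((star w * w : C) : Op H) * (z : Op H) = 1 := congrArg Subtype.val hz
  rw [hwe] at e4
  rw [show star (y * u * (z : Op H)) * (star b * b) * (y * u * (z : Op H))
    = star (z : Op H) * e * (z : Op H) by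
      simp only [he, hT, ha, star_mul, mul_assoc]]
  exact e4

/-- An excised sequence in a nonscalar purely infinite algebra has a strict subsequence with the
same inequivalences. -/
theorem exists_strict (hPI : IsPI C) (hp : Excised C p)
    (hns : ¬∀ x ∈ C, ∃ c : ℂ, x = c • (1 : Op H)) :
    ∃ φ : ℕ → ℕ, StrictMono φ ∧ φ 0 = 0 ∧ Excised C (p ∘ φ) ∧ IsStrict (p ∘ φ) ∧
      ∀ D r, C ≤ D → ProjSeq D r → (Inequiv D (p ∘ φ) r ↔ Inequiv D p r) := by
  obtain ⟨χ, hχ⟩ := hp
  have hnc : ∀ m, ∃ n, m < n ∧ p n ≠ p m := by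
    by_contra hcon
    push Not at hcon
    obtain ⟨m, hm⟩ := hcon
    have hmin : ∀ z ∈ C, p m * z * p m = χ z • p m := fun z hz => sub_eq_zero.1
      (norm_le_zero_iff.1 (ge_of_tendsto (hχ.2 z hz)
        ((eventually_gt_atTop m).mono fun n hn => by rw [hm n hn])))
    obtain ⟨x, hx, hxx⟩ := hPI _ (hχ.1.mem m) (hχ.1.ne_zero m)
    rw [hχ.1.star_eq, hχ.1.idem] at hxx
    refine hns fun z hz => ⟨χ (x * z * star x), ?_⟩
    calc z = star x * p m * x * z * (star x * p m * x) := by rw [hxx, one_mul, mul_one]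
      _ = star x * (p m * (x * z * star x) * p m) * x := by simp only [mul_assoc]
      _ = _ := by
        rw [hmin _ (mul_mem (mul_mem hx hz) (star_mem hx)), mul_smul_comm, smul_mul_assoc, hxx]
  choose g hg1 hg2 using hnc
  let φ : ℕ → ℕ := fun n => Nat.rec 0 (fun _ m => g m) n
  have hφ : StrictMono φ := strictMono_nat_of_lt_succ fun n => hg1 (φ n)
  refine ⟨φ, hφ, rfl, ⟨χ, ⟨fun n => hχ.1.mem _, fun n => hχ.1.star_eq _, hχ.1.zero_eq,
    fun m n h => hχ.1.mul_eq _ _ (hφ.monotone h), fun n => hχ.1.ne_zero _⟩,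
    fun x hx => (hχ.2 x hx).comp hφ.tendsto_atTop⟩, fun n => (hg2 (φ n)).symm, ?_⟩
  intro D r _ hr
  refine ⟨fun h x hx => ?_, fun h x hx => squeeze_zero (fun n => norm_nonneg _)
    (fun n => hχ.1.antitone_norm hr le_rfl (hφ.id_le n) x) (h x hx)⟩
  refine Metric.tendsto_atTop.2 fun ε hε => ?_
  obtain ⟨N, hN⟩ := Metric.tendsto_atTop.1 (h x hx) ε hε
  refine ⟨φ N, fun n hn => ?_⟩
  have h1 := hN N le_rfl
  simp only [Real.dist_eq, sub_zero, abs_norm, Function.comp_apply] at h1 ⊢
  exact (hχ.1.antitone_norm hr ((hφ.id_le N).trans hn) hn x).trans_lt h1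

/-- The compression is isometric on the small algebra. -/
theorem Compresses.norm_mul {W : Op H} {C₀ : StarSubalgebra ℂ (Op H)} (h : Compresses W C₀ C)
    (hC₀ : IsClosed (C₀ : Set (Op H))) {c : Op H} (hc : c ∈ C₀) : ‖c * W‖ = ‖c‖ := by
  have : IsClosed (C₀ : Set (Op H)) := hC₀
  let φ : C₀ →⋆ₙₐ[ℂ] Op H :=
    { toFun := fun a => (a : Op H) * W
      map_smul' := fun z a => smul_mul_assoc z (a : Op H) W
      map_zero' := zero_mul W
      map_add' := fun a b => add_mul (a : Op H) b W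
      map_mul' := fun a b => by
        show (a : Op H) * b * W = (a : Op H) * W * ((b : Op H) * W)
        rw [mul_assoc (a : Op H) W, ← mul_assoc W, ← h.comm b b.2, mul_assoc (b : Op H) W W,
          h.idem, mul_assoc]
      map_star' := fun a => by
        show star (a : Op H) * W = star ((a : Op H) * W)
        rw [star_mul, h.star_eq, h.comm _ (star_mem a.2)] }
  have hinj : Function.Injective φ := (injective_iff_map_eq_zero φ).2 fun a ha =>
    Subtype.ext (h.inj a a.2 ha)
  exact NonUnitalStarAlgHom.norm_map φ hinj ⟨c, hc⟩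

/-- Failure of inequivalence moves a fixed vector in a representation. -/
theorem exists_fixed_vector (hC : IsClosed (C : Set (Op H))) {G : Type u} [NormedAddCommGroup G]
    [InnerProductSpace ℂ G] [CompleteSpace G] (π : C →⋆ₐ[ℂ] Op G) {ξ : G} (hξ : ξ ≠ 0)
    (hq : Excised C q) (hfix : ∀ n (h : q n ∈ C), π ⟨q n, h⟩ ξ = ξ) (hr : ProjSeq C r)
    (hne : ¬Inequiv C q r) : ∃ η : G, η ≠ 0 ∧ ∀ n (h : r n ∈ C), π ⟨r n, h⟩ η = η := by
  have : IsClosed (C : Set (Op H)) := hC
  obtain ⟨χ, hχ⟩ := hq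
  have hproj : ∀ {s : ℕ → Op H} (hs : ProjSeq C s),
      ZFC.IsProjSeq (fun n => (⟨s n, hs.mem n⟩ : C)) := fun {s} hs =>
    ⟨Subtype.ext hs.zero_eq, fun n => ⟨Subtype.ext (hs.idem n), Subtype.ext (hs.star_eq n)⟩,
      fun n h => hs.ne_zero n (congrArg Subtype.val h),
      fun n => Subtype.ext (hs.mul_eq n (n + 1) n.le_succ)⟩
  have hex : ZFC.Excises (fun n => (⟨q n, hχ.1.mem n⟩ : C)) (fun x : C => χ x) :=
    ⟨hproj hχ.1, fun x => hχ.2 x x.2⟩
  have hne' : ¬ZFC.Inequiv (fun n => (⟨q n, hχ.1.mem n⟩ : C)) (fun n => (⟨r n, hr.mem n⟩ : C)) :=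
    fun h => hne fun x hx => h ⟨x, hx⟩
  set u : G := ((‖ξ‖⁻¹ : ℝ) : ℂ) • ξ with hu
  have hu1 : ‖u‖ = 1 := by
    rw [hu, norm_smul, Complex.norm_real, norm_inv, norm_norm,
      inv_mul_cancel₀ (norm_ne_zero_iff.2 hξ)]
  have hufix : ∀ n, π ⟨q n, hχ.1.mem n⟩ u = u := fun n => by rw [hu, map_smul, hfix]
  obtain ⟨w, hw0, -, hw⟩ := ZFC.exists_fixed_of_not_inequiv π hex (hproj hr) hne'
    (ξ := u) fun x => hex.state_of_fixed π hu1 hufix x
  exact ⟨w, hw0, fun n _ => hw n⟩

end Vale.Agent.P070.Club
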