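import Vale.Agent.P070.Club.Link
import Vale.Agent.P070.Club.Colim
import Vale.Agent.P070.Club.Dicho
import Vale.Agent.P070.Club.PITools

/-!
# Module Limit: limits of countable cofinality of good systems are good

A member of the limit node is the closed union of a coherent family of members of the stages, each
linked to it. Chains of members at cofinal stages close up to members; this gives cofinality.
Excision at the limit uses the dichotomy at the window of each stage.
-/

noncomputable section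

namespace Vale.Agent.P070.Club

open Filter Topology ComplexOrder
open scoped InnerProductSpace

namespace LimitAux

/-! ### Generalities on embeddings -/

variable {M N : Node} (e : Emb M N)

lemma isometry_ι : Isometry e.ι := AddMonoidHomClass.isometry_of_norm e.ι e.norm_ι

lemma norm_down_le (T : Op N.K) : ‖e.down T‖ ≤ ‖T‖ := by
  have hJ : ‖e.J.toContinuousLinearMap‖ ≤ 1 :=
    e.J.toContinuousLinearMap.opNorm_le_bound zero_le_one fun x => by simp
  refine (ContinuousLinearMap.opNorm_comp_le _ _).trans ?_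
  rw [LinearIsometryEquiv.norm_map]
  refine (mul_le_of_le_one_left (norm_nonneg _) hJ).trans ?_
  exact (ContinuousLinearMap.opNorm_comp_le _ _).trans (mul_le_of_le_one_right (norm_nonneg _) hJ)

/-- The compression as a linear map. -/
def downₗ : Op N.K →ₗ[ℂ] Op M.K where
  toFun := e.down
  map_add' S T := by simp [Emb.down, ContinuousLinearMap.comp_add, ContinuousLinearMap.add_comp]
  map_smul' r T := by simp [Emb.down, ContinuousLinearMap.smul_comp]

variable {C₀ : StarSubalgebra ℂ (Op M.K)}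

lemma isClosed_map (h : IsClosed (C₀ : Set (Op M.K))) :
    IsClosed (C₀.map e.ι : Set (Op N.K)) := by
  rw [StarSubalgebra.coe_map]
  exact (isometry_ι e).isClosedEmbedding.isClosedMap _ h

lemma isSeparable_map (h : TopologicalSpace.IsSeparable (C₀ : Set (Op M.K))) :
    TopologicalSpace.IsSeparable (C₀.map e.ι : Set (Op N.K)) := by
  rw [StarSubalgebra.coe_map]
  exact h.image e.continuous_ι

lemma isPI_map (h : IsPI C₀) : IsPI (C₀.map e.ι) := by
  intro a ha ha0
  obtain ⟨b, hb, rfl⟩ := StarSubalgebra.mem_map.1 ha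
  obtain ⟨x, hx, hx1⟩ := h b hb fun h0 => ha0 (by rw [h0, map_zero])
  refine ⟨e.ι x, StarSubalgebra.mem_map.2 ⟨x, hx, rfl⟩, ?_⟩
  rw [← map_star, ← map_star, ← map_mul, ← map_mul, ← map_mul, hx1, map_one]

lemma ι_down_of_mem_map {y : Op N.K} (hy : y ∈ C₀.map e.ι) :
    e.ι (e.down y) = y ∧ e.down y ∈ C₀ := by
  obtain ⟨b, hb, rfl⟩ := StarSubalgebra.mem_map.1 hy
  rw [e.down_ι]; exact ⟨rfl, hb⟩

/-- Excision in an image pulls back. -/
lemma excised_down {p : ℕ → Op N.K} (hp : Excised (C₀.map e.ι) p) :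
    Excised C₀ fun n => e.down (p n) := by
  obtain ⟨χ, hP, hχ⟩ := hp
  have h := fun n => ι_down_of_mem_map e (hP.mem n)
  refine ⟨fun x => χ (e.ι x), ⟨fun n => (h n).2, fun n => e.ι_injective ?_, ?_, fun m n hmn =>
    e.ι_injective ?_, fun n h0 => hP.ne_zero n ?_⟩, fun x hx => ?_⟩
  · rw [map_star, (h n).1, hP.star_eq]
  · rw [hP.zero_eq, e.down_one]
  · rw [map_mul, (h m).1, (h n).1, hP.mul_eq m n hmn]
  · rw [← (h n).1, show e.down (p n) = 0 from h0, map_zero]
  · refine (hχ _ (StarSubalgebra.mem_map.2 ⟨x, hx, rfl⟩)).congr fun n => ?_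
    conv_rhs => rw [← e.norm_ι, map_sub, map_mul, map_mul, map_smul, (h n).1]

/-- A sum of closed pieces inside a closed algebra. -/
lemma closure_iSup_le {B : Type*} [CStarAlgebra B] {κ : Type*} {F : κ → StarSubalgebra ℂ B}
    {C : StarSubalgebra ℂ B} (hC : IsClosed (C : Set B)) (h : ∀ k, F k ≤ C) :
    (⨆ k, F k).topologicalClosure ≤ C :=
  StarSubalgebra.topologicalClosure_minimal (iSup_le h) hC

lemma le_closure_iSup {B : Type*} [CStarAlgebra B] {κ : Type*} (F : κ → StarSubalgebra ℂ B)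
    (k : κ) : F k ≤ (⨆ k, F k).topologicalClosure :=
  (le_iSup F k).trans (StarSubalgebra.le_topologicalClosure _)

lemma coe_closure_iSup {B : Type*} [CStarAlgebra B] {κ : Type*} [Nonempty κ] [Preorder κ]
    [IsDirectedOrder κ] {F : κ → StarSubalgebra ℂ B} (hF : Monotone F) :
    ((⨆ k, F k).topologicalClosure : Set B) = closure (⋃ k, (F k : Set B)) := by
  rw [StarSubalgebra.topologicalClosure_coe, StarSubalgebra.coe_iSup_of_directed hF.directed_le]

/-! ### The limit node -/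

variable {I : Type} [LinearOrder I] [Nonempty I] {S : Sys I} (Lc : Colim S)

omit [Nonempty I] in
lemma xi_eq {i j : I} : Lc.J i (S.N i).ξ₀ = Lc.J j (S.N j).ξ₀ := by
  rcases le_total i j with h | h
  · rw [← Lc.J_compat i j h, (S.e i j h).xi]
  · rw [← Lc.J_compat j i h, (S.e j i h).xi]

/-- The reference stage. -/
def i₀ : I := Classical.arbitrary I

/-- The embedding of a stage into the limit space, before the node is formed. -/
def adj (i : I) (T : Op Lc.K) : Op (S.N i).K :=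
  (ContinuousLinearMap.adjoint (Lc.J i).toContinuousLinearMap).comp
    (T.comp (Lc.J i).toContinuousLinearMap)

/-- The limit node with a given club. -/
@[reducible] def preNode (mem : StarSubalgebra ℂ (Op Lc.K) → Prop) : Node where
  K := Lc.K
  A := Lc.alg
  ξ₀ := Lc.J i₀ (S.N i₀).ξ₀
  p₀ n := Lc.ι i₀ ((S.N i₀).p₀ n)
  C₀₀ := (S.N i₀).C₀₀.map (Lc.ι i₀)
  σ :=
    { toFun := fun T => (S.N i₀).σ (adj Lc i₀ T)
      map_add' := fun T U => by
        simp [adj, ContinuousLinearMap.comp_add, ContinuousLinearMap.add_comp]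
      map_smul' := fun r T => by simp [adj, ContinuousLinearMap.smul_comp] }
  mem := mem

/-- The embedding of a stage. -/
@[reducible] def preEmb (mem : StarSubalgebra ℂ (Op Lc.K) → Prop) (i : I) : Emb (S.N i) (preNode Lc mem) where
  J := Lc.J i
  ι := Lc.ι i
  comm := Lc.comm i
  xi := xi_eq Lc

/-- The club of the limit. -/
def LMem (C : StarSubalgebra ℂ (Op Lc.K)) : Prop :=
  ∃ T : ∀ i, StarSubalgebra ℂ (Op (S.N i).K),
    (∀ i, (S.N i).mem (T i) ∧ Linked (preEmb Lc (fun _ => True) i) (T i) C) ∧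
      C = (⨆ i, (T i).map (Lc.ι i)).topologicalClosure

/-- The limit node. -/
abbrev node : Node := preNode Lc (LMem Lc)

/-- The embedding of a stage in the limit node. -/
abbrev emb (i : I) : Emb (S.N i) (node Lc) := preEmb Lc (LMem Lc) i

lemma linked_iff {i : I} {T : StarSubalgebra ℂ (Op (S.N i).K)}
    {C : StarSubalgebra ℂ (Op Lc.K)} :
    Linked (preEmb Lc (fun _ => True) i) T C ↔ Linked (emb Lc i) T C :=
  ⟨fun h => ⟨h.map_le, h.proj_le, h.down_mem, h.compress⟩,
    fun h => ⟨h.map_le, h.proj_le, h.down_mem, h.compress⟩⟩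

lemma mem_iff {C : StarSubalgebra ℂ (Op Lc.K)} : (node Lc).mem C ↔
    ∃ T : ∀ i, StarSubalgebra ℂ (Op (S.N i).K),
      (∀ i, (S.N i).mem (T i) ∧ Linked (emb Lc i) (T i) C) ∧
        C = (⨆ i, (T i).map (emb Lc i).ι).topologicalClosure :=
  exists_congr fun _ => and_congr_left' (forall_congr' fun _ => and_congr_right' (linked_iff Lc))

lemma emb_compat {i j : I} (h : i ≤ j) : (S.e i j h).trans (emb Lc j) = emb Lc i :=
  Emb.ext' (fun x => Lc.J_compat i j h x) (fun T => Lc.ι_compat i j h T)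

lemma down_compat {i j : I} (h : i ≤ j) (T : Op Lc.K) :
    (emb Lc i).down T = (S.e i j h).down ((emb Lc j).down T) := by
  rw [← Emb.down_trans, emb_compat]

variable (hS : S.Good)
include hS

lemma images_mono : Monotone fun i => (S.N i).A.map (emb Lc i).ι := fun i j h => by
  intro x hx
  obtain ⟨a, ha, rfl⟩ := StarSubalgebra.mem_map.1 hx
  exact StarSubalgebra.mem_map.2 ⟨(S.e i j h).ι a,
    (hS.emb i j h).map_le (StarSubalgebra.mem_map.2 ⟨a, ha, rfl⟩), Lc.ι_compat i j h a⟩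

lemma alg_coe : ((node Lc).A : Set (Op Lc.K)) =
    closure (⋃ i, ((S.N i).A.map (emb Lc i).ι : Set (Op Lc.K))) :=
  coe_closure_iSup (images_mono Lc hS)

lemma p0_eq (i : I) (n : ℕ) : (emb Lc i).ι ((S.N i).p₀ n) = (node Lc).p₀ n := by
  have key : ∀ {a b : I}, a ≤ b → Lc.ι b ((S.N b).p₀ n) = Lc.ι a ((S.N a).p₀ n) := fun {a b} h => by
    rw [← (hS.emb a b h).p0 n, Lc.ι_compat]
  rcases le_total i i₀ with h | h
  · exact (key h).symm
  · exact key h

lemma base_eq (i : I) : (S.N i).C₀₀.map (emb Lc i).ι = (node Lc).C₀₀ := by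
  have key : ∀ {a b : I}, a ≤ b → (S.N b).C₀₀.map (Lc.ι b) = (S.N a).C₀₀.map (Lc.ι a) :=
    fun {a b} h => by
    rw [← (hS.emb a b h).base]
    exact SetLike.ext fun x => by simp [StarSubalgebra.mem_map, Lc.ι_compat]
  rcases le_total i i₀ with h | h
  · exact (key h).symm
  · exact key h

lemma σ_eq (i : I) (T : Op Lc.K) : (node Lc).σ T = (S.N i).σ ((emb Lc i).down T) := by
  have key : ∀ {a b : I}, a ≤ b →
      (S.N b).σ ((emb Lc b).down T) = (S.N a).σ ((emb Lc a).down T) := fun {a b} h => by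
    rw [(hS.emb a b h).σ_eq, down_compat Lc h]
  show (S.N i₀).σ ((emb Lc i₀).down T) = _
  rcases le_total i i₀ with h | h
  · exact key h
  · exact (key h).symm

/-- An excised sequence of a stage is excised in the limit. -/
theorem excised_push {i : I} {q : ℕ → Op (S.N i).K} (hq : Excised (S.N i).A q) :
    Excised (node Lc).A fun n => (emb Lc i).ι (q n) := by
  have hP := hq.projSeq
  refine excised_of_dense ⟨fun n => le_closure_iSup (fun i => (S.N i).A.map (Lc.ι i)) i
      (StarSubalgebra.mem_map.2 ⟨q n, hP.mem n, rfl⟩), fun n => ?_, ?_, fun m n h => ?_,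
      fun n h => hP.ne_zero n ((emb Lc i).ι_injective (h.trans (map_zero _).symm))⟩
    _ (alg_coe Lc hS).subset ?_
  · rw [← map_star, hP.star_eq]
  · rw [hP.zero_eq, map_one]
  · rw [← map_mul, hP.mul_eq m n h]
  intro x hx ε hε
  obtain ⟨j, hj⟩ := Set.mem_iUnion.1 hx
  obtain ⟨a, ha, rfl⟩ := StarSubalgebra.mem_map.1 hj
  obtain ⟨m, him, hjm⟩ : ∃ m, i ≤ m ∧ j ≤ m := ⟨max i j, le_max_left _ _, le_max_right _ _⟩
  obtain ⟨χ, -, hχ⟩ := (hS.emb i m him).excised q hq
  set a' := (S.e j m hjm).ι a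
  have ha' : a' ∈ (S.N m).A := (hS.emb j m hjm).map_le (StarSubalgebra.mem_map.2 ⟨a, ha, rfl⟩)
  obtain ⟨n, hn⟩ := ((hχ a' ha').eventually (gt_mem_nhds hε)).exists
  refine ⟨n, χ a', le_trans (le_of_eq ?_) hn.le⟩
  rw [← (emb Lc m).norm_ι ((S.e i m him).ι (q n) * a' * (S.e i m him).ι (q n) - _), map_sub,
    map_mul, map_mul, map_smul]
  show _ = ‖Lc.ι m ((S.e i m him).ι (q n)) * Lc.ι m a' * Lc.ι m ((S.e i m him).ι (q n)) -
    χ a' • Lc.ι m ((S.e i m him).ι (q n))‖
  rw [Lc.ι_compat, Lc.ι_compat]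

section Member

variable {C : StarSubalgebra ℂ (Op Lc.K)} {T : ∀ i, StarSubalgebra ℂ (Op (S.N i).K)}
  (hT : ∀ i, (S.N i).mem (T i) ∧ Linked (emb Lc i) (T i) C)
  (hC : C = (⨆ i, (T i).map (emb Lc i).ι).topologicalClosure)

include hT

lemma trace_mono : Monotone fun i => (T i).map (emb Lc i).ι := fun i j h => by
  obtain ⟨T₀, -, hl⟩ := (hS.emb i j h).trace (T j) (hT j).1
  have hl' := hl.trans (hT j).2
  rw [emb_compat Lc h] at hl'
  intro x hx
  obtain ⟨a, ha, rfl⟩ := StarSubalgebra.mem_map.1 hx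
  rw [(hT i).2.unique hl'] at ha
  exact StarSubalgebra.mem_map.2 ⟨_, hl.ι_mem ha, Lc.ι_compat i j h a⟩

include hC

lemma member_coe : (C : Set (Op Lc.K)) = closure (⋃ i, ((T i).map (emb Lc i).ι : Set (Op Lc.K))) := by
  rw [hC]; exact coe_closure_iSup (trace_mono Lc hS hT)

omit hS hT in
lemma member_closed : IsClosed (C : Set (Op Lc.K)) := by
  rw [hC]; exact StarSubalgebra.isClosed_topologicalClosure _

lemma member_le : C ≤ (node Lc).A := by
  rw [hC]
  refine closure_iSup_le (StarSubalgebra.isClosed_topologicalClosure _) fun i => ?_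
  intro x hx
  obtain ⟨a, ha, rfl⟩ := StarSubalgebra.mem_map.1 hx
  exact le_closure_iSup (fun i => (S.N i).A.map (Lc.ι i)) i
    (StarSubalgebra.mem_map.2 ⟨a, ((hS.node i).member _ (hT i).1).compresses.le ha, rfl⟩)

lemma member_separable (hcof : ∃ s : ℕ → I, ∀ i, ∃ k, i ≤ s k) :
    TopologicalSpace.IsSeparable (C : Set (Op Lc.K)) := by
  obtain ⟨s, hs⟩ := hcof
  rw [member_coe Lc hS hT hC]
  refine TopologicalSpace.IsSeparable.closure ((TopologicalSpace.IsSeparable.iUnion fun k =>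
    isSeparable_map (emb Lc (s k)) ((hS.node (s k)).member _ (hT (s k)).1).separable).mono ?_)
  refine Set.iUnion_subset fun i => ?_
  obtain ⟨k, hk⟩ := hs i
  exact fun x hx => Set.mem_iUnion.2 ⟨k, trace_mono Lc hS hT hk hx⟩

lemma norm_mul_cyc {c : Op Lc.K} (hc : c ∈ C) : ‖c‖ ≤ ‖c * cyc C (node Lc).ξ₀‖ := by
  rw [← SetLike.mem_coe, member_coe Lc hS hT hC] at hc
  refine closure_minimal (t := {c | ‖c‖ ≤ ‖c * cyc C (node Lc).ξ₀‖})
    (Set.iUnion_subset fun i => ?_) (isClosed_le (by fun_prop) (by fun_prop)) hc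
  intro x hx
  obtain ⟨b, hb, rfl⟩ := StarSubalgebra.mem_map.1 hx
  have hM := (hS.node i).member _ (hT i).1
  set e := emb Lc i
  set R := e.up (cyc (T i) (S.N i).ξ₀)
  have hR : cyc C (node Lc).ξ₀ * R = R := by
    rw [show R = cyc ((T i).map e.ι) (node Lc).ξ₀ from (e.cyc_map _).symm]
    exact cyc_mul_of_le (hT i).2.map_le
  have hR1 : ‖R‖ ≤ 1 := by
    rw [show R = cyc ((T i).map e.ι) (node Lc).ξ₀ from (e.cyc_map _).symm]
    exact Submodule.starProjection_norm_le _
  show ‖e.ι b‖ ≤ ‖e.ι b * cyc C (node Lc).ξ₀‖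
  calc ‖e.ι b‖ = ‖b * cyc (T i) (S.N i).ξ₀‖ := by
        rw [e.norm_ι, DichoAux.norm_eq_mul hM.compresses hM.closed hb]
    _ ≤ ‖e.ι b * R‖ := by
        conv_lhs => rw [← e.down_up (b * _), ← e.ι_up]
        exact norm_down_le e _
    _ = ‖e.ι b * cyc C (node Lc).ξ₀ * R‖ := by rw [mul_assoc, hR]
    _ ≤ _ := (norm_mul_le _ _).trans (mul_le_of_le_one_right (norm_nonneg _) hR1)

omit hC in
/-- The corner of an element of a stage is the corner of an element of the member. -/
lemma exists_corner {j : I} {a : Op (S.N j).K} (ha : a ∈ (S.N j).A) :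
    ∃ c ∈ T j, cyc (T j) (S.N j).ξ₀ * (a - c) * cyc (T j) (S.N j).ξ₀ = 0 ∧
      cyc C (node Lc).ξ₀ * (emb Lc j).ι a * cyc C (node Lc).ξ₀ =
        (emb Lc j).ι c * cyc C (node Lc).ξ₀ := by
  obtain ⟨c, hc, hcc⟩ := ((hS.node j).member _ (hT j).1).compresses.compress a ha
  set e := emb Lc j
  set Pj := cyc (T j) (S.N j).ξ₀
  set P := cyc C (node Lc).ξ₀
  refine ⟨c, hc, ?_, ?_⟩
  · rw [mul_sub, sub_mul, hcc, ← mul_cyc_comm hc, mul_assoc c, cyc_idem, sub_self]
  calc P * e.ι a * P = P * e.ι Pj * e.ι a * (e.ι Pj * P) := by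
        rw [(hT j).2.cyc_mul, (hT j).2.proj_le]
    _ = P * e.ι (Pj * a * Pj) * P := by simp only [map_mul, mul_assoc]
    _ = P * (e.ι c * (e.ι Pj * P)) := by rw [hcc, map_mul]; simp only [mul_assoc]
    _ = e.ι c * P := by
        rw [(hT j).2.proj_le, ← mul_assoc, ← mul_cyc_comm ((hT j).2.ι_mem hc), mul_assoc, cyc_idem]

lemma member_compresses : Compresses (cyc C (node Lc).ξ₀) C (node Lc).A where
  star_eq := cyc_star _ _
  idem := cyc_idem _ _
  le := member_le Lc hS hT hC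
  comm := fun c hc => mul_cyc_comm hc
  inj := fun c hc h => norm_le_zero_iff.1 (by
    simpa [h] using norm_mul_cyc Lc hS hT hC hc)
  compress := fun y hy => by
    set P := cyc C (node Lc).ξ₀
    have hy' : y ∈ closure (⋃ i, ((S.N i).A.map (emb Lc i).ι : Set (Op Lc.K))) :=
      (alg_coe Lc hS).subset hy
    obtain ⟨u, hu, hlim⟩ := mem_closure_iff_seq_limit.1 hy'
    have hex : ∀ n, ∃ c ∈ C, P * u n * P = c * P := fun n => by
      obtain ⟨j, hj⟩ := Set.mem_iUnion.1 (hu n)
      obtain ⟨a, ha, hae⟩ := StarSubalgebra.mem_map.1 hj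
      obtain ⟨c, hc, -, he⟩ := exists_corner Lc hS hT ha
      exact ⟨_, (hT j).2.ι_mem hc, hae ▸ he⟩
    choose c hcm hce using hex
    have hs : CauchySeq fun n => c n * P := by
      simp only [← hce]
      exact ((hlim.const_mul P).mul_const P).cauchySeq
    have hcau : CauchySeq c := by
      rw [Metric.cauchySeq_iff] at hs ⊢
      intro ε hε
      obtain ⟨n₀, hn₀⟩ := hs ε hε
      refine ⟨n₀, fun m hm n hn => ?_⟩
      have h := hn₀ m hm n hn
      rw [dist_eq_norm, ← sub_mul] at h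
      rw [dist_eq_norm]
      exact (norm_mul_cyc Lc hS hT hC (sub_mem (hcm m) (hcm n))).trans_lt h
    obtain ⟨c', hc'⟩ := cauchySeq_tendsto_of_complete hcau
    refine ⟨c', (member_closed Lc hC).mem_of_tendsto hc' (Eventually.of_forall hcm),
      tendsto_nhds_unique ((hlim.const_mul P).mul_const P) ?_⟩
    simp only [hce]
    exact hc'.mul_const P

lemma member_excised (hD : DichotomyGoal.{0}) {p : ℕ → Op Lc.K} (hp : Excised C p) :
    Excised (node Lc).A p := by
  classical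
  have hle := member_le Lc hS hT hC
  by_cases hA : ∃ i q, Excised ((T i).map (emb Lc i).ι) q ∧ ¬ Inequiv C q p
  · obtain ⟨i, q, hq, hne⟩ := hA
    have hM := (hS.node i).member _ (hT i).1
    have hq' := excised_push Lc hS (hM.excised _ (excised_down (emb Lc i) hq))
    have he : (fun n => (emb Lc i).ι ((emb Lc i).down (q n))) = q :=
      funext fun n => (ι_down_of_mem_map _ (hq.projSeq.mem n)).1
    rw [he] at hq'
    refine Excised.transfer hle hq' (fun n => (hT i).2.map_le (hq.projSeq.mem n)) hp fun h => ?_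
    exact hne (h.symm hp.projSeq (hq.projSeq.mono fun n => (hT i).2.map_le (hq.projSeq.mem n)))
  push Not at hA
  obtain ⟨χ, hP, hχ⟩ := hp
  refine excised_of_dense (hP.mono fun n => hle (hP.mem n)) _ (alg_coe Lc hS).subset ?_
  intro x hx ε hε
  obtain ⟨j, hj⟩ := Set.mem_iUnion.1 hx
  obtain ⟨a, ha, rfl⟩ := StarSubalgebra.mem_map.1 hj
  set e := emb Lc j
  set W := e.window (T j)
  have hM := (hS.node j).member _ (hT j).1
  have hW : Compresses W ((T j).map e.ι) C :=
    { star_eq := e.window_star _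
      idem := e.window_idem _
      le := (hT j).2.map_le
      comm := fun c hc => by
        obtain ⟨b, hb, rfl⟩ := StarSubalgebra.mem_map.1 hc
        exact e.window_comm _ hb
      inj := fun c hc h => by
        obtain ⟨b, hb, rfl⟩ := StarSubalgebra.mem_map.1 hc
        rw [e.window_inj _ h, map_zero]
      compress := fun y hy => ⟨_, StarSubalgebra.mem_map.2 ⟨_, (hT j).2.down_mem y hy, rfl⟩,
        (hT j).2.compress y hy⟩ }
  rcases hD Lc.K W _ C hW (isClosed_map e hM.closed) (isSeparable_map e hM.separable)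
      (isPI_map e hM.pi) p ⟨χ, hP, hχ⟩ with hW0 | ⟨q, hq, hne⟩
  swap
  · exact absurd (hA j q hq) hne
  obtain ⟨c, hc, hzero, -⟩ := exists_corner Lc hS hT ha
  set x' := e.ι (a - c) with hx'
  have hcorner : (1 - W) * x' * (1 - W) = 0 := by
    have h1 : (1 : Op Lc.K) - W = e.ι (cyc (T j) (S.N j).ξ₀) - e.up (cyc (T j) (S.N j).ξ₀) := by
      simp only [W, Emb.window]; abel
    rw [h1, hx']
    obtain ⟨y, hy⟩ : ∃ y, y = a - c := ⟨_, rfl⟩
    rw [← hy] at hzero ⊢
    simp only [sub_mul, mul_sub, ← map_mul, e.ι_up, e.up_ι, e.up_mul, hzero]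
    simp [Emb.up]
  have hsplit : x' = W * x' + (1 - W) * x' * W := by
    have h2 : (1 - W) * x' * W = (1 - W) * x' - (1 - W) * x' * (1 - W) := by
      rw [mul_sub ((1 - W) * x') 1 W, mul_one, sub_sub_cancel]
    rw [h2, hcorner, sub_zero, sub_mul, one_mul, add_sub_cancel]
  have hW0' : Tendsto (fun n => ‖W * p n‖) atTop (𝓝 0) := by
    simpa using hW0 1 (one_mem C)
  have hlim : Tendsto (fun n => ‖p n * e.ι c * p n - χ (e.ι c) • p n‖ + 2 * ‖x'‖ * ‖W * p n‖)
      atTop (𝓝 0) := by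
    simpa using (hχ _ ((hT j).2.ι_mem hc)).add (hW0'.const_mul (2 * ‖x'‖))
  obtain ⟨n, hn⟩ := (hlim.eventually (gt_mem_nhds hε)).exists
  refine ⟨n, χ (e.ι c), le_trans ?_ hn.le⟩
  have hax : e.ι a = e.ι c + x' := by rw [hx', map_sub, add_sub_cancel]
  rw [show p n * e.ι a * p n - χ (e.ι c) • p n =
      (p n * e.ι c * p n - χ (e.ι c) • p n) + p n * x' * p n by rw [hax]; noncomm_ring]
  refine (norm_add_le _ _).trans (add_le_add le_rfl ?_)
  have hp1 : ‖p n‖ ≤ 1 := (hP.norm_eq n).le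
  have hW1 : ‖(1 : Op Lc.K) - W‖ ≤ 1 := by
    have h : star ((1 : Op Lc.K) - W) * (1 - W) = 1 - W := by
      simp [W, sub_mul, mul_sub, e.window_star, e.window_idem]
    have h2 := CStarRing.norm_star_mul_self (x := (1 : Op Lc.K) - W)
    rw [h] at h2
    nlinarith [norm_nonneg ((1 : Op Lc.K) - W), sq_nonneg (‖(1 : Op Lc.K) - W‖ - 1)]
  have hpW : ‖p n * W‖ = ‖W * p n‖ := by
    rw [← norm_star, star_mul, hP.star_eq, e.window_star]
  rw [hsplit, mul_add, add_mul]
  refine (norm_add_le _ _).trans ?_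
  rw [← hsplit]
  have t1 : ‖p n * (W * x') * p n‖ ≤ ‖W * p n‖ * ‖x'‖ := by
    rw [← mul_assoc]
    refine (norm_mul_le _ _).trans ((mul_le_of_le_one_right (norm_nonneg _) hp1).trans ?_)
    rw [← hpW]; exact norm_mul_le _ _
  have t2 : ‖p n * ((1 - W) * x' * W) * p n‖ ≤ ‖x'‖ * ‖W * p n‖ := by
    rw [show p n * ((1 - W) * x' * W) * p n = p n * (1 - W) * x' * (W * p n) by
      simp only [mul_assoc]]
    refine (norm_mul_le _ _).trans (mul_le_mul_of_nonneg_right ?_ (norm_nonneg _))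
    refine (norm_mul_le _ _).trans (mul_le_of_le_one_left (norm_nonneg _) ?_)
    exact (norm_mul_le _ _).trans (mul_le_one₀ hp1 (norm_nonneg _) hW1)
  linarith

lemma member_pi : IsPI C := by
  have hN := hS.node i₀
  have hle : (node Lc).C₀₀ ≤ C := fun x hx => by
    obtain ⟨b, hb, rfl⟩ := StarSubalgebra.mem_map.1 hx
    exact (hT i₀).2.ι_mem (hN.base_le _ (hT i₀).1 hb)
  have hmem : ∀ n, (node Lc).p₀ n ∈ C := fun n =>
    hle (StarSubalgebra.mem_map.2 ⟨_, hN.p0_mem n, rfl⟩)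
  have hex : Excised C (node Lc).p₀ :=
    (excised_push Lc hS hN.p0_excised).mono (member_le Lc hS hT hC) hmem
  refine isPI_of_separates (member_closed Lc hC) (ξ := (node Lc).ξ₀) ?_ (fun n => ?_) hex
    (fun b hb h => ?_) (fun n => ?_)
  · exact ((Lc.J i₀).norm_map _).trans hN.norm_xi
  · exact (Lc.comm i₀ _ _).trans (congrArg (Lc.J i₀) (hN.p0_fix n))
  · refine (member_compresses Lc hS hT hC).inj b hb (ContinuousLinearMap.ext fun v => ?_)
    have hle : cycSpace C (node Lc).ξ₀ ≤ LinearMap.ker (b : Lc.K →ₗ[ℂ] Lc.K) :=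
      cycSpace_le b.isClosed_ker fun c hc => h c hc
    exact hle ((cycSpace C (node Lc).ξ₀).starProjection_apply_mem v)
  · obtain ⟨v, hv, hv1⟩ := (hN.member _ hN.base_mem).pi _ (hN.p0_mem n) (hN.p0_excised.projSeq.ne_zero n)
    refine ⟨_, hle (StarSubalgebra.mem_map.2 ⟨v, hv, rfl⟩), ?_⟩
    rw [hN.p0_excised.projSeq.star_eq, hN.p0_excised.projSeq.idem] at hv1
    show star (Lc.ι i₀ v) * Lc.ι i₀ ((S.N i₀).p₀ n) * Lc.ι i₀ v = 1
    rw [← map_star, ← map_mul, ← map_mul, hv1, map_one]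

end Member

/-- Chains of members at cofinal stages close up. -/
theorem chain_mem (s : ℕ → I) (hs : Monotone s) (C : ∀ k, StarSubalgebra ℂ (Op (S.N (s k)).K))
    (hcof : ∀ i, ∃ k, i ≤ s k) (hC : ∀ k, (S.N (s k)).mem (C k))
    (hchain : ∀ k, (C k).map (S.e (s k) (s (k + 1)) (hs k.le_succ)).ι ≤ C (k + 1)) :
    (node Lc).mem (⨆ k, (C k).map (emb Lc (s k)).ι).topologicalClosure := by
  rw [mem_iff]
  set F : ℕ → StarSubalgebra ℂ (Op (node Lc).K) := fun k => (C k).map (emb Lc (s k)).ι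
  have hF : Monotone F := monotone_nat_of_le_succ fun k => by
    intro x hx
    obtain ⟨c, hc, rfl⟩ := StarSubalgebra.mem_map.1 hx
    exact StarSubalgebra.mem_map.2
      ⟨_, hchain k (StarSubalgebra.mem_map.2 ⟨c, hc, rfl⟩), Lc.ι_compat _ _ _ c⟩
  set D := (⨆ k, F k).topologicalClosure
  choose k₀ hk₀ using hcof
  have htr : ∀ i, ∃ Ti, (S.N i).mem Ti ∧ Linked (emb Lc i) Ti D := by
    intro i
    have hle : ∀ m, i ≤ s (k₀ i + m) := fun m => (hk₀ i).trans (hs (Nat.le_add_right _ _))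
    choose G hG hl using fun m => (hS.emb i _ (hle m)).trace _ (hC (k₀ i + m))
    have hl' : ∀ m, Linked (emb Lc i) (G m) (F (k₀ i + m)) := fun m => by
      have := (hl m).trans (Linked.map (emb Lc (s (k₀ i + m))) (C (k₀ i + m)))
      rwa [emb_compat Lc (hle m)] at this
    have hmono : Monotone fun m => F (k₀ i + m) := fun a b h => hF (Nat.add_le_add_left h _)
    refine ⟨_, (hS.node i).union G (fun a b h => (hl' a).mono (hl' b) (hmono h)) hG, ?_⟩
    have h := Linked.iSup hmono hl'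
    have he : (⨆ m, F (k₀ i + m)) = ⨆ k, F k :=
      le_antisymm (iSup_le fun m => le_iSup F _)
        (iSup_le fun k => (hF (Nat.le_add_left k (k₀ i))).trans
          (le_iSup (fun m => F (k₀ i + m)) k))
    rwa [he] at h
  choose T hT hTl using htr
  refine ⟨T, fun i => ⟨hT i, hTl i⟩, le_antisymm ?_ ?_⟩
  · refine closure_iSup_le (StarSubalgebra.isClosed_topologicalClosure _) fun k => ?_
    intro x hx
    obtain ⟨c, hc, rfl⟩ := StarSubalgebra.mem_map.1 hx
    refine le_closure_iSup (fun i => (T i).map (emb Lc i).ι) (s k)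
      (StarSubalgebra.mem_map.2 ⟨c, ?_, rfl⟩)
    have := (hTl (s k)).down_mem _ (le_closure_iSup F k hx)
    rwa [(emb Lc (s k)).down_ι] at this
  · exact closure_iSup_le (StarSubalgebra.isClosed_topologicalClosure _) fun i => (hTl i).map_le

/-- Every countable subset of the limit algebra lies in a member. -/
theorem exists_mem (hcof : ∃ s : ℕ → I, ∀ i, ∃ k, i ≤ s k) (X : Set (Op Lc.K)) (hX : X.Countable)
    (hXA : X ⊆ (node Lc).A) : ∃ C, (node Lc).mem C ∧ X ⊆ C := by
  classical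
  obtain ⟨s₀, hs₀⟩ := hcof
  have happ : ∀ x : X, ∀ k : ℕ, ∃ j : Σ i, Op (S.N i).K, j.2 ∈ (S.N j.1).A ∧
      ‖(x : Op Lc.K) - Lc.ι j.1 j.2‖ < 1 / (k + 1 : ℝ) := fun x k => by
    obtain ⟨y, hy, hd⟩ := Metric.mem_closure_iff.1 ((alg_coe Lc hS).subset (hXA x.2))
      (1 / (k + 1 : ℝ)) Nat.one_div_pos_of_nat
    obtain ⟨i, hi⟩ := Set.mem_iUnion.1 hy
    obtain ⟨a, ha, rfl⟩ := StarSubalgebra.mem_map.1 hi
    exact ⟨⟨i, a⟩, ha, by rwa [← dist_eq_norm]⟩
  choose app happA hAdist using happ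
  let D : Option (X × ℕ) → Σ i, Op (S.N i).K := fun o => o.elim ⟨i₀, 1⟩ fun q => app q.1 q.2
  have hD : ∀ o, (D o).2 ∈ (S.N (D o).1).A := by
    rintro (_ | q)
    exacts [one_mem _, happA q.1 q.2]
  have := hX.to_subtype
  obtain ⟨f, hf⟩ := exists_surjective_nat (Option (X × ℕ))
  let s : ℕ → I := fun k => Nat.rec (max (s₀ 0) (D (f 0)).1)
    (fun k r => max r (max (s₀ (k + 1)) (D (f (k + 1))).1)) k
  have hs : Monotone s := monotone_nat_of_le_succ fun k => le_max_left _ _
  have hsf : ∀ k, s₀ k ≤ s k ∧ (D (f k)).1 ≤ s k := fun k => by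
    cases k with
    | zero => exact ⟨le_max_left _ _, le_max_right _ _⟩
    | succ k => exact ⟨(le_max_left _ _).trans (le_max_right _ _),
        (le_max_right _ _).trans (le_max_right _ _)⟩
  let d : ∀ k, Op (S.N (s k)).K := fun k => (S.e _ _ (hsf k).2).ι (D (f k)).2
  have hd : ∀ k, d k ∈ (S.N (s k)).A := fun k =>
    (hS.emb _ _ (hsf k).2).map_le (StarSubalgebra.mem_map.2 ⟨_, hD _, rfl⟩)
  have hstep : ∀ k (C : {C // (S.N (s k)).mem C}), ∃ C' : {C // (S.N (s (k + 1))).mem C},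
      d (k + 1) ∈ C'.1 ∧ C.1.map (S.e (s k) (s (k + 1)) (hs k.le_succ)).ι ≤ C'.1 := fun k C => by
    have hM := (hS.node (s k)).member _ C.2
    obtain ⟨t, htC, htc, htd⟩ := hM.separable.exists_countable_dense_subset
    set e := S.e (s k) (s (k + 1)) (hs k.le_succ)
    obtain ⟨C', hC', hsub⟩ := (hS.node (s (k + 1))).cofinal (insert (d (k + 1)) (e.ι '' t))
      ((htc.image _).insert _) (Set.insert_subset (hd (k + 1)) (by
        rintro _ ⟨a, ha, rfl⟩
        exact (hS.emb _ _ _).map_le (StarSubalgebra.mem_map.2 ⟨a, hM.compresses.le (htC ha), rfl⟩)))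
    refine ⟨⟨C', hC'⟩, hsub (Set.mem_insert _ _), fun x hx => ?_⟩
    obtain ⟨a, ha, rfl⟩ := StarSubalgebra.mem_map.1 hx
    have := map_mem_closure e.continuous_ι (htd ha)
      fun b hb => hsub (Set.mem_insert_of_mem _ ⟨b, hb, rfl⟩)
    rwa [((hS.node (s (k + 1))).member _ hC').closed.closure_eq] at this
  choose next hnext₁ hnext₂ using hstep
  obtain ⟨C₀, hC₀, hC₀d⟩ := (hS.node (s 0)).cofinal {d 0} (Set.countable_singleton _)
    (Set.singleton_subset_iff.2 (hd 0))
  let Ch : ∀ k, {C // (S.N (s k)).mem C} := fun k =>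
    Nat.rec (motive := fun k => {C // (S.N (s k)).mem C}) ⟨C₀, hC₀⟩ (fun k C => next k C) k
  have hmem : ∀ k, d k ∈ (Ch k).1 := fun k => by
    cases k with
    | zero => exact hC₀d rfl
    | succ k => exact hnext₁ k (Ch k)
  have hmemC := chain_mem Lc hS s hs (fun k => (Ch k).1)
    (fun i => (hs₀ i).imp fun k hk => hk.trans (hsf k).1) (fun k => (Ch k).2)
    (fun k => hnext₂ k (Ch k))
  refine ⟨_, hmemC, fun x hx => ?_⟩
  set D' := (⨆ k, (Ch k).1.map (emb Lc (s k)).ι).topologicalClosure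
  have hcl : IsClosed (D' : Set (Op Lc.K)) := StarSubalgebra.isClosed_topologicalClosure _
  rw [← hcl.closure_eq]
  refine Metric.mem_closure_iff.2 fun ε hε => ?_
  obtain ⟨k, hk⟩ := exists_nat_one_div_lt hε
  obtain ⟨n, hn⟩ := hf (some (⟨x, hx⟩, k))
  refine ⟨_, le_closure_iSup (fun k => (Ch k).1.map (emb Lc (s k)).ι) n
    (StarSubalgebra.mem_map.2 ⟨d n, hmem n, rfl⟩), ?_⟩
  rw [dist_eq_norm]
  have : (emb Lc (s n)).ι (d n) = Lc.ι (app ⟨x, hx⟩ k).1 (app ⟨x, hx⟩ k).2 := by
    show Lc.ι (s n) ((S.e _ _ _).ι _) = _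
    rw [Lc.ι_compat, hn]
    rfl
  rw [this]
  exact (hAdist ⟨x, hx⟩ k).trans hk

/-- Unions of increasing sequences of members. -/
theorem union_mem (f : ℕ → StarSubalgebra ℂ (Op Lc.K)) (hf : Monotone f)
    (hm : ∀ k, (node Lc).mem (f k)) : (node Lc).mem (⨆ k, f k).topologicalClosure := by
  choose T hT hfT using fun k => (mem_iff Lc).1 (hm k)
  rw [mem_iff]
  refine ⟨fun i => (⨆ k, T k i).topologicalClosure, fun i => ⟨(hS.node i).union (fun k => T k i)
    (fun a b h => (hT a i).2.mono (hT b i).2 (hf h)) fun k => (hT k i).1,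
    Linked.iSup hf fun k => (hT k i).2⟩, le_antisymm ?_ ?_⟩
  · refine closure_iSup_le (StarSubalgebra.isClosed_topologicalClosure _) fun k => ?_
    rw [hfT k]
    refine closure_iSup_le (StarSubalgebra.isClosed_topologicalClosure _) fun i => ?_
    intro x hx
    obtain ⟨c, hc, rfl⟩ := StarSubalgebra.mem_map.1 hx
    exact le_closure_iSup (fun i => ((⨆ k, T k i).topologicalClosure).map (emb Lc i).ι) i
      (StarSubalgebra.mem_map.2 ⟨c, le_closure_iSup (fun k => T k i) k hc, rfl⟩)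
  · exact closure_iSup_le (StarSubalgebra.isClosed_topologicalClosure _) fun i =>
      (Linked.iSup (e := emb Lc i) hf fun k => (hT k i).2).map_le

theorem node_good (hD : DichotomyGoal.{0}) (hcof : ∃ s : ℕ → I, ∀ i, ∃ k, i ≤ s k) :
    (node Lc).Good := by
  have hN := hS.node i₀
  have hM₀ := hN.member _ hN.base_mem
  refine
    { closed := StarSubalgebra.isClosed_topologicalClosure _
      norm_xi := ((Lc.J i₀).norm_map _).trans hN.norm_xi
      p0_mem := fun n => StarSubalgebra.mem_map.2 ⟨_, hN.p0_mem n, rfl⟩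
      p0_fix := fun n => (Lc.comm i₀ _ _).trans (congrArg (Lc.J i₀) (hN.p0_fix n))
      p0_strict := fun n h => hN.p0_strict n ((emb Lc i₀).ι_injective h)
      p0_excised := excised_push Lc hS hN.p0_excised
      base_mem := ?_
      base_le := fun C hC => ?_
      member := fun C hC => ?_
      cofinal := fun X hX hXA => exists_mem Lc hS hcof X hX hXA
      union := union_mem Lc hS
      σ_state := ⟨?_, fun x => ?_⟩
      σ_supp := ?_
      σ_diffuse := fun p hp x hx => ?_ }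
  · rw [mem_iff]
    refine ⟨fun i => (S.N i).C₀₀, fun i => ⟨(hS.node i).base_mem, ?_⟩, le_antisymm ?_ ?_⟩
    · rw [← base_eq Lc hS i]; exact Linked.map _ _
    · exact (base_eq Lc hS i₀).ge.trans (le_closure_iSup (fun i => (S.N i).C₀₀.map (emb Lc i).ι) i₀)
    · exact closure_iSup_le (isClosed_map (emb Lc i₀) hM₀.closed) fun i => (base_eq Lc hS i).le
  · obtain ⟨T, hT, -⟩ := (mem_iff Lc).1 hC
    intro x hx
    obtain ⟨b, hb, rfl⟩ := StarSubalgebra.mem_map.1 hx
    exact (hT i₀).2.ι_mem (hN.base_le _ (hT i₀).1 hb)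
  · obtain ⟨T, hT, hTC⟩ := (mem_iff Lc).1 hC
    exact ⟨member_closed Lc hTC, member_separable Lc hS hT hTC hcof,
      member_pi Lc hS hT hTC, member_compresses Lc hS hT hTC,
      fun p hp => member_excised Lc hS hT hTC hD hp⟩
  · show (S.N i₀).σ ((emb Lc i₀).down 1) = 1
    rw [(emb Lc i₀).down_one, hN.σ_state.1]
  · show 0 ≤ (S.N i₀).σ ((emb Lc i₀).down (star x * x))
    have hpos : 0 ≤ (emb Lc i₀).down (star x * x) := by
      rw [ContinuousLinearMap.nonneg_iff_isPositive]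
      exact ((ContinuousLinearMap.nonneg_iff_isPositive _).1 (star_mul_self_nonneg x)).adjoint_conj _
    obtain ⟨y, hy⟩ := CStarAlgebra.nonneg_iff_eq_star_mul_self.1 hpos
    rw [hy]; exact hN.σ_state.2 y
  · show (S.N i₀).σ ((emb Lc i₀).down (cyc ((S.N i₀).C₀₀.map (emb Lc i₀).ι) _)) = 1
    rw [(emb Lc i₀).cyc_map, (emb Lc i₀).down_up, hN.σ_supp]
  · obtain ⟨b, hb, rfl⟩ := StarSubalgebra.mem_map.1 hx
    refine (hN.σ_diffuse _ (excised_down (emb Lc i₀) hp) b hb).congr fun n => ?_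
    show _ = (S.N i₀).σ ((emb Lc i₀).down ((emb Lc i₀).ι b * p n * star ((emb Lc i₀).ι b)))
    conv_rhs => rw [← (ι_down_of_mem_map (emb Lc i₀) (hp.projSeq.mem n)).1, ← map_star, ← map_mul,
      ← map_mul, (emb Lc i₀).down_ι]

theorem emb_good (i : I) : (emb Lc i).Good where
  map_le := le_closure_iSup (fun i => (S.N i).A.map (Lc.ι i)) i
  p0 := p0_eq Lc hS i
  base := base_eq Lc hS i
  σ_eq := σ_eq Lc hS i
  excised := fun _ hp => excised_push Lc hS hp
  trace := fun C hC => by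
    obtain ⟨T, hT, -⟩ := (mem_iff Lc).1 hC
    exact ⟨T i, hT i⟩

end LimitAux

open LimitAux in
/-- Module Limit. -/
theorem limit (hD : DichotomyGoal.{0}) : LimitGoal := by
  intro I _ _ S hS hcof
  let Λ : LimitNode S :=
    { L := node S.colim
      e := emb S.colim
      J_compat := S.colim.J_compat
      ι_compat := S.colim.ι_compat }
  exact ⟨Λ, node_good S.colim hS hD hcof, emb_good S.colim hS,
    fun s hs C hc hC hch => chain_mem S.colim hS s hs C hc hC hch⟩

end Vale.Agent.P070.Club
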