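import Vale.Agent.P070.Club.Node

/-!
# Module Link: cyclic projections, windows, links and their composition
-/

noncomputable section

namespace Vale.Agent.P070.Club

open scoped InnerProductSpace

section Cyc

universe u

variable {H : Type u} [NormedAddCommGroup H] [InnerProductSpace ℂ H] [CompleteSpace H]
variable {C D : StarSubalgebra ℂ (Op H)} {ξ : H}

lemma cyc_star (C : StarSubalgebra ℂ (Op H)) (ξ : H) : star (cyc C ξ) = cyc C ξ :=
  isStarProjection_starProjection.isSelfAdjoint

lemma cyc_idem (C : StarSubalgebra ℂ (Op H)) (ξ : H) : cyc C ξ * cyc C ξ = cyc C ξ :=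
  isStarProjection_starProjection.isIdempotentElem

lemma apply_mem_cycSpace {c : Op H} (hc : c ∈ C) : c ξ ∈ cycSpace C ξ :=
  Submodule.le_topologicalClosure _ (Submodule.subset_span ⟨c, hc, rfl⟩)

lemma cycSpace_le {M : Submodule ℂ H} (hM : IsClosed (M : Set H)) (h : ∀ c ∈ C, c ξ ∈ M) :
    cycSpace C ξ ≤ M :=
  Submodule.topologicalClosure_minimal _
    (Submodule.span_le.2 (by rintro _ ⟨c, hc, rfl⟩; exact h c hc)) hM

lemma cyc_apply_of_mem {c : Op H} (hc : c ∈ C) : cyc C ξ (c ξ) = c ξ :=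
  Submodule.starProjection_eq_self_iff.2 (apply_mem_cycSpace hc)

lemma cyc_apply_self (C : StarSubalgebra ℂ (Op H)) (ξ : H) : cyc C ξ ξ = ξ :=
  cyc_apply_of_mem (one_mem C)

/-- An operator fixing the orbit absorbs the cyclic projection. -/
lemma mul_cyc_eq {T : Op H} (h : ∀ c ∈ C, T (c ξ) = c ξ) : T * cyc C ξ = cyc C ξ := by
  ext v
  have hle : cycSpace C ξ ≤ LinearMap.ker ((T - 1 : Op H) : H →ₗ[ℂ] H) :=
    cycSpace_le (T - 1 : Op H).isClosed_ker fun c hc => by simp [h c hc]
  have := hle ((cycSpace C ξ).starProjection_apply_mem v)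
  exact sub_eq_zero.1 (by simpa [cyc] using this)

lemma cyc_mul_eq {T : Op H} (hT : star T = T) (h : ∀ c ∈ C, T (c ξ) = c ξ) :
    cyc C ξ * T = cyc C ξ := by
  simpa [cyc_star, hT] using congrArg star (mul_cyc_eq h)

lemma cyc_mul_of_le (h : C ≤ D) : cyc D ξ * cyc C ξ = cyc C ξ :=
  mul_cyc_eq fun _ hc => cyc_apply_of_mem (h hc)

lemma mul_cyc_comm {c : Op H} (hc : c ∈ C) : c * cyc C ξ = cyc C ξ * c := by
  have key : ∀ d ∈ C, cyc C ξ * (d * cyc C ξ) = d * cyc C ξ := fun d hd => by
    ext v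
    have hle : cycSpace C ξ ≤ Submodule.comap (d : H →ₗ[ℂ] H) (cycSpace C ξ) :=
      cycSpace_le ((Submodule.isClosed_topologicalClosure _).preimage d.continuous) fun e he => by
        simpa using apply_mem_cycSpace (mul_mem hd he)
    exact Submodule.starProjection_eq_self_iff.2 (hle ((cycSpace C ξ).starProjection_apply_mem v))
  have h2 := congrArg star (key (star c) (star_mem hc))
  simp only [star_mul, star_star, cyc_star] at h2
  rw [← key c hc, ← mul_assoc, h2]

end Cyc

namespace Emb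

variable {M N L : Node} (e : Emb M N)

@[ext] lemma ext' {e e' : Emb M N} (hJ : ∀ x, e.J x = e'.J x) (hι : ∀ T, e.ι T = e'.ι T) :
    e = e' := by
  obtain ⟨J, ι, _, _⟩ := e
  obtain ⟨J', ι', _, _⟩ := e'
  obtain rfl : J = J' := LinearIsometry.ext hJ
  obtain rfl : ι = ι' := StarAlgHom.ext hι
  rfl

lemma up_apply (T : Op M.K) (x : N.K) :
    e.up T x = e.J (T (ContinuousLinearMap.adjoint e.J.toContinuousLinearMap x)) := rfl

lemma down_apply (T : Op N.K) (x : M.K) :
    e.down T x = ContinuousLinearMap.adjoint e.J.toContinuousLinearMap (T (e.J x)) := rfl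

lemma adjoint_J (x : M.K) : ContinuousLinearMap.adjoint e.J.toContinuousLinearMap (e.J x) = x := by
  refine ext_inner_left ℂ fun y => ?_
  rw [ContinuousLinearMap.adjoint_inner_right]
  exact e.J.inner_map_map y x

lemma adjoint_ι (T : Op M.K) (x : N.K) :
    ContinuousLinearMap.adjoint e.J.toContinuousLinearMap (e.ι T x) =
      T (ContinuousLinearMap.adjoint e.J.toContinuousLinearMap x) := by
  refine ext_inner_left ℂ fun y => ?_
  rw [ContinuousLinearMap.adjoint_inner_right, ← ContinuousLinearMap.adjoint_inner_left,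
    ← ContinuousLinearMap.star_eq_adjoint (e.ι T), ← map_star]
  show ⟪e.ι (star T) (e.J y), x⟫_ℂ = _
  rw [e.comm, ← ContinuousLinearMap.adjoint_inner_left T, ← ContinuousLinearMap.star_eq_adjoint,
    ContinuousLinearMap.adjoint_inner_right]
  rfl

lemma up_J (T : Op M.K) (x : M.K) : e.up T (e.J x) = e.J (T x) := by rw [up_apply, adjoint_J]

lemma down_ι (T : Op M.K) : e.down (e.ι T) = T := by
  ext x; rw [down_apply, e.comm, adjoint_J]

lemma down_up (T : Op M.K) : e.down (e.up T) = T := by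
  ext x; rw [down_apply, up_J, adjoint_J]

lemma down_one : e.down 1 = 1 := by rw [← map_one e.ι, down_ι]

lemma ι_injective : Function.Injective e.ι := fun a b h => by
  rw [← e.down_ι a, h, down_ι]

lemma norm_ι (T : Op M.K) : ‖e.ι T‖ = ‖T‖ :=
  NonUnitalStarAlgHom.norm_map e.ι e.ι_injective T

lemma continuous_down : Continuous e.down :=
  (continuous_const.clm_comp (continuous_id.clm_comp continuous_const) : _)

lemma continuous_ι : Continuous e.ι :=
  AddMonoidHomClass.continuous_of_bound e.ι 1 fun T => by rw [one_mul, norm_ι]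

lemma ι_up (S T : Op M.K) : e.ι S * e.up T = e.up (S * T) := by
  ext x; simp only [mul_apply_eq_comp, up_apply, e.comm]

lemma up_ι (S T : Op M.K) : e.up S * e.ι T = e.up (S * T) := by
  ext x; simp only [mul_apply_eq_comp, up_apply, adjoint_ι]

lemma up_mul (S T : Op M.K) : e.up S * e.up T = e.up (S * T) := by
  ext x; simp only [mul_apply_eq_comp, up_apply, adjoint_J]

lemma star_up (T : Op M.K) : star (e.up T) = e.up (star T) := by
  simp only [ContinuousLinearMap.star_eq_adjoint, up, ContinuousLinearMap.adjoint_comp,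
    ContinuousLinearMap.adjoint_adjoint, ContinuousLinearMap.comp_assoc]

/-- The cyclic projection of an image algebra. -/
lemma cyc_map (C₀ : StarSubalgebra ℂ (Op M.K)) :
    cyc (C₀.map e.ι) N.ξ₀ = e.up (cyc C₀ M.ξ₀) := by
  have h1 : e.up (cyc C₀ M.ξ₀) * cyc (C₀.map e.ι) N.ξ₀ = cyc (C₀.map e.ι) N.ξ₀ :=
    mul_cyc_eq fun c hc => by
      obtain ⟨b, hb, rfl⟩ := StarSubalgebra.mem_map.1 hc
      rw [← e.xi, e.comm, up_J, cyc_apply_of_mem hb]
  have hle : cycSpace C₀ M.ξ₀ ≤ Submodule.comap (e.J.toContinuousLinearMap : M.K →ₗ[ℂ] N.K)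
      (cycSpace (C₀.map e.ι) N.ξ₀) :=
    cycSpace_le ((Submodule.isClosed_topologicalClosure _).preimage e.J.continuous) fun c hc => by
      rw [Submodule.mem_comap]
      show e.J (c M.ξ₀) ∈ _
      rw [← e.comm, e.xi]
      exact apply_mem_cycSpace (StarSubalgebra.mem_map.2 ⟨c, hc, rfl⟩)
  have h2 : cyc (C₀.map e.ι) N.ξ₀ * e.up (cyc C₀ M.ξ₀) = e.up (cyc C₀ M.ξ₀) := by
    ext v
    exact Submodule.starProjection_eq_self_iff.2
      (hle ((cycSpace C₀ M.ξ₀).starProjection_apply_mem _))
  have h3 := congrArg star h1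
  rw [star_mul, cyc_star, star_up, cyc_star, h2] at h3
  exact h3.symm

/-! ### Windows -/

variable (C₀ : StarSubalgebra ℂ (Op M.K))

lemma window_star : star (e.window C₀) = e.window C₀ := by
  simp [window, star_up, ← map_star, cyc_star]

lemma window_idem : e.window C₀ * e.window C₀ = e.window C₀ := by
  simp only [window, add_mul, mul_add, sub_mul, mul_sub, one_mul, mul_one, ← map_mul, ι_up, up_ι,
    up_mul, cyc_idem]
  abel

lemma window_J (x : M.K) : e.window C₀ (e.J x) = e.J x := by
  simp [window, e.comm, up_J]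

lemma window_comm {c : Op M.K} (hc : c ∈ C₀) :
    e.ι c * e.window C₀ = e.window C₀ * e.ι c := by
  simp only [window, mul_add, add_mul, mul_sub, sub_mul, mul_one, one_mul, ← map_mul, ι_up, up_ι,
    mul_cyc_comm hc]

lemma window_mul_window {C₀' : StarSubalgebra ℂ (Op M.K)} (h : C₀' ≤ C₀) :
    e.window C₀ * e.window C₀' = e.window C₀ := by
  simp only [window, add_mul, mul_add, sub_mul, mul_sub, one_mul, mul_one, ← map_mul, ι_up, up_ι,
    up_mul, cyc_mul_of_le h]
  abel

lemma window_mul_window' {C₀' : StarSubalgebra ℂ (Op M.K)} (h : C₀' ≤ C₀) :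
    e.window C₀' * e.window C₀ = e.window C₀ := by
  simpa [window_star] using congrArg star (e.window_mul_window C₀ h)

lemma map_mul_comm {c : Op M.K} (hc : c ∈ C₀) :
    e.window C₀ * e.ι c * e.window C₀ = e.ι c * e.window C₀ := by
  rw [← e.window_comm C₀ hc, mul_assoc, e.window_idem]

lemma window_inj {c : Op M.K} (h : e.ι c * e.window C₀ = 0) : c = 0 := by
  ext x
  have := DFunLike.congr_fun h (e.J x)
  rw [mul_apply_eq_comp, window_J, e.comm] at this
  exact e.J.injective (by simpa using this)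

variable (e' : Emb N L)

lemma trans_ι (T : Op M.K) : (e.trans e').ι T = e'.ι (e.ι T) := rfl

lemma trans_J (x : M.K) : (e.trans e').J x = e'.J (e.J x) := rfl

lemma adjoint_trans (x : L.K) :
    ContinuousLinearMap.adjoint (e.trans e').J.toContinuousLinearMap x =
      ContinuousLinearMap.adjoint e.J.toContinuousLinearMap
        (ContinuousLinearMap.adjoint e'.J.toContinuousLinearMap x) := by
  refine ext_inner_left ℂ fun y => ?_
  rw [ContinuousLinearMap.adjoint_inner_right, ContinuousLinearMap.adjoint_inner_right,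
    ContinuousLinearMap.adjoint_inner_right]
  rfl

lemma down_trans (T : Op L.K) : (e.trans e').down T = e.down (e'.down T) := by
  ext x; exact adjoint_trans e e' _

lemma up_trans (T : Op M.K) : (e.trans e').up T = e'.up (e.up T) := by
  ext x; simp only [up_apply, adjoint_trans, trans_J]

end Emb

namespace Linked

variable {M N L : Node} {e : Emb M N} {C₀ C₀' : StarSubalgebra ℂ (Op M.K)}
  {C C' : StarSubalgebra ℂ (Op N.K)}

lemma ι_mem (h : Linked e C₀ C) {c : Op M.K} (hc : c ∈ C₀) : e.ι c ∈ C :=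
  h.map_le (StarSubalgebra.mem_map.2 ⟨c, hc, rfl⟩)

lemma mem_iff (h : Linked e C₀ C) {c : Op M.K} : c ∈ C₀ ↔ ∃ y ∈ C, e.down y = c :=
  ⟨fun hc => ⟨_, h.ι_mem hc, e.down_ι c⟩, by rintro ⟨y, hy, rfl⟩; exact h.down_mem y hy⟩

lemma mono (h : Linked e C₀ C) (h' : Linked e C₀' C') (hle : C ≤ C') : C₀ ≤ C₀' := fun c hc => by
  obtain ⟨y, hy, rfl⟩ := h.mem_iff.1 hc
  exact h'.down_mem y (hle hy)

/-- The trace of an algebra is determined by it. -/
theorem unique (h : Linked e C₀ C) (h' : Linked e C₀' C) : C₀ = C₀' :=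
  le_antisymm (h.mono h' le_rfl) (h'.mono h le_rfl)

lemma cyc_mul (h : Linked e C₀ C) : cyc C N.ξ₀ * e.ι (cyc C₀ M.ξ₀) = cyc C N.ξ₀ := by
  simpa [← map_star, cyc_star] using congrArg star h.proj_le

/-- Every algebra is linked to its image. -/
theorem map (e : Emb M N) (C₀ : StarSubalgebra ℂ (Op M.K)) : Linked e C₀ (C₀.map e.ι) where
  map_le := le_rfl
  proj_le := by rw [e.cyc_map, e.ι_up, cyc_idem]
  down_mem := fun y hy => by
    obtain ⟨c, hc, rfl⟩ := StarSubalgebra.mem_map.1 hy
    rwa [e.down_ι]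
  compress := fun y hy => by
    obtain ⟨c, hc, rfl⟩ := StarSubalgebra.mem_map.1 hy
    rw [e.down_ι, e.map_mul_comm C₀ hc]

theorem refl (C : StarSubalgebra ℂ (Op M.K)) : Linked (Emb.refl M) C C := by
  have h : C.map (Emb.refl M).ι = C := SetLike.ext fun x => by
    rw [StarSubalgebra.mem_map]
    exact ⟨by rintro ⟨y, hy, rfl⟩; exact hy, fun hx => ⟨x, hx, rfl⟩⟩
  have := map (Emb.refl M) C
  rwa [h] at this

/-- The window of a composite lies below both windows. -/
theorem window_trans {e' : Emb N L} (h : Linked e C₀ C) :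
    (e.trans e').window C₀ = e'.ι (e.window C₀) * e'.window C ∧
      (e.trans e').window C₀ = e'.window C * e'.ι (e.window C₀) := by
  have hR : e.up (cyc C₀ M.ξ₀) * cyc C N.ξ₀ = e.up (cyc C₀ M.ξ₀) := by
    rw [← e.cyc_map]
    simpa [cyc_star] using congrArg star (cyc_mul_of_le (ξ := N.ξ₀) h.map_le)
  have h1 : (e.trans e').window C₀ = e'.ι (e.window C₀) * e'.window C := by
    simp only [Emb.window, Emb.trans_ι, Emb.up_trans, map_add, map_sub, map_one, add_mul, mul_add,
      sub_mul, mul_sub, one_mul, mul_one, ← map_mul, e'.ι_up, h.proj_le, hR]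
    abel
  refine ⟨h1, ?_⟩
  simpa [Emb.window_star, ← map_star] using congrArg star h1

theorem trans {e' : Emb N L} {C₂ : StarSubalgebra ℂ (Op L.K)} (h : Linked e C₀ C)
    (h' : Linked e' C C₂) : Linked (e.trans e') C₀ C₂ where
  map_le := by
    intro x hx
    obtain ⟨c, hc, rfl⟩ := StarSubalgebra.mem_map.1 hx
    exact h'.ι_mem (h.ι_mem hc)
  proj_le := by
    rw [Emb.trans_ι]
    calc e'.ι (e.ι (cyc C₀ M.ξ₀)) * cyc C₂ L.ξ₀
        = e'.ι (e.ι (cyc C₀ M.ξ₀)) * (e'.ι (cyc C N.ξ₀) * cyc C₂ L.ξ₀) := by rw [h'.proj_le]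
      _ = cyc C₂ L.ξ₀ := by rw [← mul_assoc, ← map_mul, h.proj_le, h'.proj_le]
  down_mem := fun y hy => by
    rw [Emb.down_trans]
    exact h.down_mem _ (h'.down_mem _ hy)
  compress := fun y hy => by
    obtain ⟨w1, w2⟩ := h.window_trans (e' := e')
    have hd := h'.down_mem y hy
    rw [Emb.trans_ι, Emb.down_trans]
    calc (e.trans e').window C₀ * y * (e.trans e').window C₀
        = e'.ι (e.window C₀) * (e'.window C * y * e'.window C) * e'.ι (e.window C₀) := by
          conv_lhs => arg 1; arg 1; rw [w1]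
          rw [w2]; simp only [mul_assoc]
      _ = e'.ι (e.window C₀) * (e'.ι (e'.down y) * (e'.window C * e'.ι (e.window C₀))) := by
          rw [h'.compress y hy]; simp only [mul_assoc]
      _ = e'.ι (e.window C₀ * e'.down y * e.window C₀) * e'.window C := by
          rw [← w2, w1]; simp only [map_mul, mul_assoc]
      _ = e'.ι (e.ι (e.down (e'.down y))) * (e.trans e').window C₀ := by
          rw [h.compress _ hd, w1]; simp only [map_mul, mul_assoc]

/-- Links pass to closed increasing unions. -/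
theorem iSup {e : Emb M N} {ι' : Type*} [Nonempty ι'] [Preorder ι'] [IsDirectedOrder ι']
    {F₀ : ι' → StarSubalgebra ℂ (Op M.K)} {F : ι' → StarSubalgebra ℂ (Op N.K)}
    (hF : Monotone F) (h : ∀ k, Linked e (F₀ k) (F k)) :
    Linked e (⨆ k, F₀ k).topologicalClosure (⨆ k, F k).topologicalClosure := by
  have hF₀ : Monotone F₀ := fun a b hab => (h a).mono (h b) (hF hab)
  set C₀ := (⨆ k, F₀ k).topologicalClosure
  have hle : ∀ k, F₀ k ≤ C₀ := fun k =>
    (le_iSup F₀ k).trans (StarSubalgebra.le_topologicalClosure _)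
  have hcoe : ((⨆ k, F k : StarSubalgebra ℂ (Op N.K)) : Set (Op N.K)) = ⋃ k, (F k : Set _) :=
    StarSubalgebra.coe_iSup_of_directed hF.directed_le
  have hind : ∀ {P : Op N.K → Prop}, IsClosed {y | P y} → (∀ k, ∀ y ∈ F k, P y) →
      ∀ y ∈ (⨆ k, F k).topologicalClosure, P y := by
    intro P hP hk y hy
    rw [← SetLike.mem_coe, StarSubalgebra.topologicalClosure_coe, hcoe] at hy
    exact closure_minimal (Set.iUnion_subset fun k z hz => hk k z hz) hP hy
  refine ⟨?_, ?_, ?_, ?_⟩
  · intro x hx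
    obtain ⟨c, hc, rfl⟩ := StarSubalgebra.mem_map.1 hx
    have hc' : c ∈ closure ((⨆ k, F₀ k : StarSubalgebra ℂ (Op M.K)) : Set (Op M.K)) := hc
    show e.ι c ∈ closure ((⨆ k, F k : StarSubalgebra ℂ (Op N.K)) : Set (Op N.K))
    refine map_mem_closure e.continuous_ι hc' fun a ha => ?_
    rw [StarSubalgebra.coe_iSup_of_directed hF₀.directed_le, Set.mem_iUnion] at ha
    obtain ⟨k, hk⟩ := ha
    exact (le_iSup F k) ((h k).ι_mem hk)
  · refine mul_cyc_eq fun c hc => hind (P := fun y => e.ι (cyc C₀ M.ξ₀) (y N.ξ₀) = y N.ξ₀)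
      (isClosed_eq (by fun_prop) (by fun_prop)) (fun k y hy => ?_) c hc
    have h1 : e.ι (cyc (F₀ k) M.ξ₀) (y N.ξ₀) = y N.ξ₀ := by
      have := DFunLike.congr_fun (h k).proj_le (y N.ξ₀)
      rwa [mul_apply_eq_comp, cyc_apply_of_mem hy] at this
    rw [← h1, ← mul_apply_eq_comp, ← map_mul, cyc_mul_of_le (hle k)]
  · refine hind (P := fun y => e.down y ∈ C₀)
      ((StarSubalgebra.isClosed_topologicalClosure _).preimage e.continuous_down) fun k y hy => ?_
    exact hle k ((h k).down_mem y hy)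
  · refine hind (P := fun y => e.window C₀ * y * e.window C₀ = e.ι (e.down y) * e.window C₀)
      (isClosed_eq (by fun_prop) ((e.continuous_ι.comp e.continuous_down).mul continuous_const))
      fun k y hy => ?_
    have h1 := (h k).compress y hy
    calc e.window C₀ * y * e.window C₀
        = e.window C₀ * (e.window (F₀ k) * y * e.window (F₀ k)) * e.window C₀ := by
          conv_lhs => arg 1; arg 1; rw [← e.window_mul_window C₀ (hle k)]
          conv_lhs => arg 2; rw [← e.window_mul_window' C₀ (hle k)]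
          simp only [mul_assoc]
      _ = e.window C₀ * e.ι (e.down y) * (e.window (F₀ k) * e.window C₀) := by
          rw [h1]; simp only [mul_assoc]
      _ = e.ι (e.down y) * e.window C₀ := by
          rw [e.window_mul_window' C₀ (hle k), e.map_mul_comm C₀ (hle k ((h k).down_mem y hy))]

end Linked

namespace Emb.Good

variable {L M N : Node}

/-- The identity embedding is good. -/
theorem refl (M : Node) : (Emb.refl M).Good where
  map_le := (Linked.refl M.A).map_le
  p0 := fun _ => rfl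
  base := SetLike.ext fun x => by
    rw [StarSubalgebra.mem_map]
    exact ⟨by rintro ⟨y, hy, rfl⟩; exact hy, fun hx => ⟨x, hx, rfl⟩⟩
  σ_eq := fun T => congrArg M.σ (((Emb.refl M).down_ι T).symm)
  excised := fun _ hp => hp
  trace := fun C hC => ⟨C, hC, Linked.refl C⟩

/-- A composite of good embeddings is good. -/
theorem trans {e : Emb L M} {e' : Emb M N} (he : e.Good) (he' : e'.Good) : (e.trans e').Good where
  map_le := by
    intro x hx
    obtain ⟨c, hc, rfl⟩ := StarSubalgebra.mem_map.1 hx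
    exact he'.map_le (StarSubalgebra.mem_map.2
      ⟨e.ι c, he.map_le (StarSubalgebra.mem_map.2 ⟨c, hc, rfl⟩), rfl⟩)
  p0 := fun n => by rw [Emb.trans_ι, he.p0, he'.p0]
  base := by
    rw [← he'.base, ← he.base]
    exact SetLike.ext fun x => by simp [StarSubalgebra.mem_map, Emb.trans_ι]
  σ_eq := fun T => by rw [he'.σ_eq, he.σ_eq, Emb.down_trans]
  excised := fun p hp => he'.excised _ (he.excised p hp)
  trace := fun C hC => by
    obtain ⟨C₁, h1, l1⟩ := he'.trace C hC
    obtain ⟨C₀, h0, l0⟩ := he.trace C₁ h1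
    exact ⟨C₀, h0, l0.trans l1⟩

end Emb.Good

end Vale.Agent.P070.Club
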