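import Mathlib

/-!
Tools for the model of one step of the ZFC counterexample: blockwise operators on Hilbert sums, orthonormal
families and the partial isometry carrying one family to another.
-/

universe u v

open InnerProductSpace
open scoped ENNReal InnerProductSpace

namespace Vale.Agent.P070.Club.Mdl

section Diag

variable {ι : Type u} {G : ι → Type u} [∀ i, NormedAddCommGroup (G i)]
  [∀ i, InnerProductSpace ℂ (G i)]

lemma memℓp_map {T : ∀ i, G i →L[ℂ] G i} {C : ℝ} (hT : ∀ i, ‖T i‖ ≤ C) (x : lp G 2) :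
    Memℓp (fun i => T i (x i)) 2 := by
  have hx := (lp.memℓp x).summable (by norm_num)
  refine memℓp_gen (Summable.of_nonneg_of_le (fun i => by positivity) (fun i => ?_)
    (hx.mul_left (max C 0 ^ 2)))
  have h : ‖T i (x i)‖ ≤ max C 0 * ‖x i‖ :=
    ((T i).le_opNorm _).trans
      (mul_le_mul_of_nonneg_right ((hT i).trans (le_max_left _ _)) (norm_nonneg _))
  simp only [ENNReal.toReal_ofNat, Real.rpow_two]
  rw [← mul_pow]
  exact pow_le_pow_left₀ (norm_nonneg _) h 2

/-- The blockwise operator of a bounded family. -/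
noncomputable def diag (T : ∀ i, G i →L[ℂ] G i) (C : ℝ) (hT : ∀ i, ‖T i‖ ≤ C) :
    lp G 2 →L[ℂ] lp G 2 :=
  LinearMap.mkContinuous
    { toFun := fun x => ⟨fun i => T i (x i), memℓp_map hT x⟩
      map_add' := fun x y => lp.ext (funext fun i => by simp; rfl)
      map_smul' := fun c x => lp.ext (funext fun i => by simp) }
    (max C 0) fun x => by
      refine lp.norm_le_of_forall_sum_le (by norm_num) (by positivity) fun s => ?_
      simp only [ENNReal.toReal_ofNat, Real.rpow_two, mul_pow]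
      refine (Finset.sum_le_sum fun i _ => ?_).trans
        ((Finset.mul_sum s (fun i => ‖x i‖ ^ 2) (max C 0 ^ 2)).symm.trans_le
          (mul_le_mul_of_nonneg_left ?_ (sq_nonneg _)))
      · show ‖T i (x i)‖ ^ 2 ≤ max C 0 ^ 2 * ‖x i‖ ^ 2
        rw [← mul_pow]
        exact pow_le_pow_left₀ (norm_nonneg _) (((T i).le_opNorm _).trans
          (mul_le_mul_of_nonneg_right ((hT i).trans (le_max_left _ _)) (norm_nonneg _))) 2
      · simpa using lp.sum_rpow_le_norm_rpow (p := 2) (by norm_num) x s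

variable {T : ∀ i, G i →L[ℂ] G i} {C : ℝ} {hT : ∀ i, ‖T i‖ ≤ C}

@[simp]
lemma diag_apply (x : lp G 2) (i : ι) : diag T C hT x i = T i (x i) := rfl

lemma diag_single [DecidableEq ι] (i : ι) (a : G i) :
    diag T C hT (lp.single 2 i a) = lp.single 2 i (T i a) := by
  refine lp.ext (funext fun j => ?_)
  rw [diag_apply, lp.single_apply, lp.single_apply]
  by_cases h : j = i
  · subst h; simp
  · simp [h]

lemma norm_diag_le : ‖diag T C hT‖ ≤ max C 0 :=
  LinearMap.mkContinuous_norm_le _ (le_max_right _ _) _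

variable [∀ i, CompleteSpace (G i)] {A : Type v} [CStarAlgebra A]

omit [∀ i, CompleteSpace (G i)] in
lemma inner_diag (x y : lp G 2) : ⟪x, diag T C hT y⟫_ℂ = ∑' i, ⟪x i, T i (y i)⟫_ℂ := by
  rw [lp.inner_eq_tsum]; rfl

/-- A family of representations acting blockwise. -/
noncomputable def diagHom (φ : ∀ i, A →⋆ₐ[ℂ] (G i →L[ℂ] G i)) :
    A →⋆ₐ[ℂ] (lp G 2 →L[ℂ] lp G 2) where
  toFun a := diag (fun i => φ i a) ‖a‖ fun i => NonUnitalStarAlgHom.norm_apply_le (φ i) a
  map_one' := by ext x i; simp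
  map_zero' := by ext x i; simp
  map_mul' a b := by ext x i; simp
  map_add' a b := by ext x i; simp
  commutes' c := by ext x i; simp [Algebra.algebraMap_eq_smul_one]
  map_star' a := by
    rw [ContinuousLinearMap.star_eq_adjoint]
    refine (ContinuousLinearMap.eq_adjoint_iff _ _).2 fun x y => ?_
    rw [lp.inner_eq_tsum, lp.inner_eq_tsum]
    refine tsum_congr fun i => ?_
    show ⟪φ i (star a) (x i), y i⟫_ℂ = ⟪x i, φ i a (y i)⟫_ℂ
    rw [map_star, ContinuousLinearMap.star_eq_adjoint, ContinuousLinearMap.adjoint_inner_left]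

@[simp]
lemma diagHom_apply (φ : ∀ i, A →⋆ₐ[ℂ] (G i →L[ℂ] G i)) (a : A) (x : lp G 2) (i : ι) :
    diagHom φ a x i = φ i a (x i) := rfl

lemma diagHom_single [DecidableEq ι] (φ : ∀ i, A →⋆ₐ[ℂ] (G i →L[ℂ] G i)) (a : A) (i : ι) (v : G i) :
    diagHom φ a (lp.single 2 i v) = lp.single 2 i (φ i a v) :=
  diag_single (T := fun i => φ i a) (C := ‖a‖)
    (hT := fun i => NonUnitalStarAlgHom.norm_apply_le (φ i) a) i v

end Diag

section Family

open ContinuousLinearMap

variable {H : Type u} [NormedAddCommGroup H] [InnerProductSpace ℂ H] [CompleteSpace H]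
variable {I J : Type u} {v w : I → H} (hv : Orthonormal ℂ v) (hw : Orthonormal ℂ w)

/-- The isometry of an orthonormal family. -/
noncomputable def famMap : lp (fun _ : I => ℂ) 2 →L[ℂ] H :=
  hv.orthogonalFamily.linearIsometry.toContinuousLinearMap

lemma norm_famMap (s : lp (fun _ : I => ℂ) 2) : ‖famMap hv s‖ = ‖s‖ :=
  hv.orthogonalFamily.linearIsometry.norm_map s

lemma famMap_single [DecidableEq I] (i : I) : famMap hv (lp.single 2 i 1) = v i := by
  show hv.orthogonalFamily.linearIsometry _ = _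
  rw [hv.orthogonalFamily.linearIsometry_apply_single]
  simp

lemma adjoint_famMap_apply (x : H) (i : I) : adjoint (famMap hv) x i = ⟪v i, x⟫_ℂ := by
  classical
  rw [← famMap_single hv i, ← adjoint_inner_right, lp.inner_single_left]
  simp

lemma adjoint_famMap_comp : (adjoint (famMap hv)).comp (famMap hv) = 1 :=
  (norm_map_iff_adjoint_comp_self _).1 (norm_famMap hv)

lemma adjoint_famMap_self (s : lp (fun _ : I => ℂ) 2) : adjoint (famMap hv) (famMap hv s) = s :=
  congrArg (fun T => T s) (adjoint_famMap_comp hv)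

lemma adjoint_famMap_vec [DecidableEq I] (i : I) : adjoint (famMap hv) (v i) = lp.single 2 i 1 := by
  rw [← famMap_single hv i, adjoint_famMap_self]

/-- The partial isometry sending the first family to the second. -/
noncomputable def pisom : H →L[ℂ] H := (famMap hw).comp (adjoint (famMap hv))

lemma pisom_vec (i : I) : pisom hv hw (v i) = w i := by
  classical
  simp [pisom, adjoint_famMap_vec hv i, famMap_single hw i]

lemma pisom_eq_zero {x : H} (hx : ∀ i, ⟪v i, x⟫_ℂ = 0) : pisom hv hw x = 0 := by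
  have h : adjoint (famMap hv) x = 0 :=
    lp.ext (funext fun i => by rw [adjoint_famMap_apply, hx]; rfl)
  simp [pisom, h]

lemma star_pisom : star (pisom hv hw) = pisom hw hv := by
  rw [star_eq_adjoint, pisom, adjoint_comp, adjoint_adjoint]; rfl

lemma pisom_mul_pisom {u : I → H} (hu : Orthonormal ℂ u) :
    pisom hw hu * pisom hv hw = pisom hv hu := by
  ext x
  simp [pisom, adjoint_famMap_self]

lemma norm_pisom_le : ‖pisom hv hw‖ ≤ 1 := by
  refine opNorm_le_bound _ zero_le_one fun x => ?_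
  rw [pisom, comp_apply, norm_famMap, one_mul]
  refine ((adjoint (famMap hv)).le_opNorm x).trans (mul_le_of_le_one_left (norm_nonneg _) ?_)
  rw [LinearIsometryEquiv.norm_map]
  exact opNorm_le_bound _ zero_le_one fun s => by rw [norm_famMap, one_mul]

/-- Two mutually orthogonal families spanning everything. -/
structure Total {I J : Type u} (v : I → H) (z : J → H) : Prop where
  orth : ∀ i j, ⟪v i, z j⟫_ℂ = 0
  total : ∀ x, (∀ i, ⟪v i, x⟫_ℂ = 0) → (∀ j, ⟪z j, x⟫_ℂ = 0) → x = 0

variable {z : J → H} (hz : Orthonormal ℂ z)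

include hz in
lemma Total.add_eq_one (h : Total v z) : pisom hv hv + pisom hz hz = 1 := by
  have hp : ∀ {K : Type u} {a : K → H} (ha : Orthonormal ℂ a) (k : K) (x : H),
      ⟪a k, pisom ha ha x⟫_ℂ = ⟪a k, x⟫_ℂ := fun ha k x => by
    rw [← adjoint_inner_left, ← star_eq_adjoint, star_pisom, pisom_vec]
  have h0 : ∀ j, pisom hv hv (z j) = 0 := fun j => pisom_eq_zero hv hv fun i => h.orth i j
  have h0' : ∀ i, pisom hz hz (v i) = 0 := fun i => pisom_eq_zero hz hz fun j => by
    rw [← inner_conj_symm, h.orth i j, map_zero]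
  ext x
  refine sub_eq_zero.1 (h.total _ (fun i => ?_) fun j => ?_)
  · simp only [add_apply, one_apply_eq_self, inner_sub_right, inner_add_right, hp hv]
    rw [← adjoint_inner_left (pisom hz hz), ← star_eq_adjoint, star_pisom, h0', inner_zero_left,
      add_zero, sub_self]
  · simp only [add_apply, one_apply_eq_self, inner_sub_right, inner_add_right, hp hz]
    rw [← adjoint_inner_left (pisom hv hv), ← star_eq_adjoint, star_pisom, h0, inner_zero_left,
      zero_add, sub_self]

/-- Operators which agree on two total families are equal. -/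
lemma Total.ext_op (h : Total v z) {S S' : H →L[ℂ] H} (h₁ : ∀ i, S (v i) = S' (v i))
    (h₂ : ∀ j, S (z j) = S' (z j)) : S = S' := by
  ext x
  refine sub_eq_zero.1 ?_
  set D := S - S' with hD
  have hd : ∀ y, ⟪adjoint D y, x⟫_ℂ = 0 := fun y => by
    have h0 : adjoint D y = 0 := h.total _
      (fun i => by rw [adjoint_inner_right, hD, sub_apply, h₁, sub_self, inner_zero_left])
      (fun j => by rw [adjoint_inner_right, hD, sub_apply, h₂, sub_self, inner_zero_left])
    rw [h0, inner_zero_left]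
  have h3 := hd (D x)
  rw [adjoint_inner_left] at h3
  exact inner_self_eq_zero.1 h3

end Family

section Sum

open ContinuousLinearMap

variable {H : Type u} [NormedAddCommGroup H] [InnerProductSpace ℂ H] [CompleteSpace H]

lemma norm_sq_sum_of_orth {ι : Type v} (t : Finset ι) (g : ι → H)
    (h : ∀ i j, i ≠ j → ⟪g i, g j⟫_ℂ = 0) : ‖∑ i ∈ t, g i‖ ^ 2 = ∑ i ∈ t, ‖g i‖ ^ 2 := by
  classical
  induction t using Finset.induction_on with
  | empty => simp
  | insert i t hi ih =>
    have h0 : ⟪g i, ∑ j ∈ t, g j⟫_ℂ = 0 := by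
      rw [inner_sum]
      exact Finset.sum_eq_zero fun j hj => h i j fun e => hi (e ▸ hj)
    rw [Finset.sum_insert hi, Finset.sum_insert hi, sq,
      norm_add_sq_eq_norm_sq_add_norm_sq_of_inner_eq_zero _ _ h0, ← sq, ← sq, ih]

variable {r : ℕ → H →L[ℂ] H} (hs : ∀ n, star (r n) = r n) (h0 : r 0 = 1)
  (hm : ∀ m n, m ≤ n → r n * r m = r n)
include hs hm

lemma gap_orth (x : H) {i j : ℕ} (hij : i ≠ j) :
    ⟪(r i - r (i + 1)) x, (r j - r (j + 1)) x⟫_ℂ = 0 := by
  wlog h : i < j generalizing i j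
  · rw [← inner_conj_symm, this (Ne.symm hij) (lt_of_le_of_ne (not_lt.1 h) hij.symm), map_zero]
  have e : ∀ m, m ≤ j → r m * (r j - r (j + 1)) = r j - r (j + 1) := fun m hmj => by
    have a : ∀ k, m ≤ k → r m * r k = r k := fun k hk => by
      rw [← hs m, ← hs k, ← star_mul, hm m k hk]
    rw [mul_sub, a j hmj, a (j + 1) (hmj.trans j.le_succ)]
  rw [← adjoint_inner_right, ← star_eq_adjoint, star_sub, hs, hs, ← mul_apply_eq_comp, sub_mul,
    e i h.le, e (i + 1) h, sub_self, zero_apply, inner_zero_right]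

include h0 in
lemma sum_gap_le (x : H) (t : Finset ℕ) :
    ∑ i ∈ t, ‖(r i - r (i + 1)) x‖ ^ 2 ≤ ‖x‖ ^ 2 := by
  obtain ⟨N, hN⟩ := t.exists_nat_subset_range
  refine (Finset.sum_le_sum_of_subset_of_nonneg hN fun _ _ _ => sq_nonneg _).trans ?_
  rw [← norm_sq_sum_of_orth _ _ fun i j hij => gap_orth hs hm x hij, ← sum_apply,
    Finset.sum_range_sub' (fun i => r i), h0]
  have hp : IsStarProjection (1 - r N) :=
    (⟨hm N N le_rfl, hs N⟩ : IsStarProjection (r N)).one_sub
  refine pow_le_pow_left₀ (norm_nonneg _) (((1 - r N).le_opNorm x).trans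
    (mul_le_of_le_one_left (norm_nonneg x) hp.norm_le)) 2

include h0 in
lemma norm_sum_gap_le (c : ℕ → ℂ) (t : Finset ℕ) {C : ℝ} (hC : 0 ≤ C)
    (hc : ∀ i ∈ t, ‖c i‖ ≤ C) : ‖∑ i ∈ t, c i • (r i - r (i + 1))‖ ≤ C := by
  refine opNorm_le_bound _ hC fun x => ?_
  refine (pow_le_pow_iff_left₀ (norm_nonneg _) (by positivity) two_ne_zero).1 ?_
  rw [sum_apply, norm_sq_sum_of_orth _ _ fun i j hij => by
    rw [smul_apply, smul_apply, inner_smul_left, inner_smul_right, gap_orth hs hm x hij]
    simp]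
  calc ∑ i ∈ t, ‖(c i • (r i - r (i + 1))) x‖ ^ 2
      ≤ ∑ i ∈ t, C ^ 2 * ‖(r i - r (i + 1)) x‖ ^ 2 := Finset.sum_le_sum fun i hi => by
        rw [smul_apply, norm_smul, mul_pow]
        exact mul_le_mul_of_nonneg_right (pow_le_pow_left₀ (norm_nonneg _) (hc i hi) 2)
          (sq_nonneg _)
    _ ≤ (C * ‖x‖) ^ 2 := by
        rw [← Finset.mul_sum, mul_pow]
        exact mul_le_mul_of_nonneg_left (sum_gap_le hs h0 hm x t) (sq_nonneg C)

include h0 in
lemma summable_gap {c : ℕ → ℂ} (hc : Filter.Tendsto c Filter.atTop (nhds 0)) :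
    Summable fun n => c n • (r n - r (n + 1)) := by
  refine summable_iff_vanishing_norm.2 fun ε hε => ?_
  obtain ⟨N, hN⟩ := Metric.tendsto_atTop.1 hc (ε / 2) (by positivity)
  refine ⟨Finset.range N, fun t ht => ?_⟩
  refine lt_of_le_of_lt (norm_sum_gap_le hs h0 hm c t (half_pos hε).le fun i hi => ?_)
    (half_lt_self hε)
  have hiN : N ≤ i := by
    by_contra h
    exact Finset.disjoint_left.1 ht hi (Finset.mem_range.2 (not_le.1 h))
  simpa [dist_eq_norm] using (hN i hiN).le

end Sum

end Vale.Agent.P070.Club.Mdl
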