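import Vale.Agent.P070.Club.Goals
import Vale.Agent.P070.Club.ModelAux

/-!
# The space and operators of one step

The new space is a Hilbert sum over paths: the root carries the old space, and a child of a path
is given by an edge, a position and a vector of an orthonormal basis of the corresponding spectral
piece of the space at that path; its space is the fibre of the edge at that position.
-/

open Filter Topology InnerProductSpace
open scoped InnerProductSpace

namespace Vale.Agent.P070.Club

namespace Mdl

variable {K : Type} [NormedAddCommGroup K] [InnerProductSpace ℂ K] [CompleteSpace K]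
variable (d : StepData K)

/-- Labels of coordinates. -/
abbrev Lab : Type := Option ((d.E × Bool) × Option ℕ)

/-- A Hilbert space with a representation of all operators on `K`. -/
structure Blk (K : Type) [NormedAddCommGroup K] [InnerProductSpace ℂ K] [CompleteSpace K] where
  X : Type
  [normed : NormedAddCommGroup X]
  [ip : InnerProductSpace ℂ X]
  [complete : CompleteSpace X]
  ρ : Op K →⋆ₐ[ℂ] Op X

attribute [instance] Blk.normed Blk.ip Blk.complete

/-- The block at a label. -/
noncomputable def blk : Lab d → Blk K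
  | none => { X := K, ρ := StarAlgHom.id ℂ _ }
  | some p => { X := (d.fib p.1 p.2).X, ρ := (d.fib p.1 p.2).ρ }

/-- The distinguished vector of a fibre block. -/
noncomputable def eta (f : d.E × Bool) (n : Option ℕ) : (blk d (some (f, n))).X := (d.fib f n).η

open Classical in
/-- The distinguished vector of a block, seen from an edge. -/
noncomputable def mark : (l : Lab d) → d.E × Bool → (blk d l).X
  | none, _ => 0
  | some (f, n), g => if f = g then eta d f n else 0

/-- The value of the `m`th projection at a position. -/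
def ev : Option ℕ → ℕ → ℂ
  | none, _ => 1
  | some n, m => if m ≤ n then 1 else 0

/-- A vector at position `n` of the sequence of `g`. -/
def AtPos (l : Lab d) (g : d.E × Bool) (n : Option ℕ) (x : (blk d l).X) : Prop :=
  ∀ m, (blk d l).ρ (d.r g m) x = ev n m • x

/-- The spectral piece of the source sequence of `f`, orthogonal to the distinguished vector. -/
noncomputable def piece (l : Lab d) (f : d.E × Bool) (n : Option ℕ) :
    Submodule ℂ (blk d l).X where
  carrier := {x | AtPos d l (StepData.bar f) n x ∧ ⟪mark d l (StepData.bar f), x⟫_ℂ = 0}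
  add_mem' {a b} ha hb := ⟨fun m => by simp [ha.1 m, hb.1 m, smul_add],
    by simp [ha.2, hb.2]⟩
  zero_mem' := ⟨fun m => by simp, by simp⟩
  smul_mem' c a ha := ⟨fun m => by simp [ha.1 m, smul_comm c],
    by simp [ha.2]⟩

lemma isClosed_piece (l : Lab d) (f : d.E × Bool) (n : Option ℕ) :
    IsClosed (piece d l f n : Set (blk d l).X) := by
  show IsClosed {x | AtPos d l (StepData.bar f) n x ∧ ⟪mark d l (StepData.bar f), x⟫_ℂ = 0}
  simp only [AtPos, Set.ofPred_and, Set.ofPred_forall]
  exact IsClosed.inter (isClosed_iInter fun m => isClosed_eq (by fun_prop) (by fun_prop))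
    (isClosed_eq (by fun_prop) continuous_const)

instance (l : Lab d) (f : d.E × Bool) (n : Option ℕ) : CompleteSpace (piece d l f n) :=
  (isClosed_piece d l f n).completeSpace_coe

/-- An orthonormal basis of a piece. -/
noncomputable def basis (l : Lab d) (f : d.E × Bool) (n : Option ℕ) : Set (piece d l f n) :=
  (exists_hilbertBasis ℂ (piece d l f n)).choose

/-- Paths, indexed by their final label. -/
inductive Idx : Lab d → Type
  | root : Idx none
  | child {l : Lab d} (p : Idx l) (f : d.E × Bool) (n : Option ℕ) (b : basis d l f n) :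
      Idx (some (f, n))

/-- The length of a path. -/
def depth : {l : Lab d} → Idx d l → ℕ
  | _, .root => 0
  | _, .child p _ _ _ => depth p + 1

/-- All coordinates. -/
abbrev Path : Type := Σ l, Idx d l

/-- The spaces of the coordinates. -/
abbrev Co (p : Path d) : Type := (blk d p.1).X

/-- The new space. -/
abbrev Sp : Type := lp (Co d) 2

/-- The new representation. -/
noncomputable def rep : Op K →⋆ₐ[ℂ] Op (Sp d) := diagHom fun p => (blk d p.1).ρ

/-- The positions of the source vectors of an edge. -/
abbrev Src (f : d.E × Bool) : Type := Σ p : Path d, Σ n : Option ℕ, basis d p.1 f n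

variable {d}

/-- The child of a source position. -/
abbrev kid {f : d.E × Bool} (i : Src d f) : Path d := ⟨some (f, i.2.1), .child i.1.2 f i.2.1 i.2.2⟩

open Classical in
/-- The source vector. -/
noncomputable def src {f : d.E × Bool} (i : Src d f) : Sp d :=
  lp.single 2 i.1 ((i.2.2 : piece d i.1.1 f i.2.1) : (blk d i.1.1).X)

open Classical in
/-- The target vector. -/
noncomputable def tgt {f : d.E × Bool} (i : Src d f) : Sp d :=
  lp.single 2 (kid i) (eta d f i.2.1)

lemma mark_kid {f : d.E × Bool} (i : Src d f) : mark d (kid i).1 f = eta d f i.2.1 := by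
  simp [mark]

lemma src_mem {f : d.E × Bool} (i : Src d f) :
    AtPos d i.1.1 (StepData.bar f) i.2.1 ((i.2.2 : piece d i.1.1 f i.2.1) : (blk d i.1.1).X) ∧
      ⟪mark d i.1.1 (StepData.bar f), ((i.2.2 : piece d i.1.1 f i.2.1) : (blk d i.1.1).X)⟫_ℂ = 0 :=
  (i.2.2 : piece d i.1.1 f i.2.1).2

lemma kid_injective {f : d.E × Bool} : Function.Injective (kid (d := d) (f := f)) := by
  rintro ⟨⟨l, p⟩, n, b⟩ ⟨⟨l', p'⟩, n', b'⟩ h
  unfold kid at h
  cases h
  rfl

lemma bar_bar (f : d.E × Bool) : StepData.bar (StepData.bar f) = f := by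
  simp [StepData.bar]

lemma bar_ne (f : d.E × Bool) : StepData.bar f ≠ f := fun h => by
  have := congrArg Prod.snd h
  simp [StepData.bar] at this

lemma conj_ev (n : Option ℕ) (k : ℕ) : starRingEnd ℂ (ev n k) = ev n k := by
  cases n with
  | none => simp [ev]
  | some a => by_cases h : k ≤ a <;> simp [ev, h]

lemma exists_ev_ne {n m : Option ℕ} (h : n ≠ m) : ∃ k, ev n k ≠ ev m k := by
  match n, m, h with
  | none, none, h => exact absurd rfl h
  | none, some a, _ => exact ⟨a + 1, by simp [ev]⟩
  | some a, none, _ => exact ⟨a + 1, by simp [ev]⟩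
  | some a, some a', h =>
    have ha : a ≠ a' := fun e => h (by rw [e])
    rcases lt_or_gt_of_ne ha with h' | h'
    · exact ⟨a', by simp [ev, not_le.2 h']⟩
    · exact ⟨a, by simp [ev, not_le.2 h']⟩

lemma inner_atPos_eq_zero (ok : d.Ok) {l : Lab d} {g : d.E × Bool} {n m : Option ℕ} (h : n ≠ m)
    {x y : (blk d l).X} (hx : AtPos d l g n x) (hy : AtPos d l g m y) : ⟪x, y⟫_ℂ = 0 := by
  obtain ⟨k, hk⟩ := exists_ev_ne h
  have h1 : ⟪(blk d l).ρ (d.r g k) x, y⟫_ℂ = ⟪x, (blk d l).ρ (d.r g k) y⟫_ℂ := by
    conv_lhs => rw [← (ok.proj g).star_eq k, map_star, ContinuousLinearMap.star_eq_adjoint,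
      ContinuousLinearMap.adjoint_inner_left]
  rw [hx k, hy k, inner_smul_left, inner_smul_right, conj_ev] at h1
  exact (mul_eq_zero.1 (by rw [sub_mul, h1, sub_self] : (ev n k - ev m k) * ⟪x, y⟫_ℂ = 0)).resolve_left
    (sub_ne_zero.2 hk)

lemma orthonormal_basis (l : Lab d) (f : d.E × Bool) (n : Option ℕ) :
    Orthonormal ℂ (fun b : basis d l f n => ((b : piece d l f n) : (blk d l).X)) := by
  obtain ⟨B, hB⟩ := (exists_hilbertBasis ℂ (piece d l f n)).choose_spec
  have h := B.orthonormal
  rw [hB] at h
  exact h.comp_linearIsometry (piece d l f n).subtypeₗᵢ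

lemma orthonormal_src (ok : d.Ok) (f : d.E × Bool) : Orthonormal ℂ (src (d := d) (f := f)) := by
  classical
  rw [orthonormal_iff_ite]
  rintro ⟨p, n, b⟩ ⟨q, m, c⟩
  rcases eq_or_ne p q with rfl | hpq
  · rw [src, src, lp.inner_single_left, lp.single_apply_self]
    rcases eq_or_ne n m with rfl | hnm
    · have h := orthonormal_iff_ite.1 (orthonormal_basis p.1 f n) b c
      simpa using h
    · rw [if_neg (by simp [hnm])]
      exact inner_atPos_eq_zero ok hnm (src_mem (⟨p, n, b⟩ : Src d f)).1
        (src_mem (⟨p, m, c⟩ : Src d f)).1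
  · rw [if_neg (by simp [hpq]), src, src, lp.inner_single_left, lp.single_apply_ne _ _ _ hpq,
      inner_zero_right]

lemma norm_eta (f : d.E × Bool) (n : Option ℕ) : ‖eta d f n‖ = 1 := (d.fib f n).norm_eta

lemma mu_eq (f : d.E × Bool) (n : Option ℕ) (T : Op K) :
    ⟪eta d f n, (blk d (some (f, n))).ρ T (eta d f n)⟫_ℂ = d.μ f n T := rfl

lemma orthonormal_tgt (f : d.E × Bool) : Orthonormal ℂ (tgt (d := d) (f := f)) := by
  classical
  rw [orthonormal_iff_ite]
  intro i j
  rcases eq_or_ne i j with rfl | hij
  · rw [if_pos rfl, tgt, lp.inner_single_left, lp.single_apply_self]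
    exact inner_self_eq_one_of_norm_eq_one (norm_eta f i.2.1)
  · rw [if_neg hij, tgt, tgt, lp.inner_single_left,
      lp.single_apply_ne _ _ _ fun h => hij (kid_injective h), inner_zero_right]

lemma atPos_eta (ok : d.Ok) (f : d.E × Bool) (n : Option ℕ) :
    AtPos d (some (f, n)) f n (eta d f n) := fun m => by
  show (d.fib f n).ρ (d.r f m) (d.fib f n).η = ev n m • (d.fib f n).η
  cases n with
  | none => simp [ev, ok.eta_none f m]
  | some a => rw [ok.eta_some f a m]; by_cases h : m ≤ a <;> simp [ev, h]

lemma atPos_mark (ok : d.Ok) (l : Lab d) (g : d.E × Bool) :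
    ∃ n, AtPos d l g n (mark d l g) := by
  match l with
  | none => exact ⟨none, fun m => by simp [mark]⟩
  | some (f, n) =>
    by_cases h : f = g
    · subst h
      refine ⟨n, ?_⟩
      have e : mark d (some (f, n)) f = eta d f n := by simp [mark]
      rw [e]
      exact atPos_eta ok f n
    · have e : mark d (some (f, n)) g = (0 : (blk d (some (f, n))).X) := by simp [mark, h]
      exact ⟨none, fun m => by rw [e]; simp⟩

lemma inner_src_tgt {f : d.E × Bool} (i : Src d f) (j : Src d (StepData.bar f)) :
    ⟪src i, tgt j⟫_ℂ = 0 := by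
  classical
  rcases eq_or_ne i.1 (kid j) with h | h
  · obtain ⟨p, n, b⟩ := i
    have h' : p = kid j := h
    subst h'
    have h0 := (src_mem (⟨kid j, n, b⟩ : Src d f)).2
    rw [mark_kid] at h0
    rw [src, tgt, lp.inner_single_left, lp.single_apply_self, ← inner_conj_symm, h0, map_zero]
  · rw [src, tgt, lp.inner_single_left, lp.single_apply_ne _ _ _ h, inner_zero_right]

lemma inner_mark_eq_zero (g : d.E × Bool) (x : Sp d) (ht : ∀ j : Src d g, ⟪tgt j, x⟫_ℂ = 0) :
    ∀ {l : Lab d} (q : Idx d l), ⟪mark d l g, x ⟨l, q⟩⟫_ℂ = 0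
  | _, .root => by simp [mark]
  | _, @Idx.child _ _ _ _ d l q h n b => by
    classical
    by_cases hh : h = g
    · subst hh
      have h1 := ht ⟨⟨l, q⟩, n, b⟩
      rw [tgt, lp.inner_single_left] at h1
      simpa [mark] using h1
    · simp [mark, hh]

lemma inner_piece_eq_zero (l : Lab d) (f : d.E × Bool) (n : Option ℕ) (x : (blk d l).X)
    (h : ∀ b : basis d l f n, ⟪((b : piece d l f n) : (blk d l).X), x⟫_ℂ = 0)
    (z : (blk d l).X) (hz : z ∈ piece d l f n) : ⟪z, x⟫_ℂ = 0 := by
  obtain ⟨B, hB⟩ := (exists_hilbertBasis ℂ (piece d l f n)).choose_spec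
  have h1 : B.repr ((piece d l f n).orthogonalProjectionOnto x) = 0 := by
    refine lp.ext (funext fun b => ?_)
    rw [B.repr_apply_apply, show B b = (b : piece d l f n) from congrFun hB b,
      Submodule.coe_inner, Submodule.coe_orthogonalProjectionOnto_apply,
      ← Submodule.inner_starProjection_left_eq_right,
      Submodule.starProjection_eq_self_iff.2 (b : piece d l f n).2]
    exact h b
  have h3 : (piece d l f n).orthogonalProjectionOnto x = 0 :=
    B.repr.injective (h1.trans (map_zero _).symm)
  rw [← Submodule.starProjection_eq_self_iff.2 hz, Submodule.inner_starProjection_left_eq_right,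
    Submodule.starProjection_apply, h3]
  simp

lemma eq_zero_of_pieces (ok : d.Ok) (l : Lab d) (f : d.E × Bool) (x : (blk d l).X)
    (hm0 : ⟪mark d l (StepData.bar f), x⟫_ℂ = 0)
    (hbz : ∀ n, ∀ z ∈ piece d l f n, ⟪z, x⟫_ℂ = 0) : x = 0 := by
  set g := StepData.bar f with hg
  obtain ⟨nm, hnm⟩ := atPos_mark ok l g
  set T : ℕ → Op (blk d l).X := fun m => (blk d l).ρ (d.r g m) with hT
  have hTs : ∀ m, star (T m) = T m := fun m => by
    show star ((blk d l).ρ _) = (blk d l).ρ _
    rw [← map_star, (ok.proj g).star_eq]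
  have hTm : ∀ a b, a ≤ b → T b * T a = T b ∧ T a * T b = T b := fun a b hab => by
    have h1 : T b * T a = T b := by simp only [hT, ← map_mul, (ok.proj g).mul_eq a b hab]
    exact ⟨h1, by rw [← hTs a, ← hTs b, ← star_mul, h1]⟩
  have key : ∀ a : ℕ, T a x - T (a + 1) x = 0 := by
    intro a
    have hmem : T a x - T (a + 1) x ∈ piece d l f (some a) := by
      refine ⟨fun m => ?_, ?_⟩
      · show T m (T a x - T (a + 1) x) = ev (some a) m • (T a x - T (a + 1) x)
        by_cases h : m ≤ a
        · simp only [map_sub, ev, if_pos h, one_smul, ← mul_apply_eq_comp,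
            (hTm m a h).2, (hTm m (a + 1) (h.trans a.le_succ)).2]
        · have h' : a + 1 ≤ m := not_le.1 h
          simp only [map_sub, ev, if_neg h, zero_smul, ← mul_apply_eq_comp,
            (hTm a m (a.le_succ.trans h')).1, (hTm (a + 1) m h').1, sub_self]
      · show ⟪mark d l g, T a x - T (a + 1) x⟫_ℂ = 0
        have e : ∀ k, ⟪mark d l g, T k x⟫_ℂ = 0 := fun k => by
          rw [← ContinuousLinearMap.adjoint_inner_left, ← ContinuousLinearMap.star_eq_adjoint, hTs]
          show ⟪(blk d l).ρ (d.r g k) (mark d l g), x⟫_ℂ = 0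
          rw [hnm k, inner_smul_left, hm0, mul_zero]
        rw [inner_sub_right, e, e, sub_self]
    have h0 := hbz _ _ hmem
    have e2 : (T a - T (a + 1)) * (T a - T (a + 1)) = T a - T (a + 1) := by
      rw [sub_mul, mul_sub, mul_sub, (hTm a a le_rfl).1, (hTm a (a + 1) a.le_succ).2,
        (hTm a (a + 1) a.le_succ).1, (hTm (a + 1) (a + 1) le_rfl).1]
      abel
    have e3 : T a x - T (a + 1) x = (T a - T (a + 1)) x := rfl
    rw [e3] at h0 ⊢
    rw [← e2, mul_apply_eq_comp, ← ContinuousLinearMap.adjoint_inner_right,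
      ← ContinuousLinearMap.star_eq_adjoint, star_sub, hTs, hTs] at h0
    exact inner_self_eq_zero.1 h0
  have hall : ∀ m, T m x = x := by
    intro m
    induction m with
    | zero => simp [hT, (ok.proj g).zero_eq]
    | succ m ih => rw [← sub_eq_zero.1 (key m), ih]
  exact inner_self_eq_zero.1 (hbz none x ⟨fun m => by simpa [ev] using hall m, hm0⟩)

/-- Source vectors of `f` together with target vectors of the reversed edge span everything. -/
lemma total (ok : d.Ok) (f : d.E × Bool) :
    Total (src (d := d) (f := f)) (tgt (d := d) (f := StepData.bar f)) where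
  orth := inner_src_tgt
  total x hs ht := by
    classical
    refine lp.ext (funext fun p => eq_zero_of_pieces ok p.1 f (x p)
      (inner_mark_eq_zero _ x ht p.2) fun n z hz => inner_piece_eq_zero p.1 f n _ (fun b => ?_) z hz)
    have h2 := hs ⟨p, n, b⟩
    rw [src, lp.inner_single_left] at h2
    exact h2

/-- The partial isometry of an edge. -/
noncomputable def cop (ok : d.Ok) (f : d.E × Bool) : Op (Sp d) :=
  Mdl.pisom (orthonormal_src ok f) (orthonormal_tgt f)

lemma cop_src (ok : d.Ok) {f : d.E × Bool} (i : Src d f) : cop ok f (src i) = tgt i :=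
  pisom_vec _ _ i

lemma cop_tgt (ok : d.Ok) {f : d.E × Bool} (j : Src d (StepData.bar f)) :
    cop ok f (tgt j) = 0 :=
  pisom_eq_zero _ _ fun i => (total ok f).orth i j

lemma star_cop (ok : d.Ok) (f : d.E × Bool) :
    star (cop ok f) = Mdl.pisom (orthonormal_tgt f) (orthonormal_src ok f) :=
  star_pisom _ _

lemma rep_single [DecidableEq (Path d)] (T : Op K) (p : Path d) (x : Co d p) :
    rep d T (lp.single 2 p x) = lp.single 2 p ((blk d p.1).ρ T x) :=
  diagHom_single _ T p x

lemma inner_tgt_rep (f g : d.E × Bool) (T : Op K) (i : Src d f) (j : Src d g) (h : kid i ≠ kid j) :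
    ⟪tgt i, rep d T (tgt j)⟫_ℂ = 0 := by
  classical
  rw [tgt, tgt, rep_single, lp.inner_single_left, lp.single_apply_ne _ _ _ h, inner_zero_right]

/-- `a` acts on vectors at position `n` of the sequence of `g` as the scalar `δ n`. -/
def Acts (g : d.E × Bool) (a : Op K) (δ : Option ℕ → ℂ) : Prop :=
  ∀ (l : Lab d) (n : Option ℕ) (x : (blk d l).X), AtPos d l g n x → (blk d l).ρ a x = δ n • x

lemma acts_r (g : d.E × Bool) (m : ℕ) : Acts g (d.r g m) fun n => ev n m :=
  fun _ _ _ h => h m

lemma Acts.rep_src {f : d.E × Bool} {a : Op K} {δ : Option ℕ → ℂ}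
    (h : Acts (StepData.bar f) a δ) (i : Src d f) : rep d a (src i) = δ i.2.1 • src i := by
  classical
  rw [src, rep_single, h _ _ _ (src_mem i).1, lp.single_smul]

lemma Acts.rep_tgt (ok : d.Ok) {f : d.E × Bool} {a : Op K} {δ : Option ℕ → ℂ}
    (h : Acts f a δ) (i : Src d f) : rep d a (tgt i) = δ i.2.1 • tgt i := by
  classical
  rw [tgt, rep_single, show (blk d (kid i).1).ρ a (eta d f i.2.1) = δ i.2.1 • eta d f i.2.1
    from h _ _ _ (atPos_eta ok f i.2.1), lp.single_smul]

lemma acts_dsum (ok : d.Ok) (g : d.E × Bool) (μ : Option ℕ → ℂ)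
    (hμ : Tendsto (fun n => μ (some n)) atTop (𝓝 (μ none))) : Acts g (dsum (d.r g) μ) μ := by
  intro l n x hx
  have hs : Summable fun k => (μ (some k) - μ none) • (d.r g k - d.r g (k + 1)) :=
    summable_gap (ok.proj g).star_eq (ok.proj g).zero_eq (ok.proj g).mul_eq
      (by simpa using hμ.sub_const (μ none))
  set L : Op K →L[ℂ] (blk d l).X := LinearMap.mkContinuous
    { toFun := fun T => (blk d l).ρ T x
      map_add' := fun S T => by simp
      map_smul' := fun c T => by simp } ‖x‖ (fun T => by
      refine (((blk d l).ρ T).le_opNorm x).trans ?_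
      rw [mul_comm]
      exact mul_le_mul_of_nonneg_left (NonUnitalStarAlgHom.norm_apply_le (blk d l).ρ T)
        (norm_nonneg x)) with hL
  have hLa : ∀ T, L T = (blk d l).ρ T x := fun T => rfl
  have h1 := L.hasSum hs.hasSum
  have h2 : (fun k => L ((μ (some k) - μ none) • (d.r g k - d.r g (k + 1)))) =
      fun k => if n = some k then (μ n - μ none) • x else 0 := by
    funext k
    rw [map_smul, hLa, map_sub, sub_apply, hx k, hx (k + 1), ← sub_smul, smul_smul]
    cases n with
    | none => simp [ev]
    | some a =>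
      by_cases hak : a = k
      · subst hak; simp [ev]
      · have hne : ev (some a) k - ev (some a) (k + 1) = 0 := by
          rcases lt_or_gt_of_ne hak with h | h
          · simp [ev, not_le.2 h, not_le.2 (h.trans k.lt_succ_self)]
          · simp [ev, h.le, Nat.succ_le_iff.2 h]
        simp [hne, hak]
  rw [dsum, ← hLa, map_add, map_smul, hLa 1, map_one, one_apply_eq_self]
  rw [h2] at h1
  cases n with
  | none =>
    rw [show L (∑' k, (μ (some k) - μ none) • (d.r g k - d.r g (k + 1))) = 0 from
      h1.unique (by simp [hasSum_zero]), add_zero]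
  | some a =>
    have h3 : HasSum (fun k => if some a = some k then (μ (some a) - μ none) • x else 0)
        ((μ (some a) - μ none) • x) := by
      convert hasSum_ite_eq a ((μ (some a) - μ none) • x) using 2 with k
      simp [eq_comm]
    rw [h1.unique h3, ← add_smul]
    simp

/-- The projection onto the coordinates of one length. -/
noncomputable def lev (k : ℕ) : Op (Sp d) :=
  diag (fun p => if depth d p.2 = k then 1 else 0) 1 fun p => by
    split_ifs
    · exact ContinuousLinearMap.norm_id_le
    · simp

lemma lev_apply (k : ℕ) (x : Sp d) (p : Path d) :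
    lev k x p = if depth d p.2 = k then x p else 0 := by
  rw [lev, diag_apply]; split_ifs <;> simp

lemma lev_single [DecidableEq (Path d)] (k : ℕ) (p : Path d) (x : Co d p) :
    lev k (lp.single 2 p x) = if depth d p.2 = k then lp.single 2 p x else 0 := by
  rw [lev, diag_single]
  split_ifs <;> simp

lemma adjoint_map_single {f : d.E × Bool} [DecidableEq (Src d f)] {v : Src d f → Sp d}
    (hv : Orthonormal ℂ v) (y : Sp d) (i : Src d f) (c : ℂ) (h1 : ⟪v i, y⟫_ℂ = c)
    (h0 : ∀ j, j ≠ i → ⟪v j, y⟫_ℂ = 0) :
    ContinuousLinearMap.adjoint (famMap hv) y = c • lp.single 2 i 1 := by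
  refine lp.ext (funext fun j => ?_)
  rw [adjoint_famMap_apply, lp.coeFn_smul, Pi.smul_apply, lp.single_apply]
  rcases eq_or_ne j i with rfl | hj
  · simp [h1]
  · simp [h0 j hj, hj]

lemma star_cop_rep (ok : d.Ok) {f : d.E × Bool} (T : Op K) (i : Src d f) :
    star (cop ok f) (rep d T (tgt i)) = d.μ f i.2.1 T • src i := by
  classical
  have h1 : ⟪tgt i, rep d T (tgt i)⟫_ℂ = d.μ f i.2.1 T := by
    rw [tgt, rep_single, lp.inner_single_left, lp.single_apply_self, mu_eq]
  rw [star_cop, Mdl.pisom, ContinuousLinearMap.comp_apply,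
    adjoint_map_single (orthonormal_tgt f) _ i _ h1
      fun j hj => inner_tgt_rep f f T j i fun e => hj (kid_injective e),
    map_smul, famMap_single]

lemma one_sub_cop (ok : d.Ok) (f : d.E × Bool) :
    (1 : Op (Sp d)) - cop ok (StepData.bar f) * star (cop ok (StepData.bar f)) =
      Mdl.pisom (orthonormal_src ok f) (orthonormal_src ok f) := by
  have h : cop ok (StepData.bar f) * star (cop ok (StepData.bar f)) =
      Mdl.pisom (orthonormal_tgt (StepData.bar f)) (orthonormal_tgt (StepData.bar f)) := by
    rw [star_cop, cop, pisom_mul_pisom]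
  rw [h, ← (total ok f).add_eq_one (orthonormal_src ok f) (orthonormal_tgt (StepData.bar f))]
  abel

lemma cop_orth (ok : d.Ok) {f g : d.E × Bool} (hfg : f ≠ g) (T : Op K) :
    star (cop ok f) * rep d T * cop ok g = 0 := by
  refine (total ok g).ext_op (fun j => ?_) fun j => ?_
  · rw [mul_apply_eq_comp, mul_apply_eq_comp, cop_src, zero_apply, star_cop]
    refine pisom_eq_zero _ _ fun i => inner_tgt_rep f g T i j fun e => hfg ?_
    have := congrArg Sigma.fst e
    simp at this
    exact this.1
  · rw [mul_apply_eq_comp, cop_tgt, map_zero, zero_apply]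

lemma cop_fibre (ok : d.Ok) (f : d.E × Bool) {x : Op K} (hx : x ∈ d.A) :
    star (cop ok f) * rep d x * cop ok f =
      rep d (dsum (d.r (StepData.bar f)) fun n => d.μ f n x) *
        (1 - cop ok (StepData.bar f) * star (cop ok (StepData.bar f))) := by
  have ha := acts_dsum ok (StepData.bar f) (fun n => d.μ f n x) (ok.tendsto f x hx)
  rw [one_sub_cop]
  refine (total ok f).ext_op (fun i => ?_) fun j => ?_
  · rw [mul_apply_eq_comp, mul_apply_eq_comp, mul_apply_eq_comp, cop_src, pisom_vec,
      star_cop_rep, ha.rep_src]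
  · rw [mul_apply_eq_comp, cop_tgt, map_zero, mul_apply_eq_comp,
      pisom_eq_zero _ _ (fun i => (total ok f).orth i j), map_zero]

lemma cop_support (ok : d.Ok) (f : d.E × Bool) (T : Op K)
    (hT : ∀ n, (d.fib f n).ρ T (d.fib f n).η = (d.fib f n).η) :
    rep d T * cop ok f = cop ok f := by
  classical
  refine (total ok f).ext_op (fun i => ?_) fun j => ?_
  · rw [mul_apply_eq_comp, cop_src, tgt, rep_single]
    exact congrArg _ (hT i.2.1)
  · rw [mul_apply_eq_comp, cop_tgt, map_zero]

lemma cop_intertwine (ok : d.Ok) (f : d.E × Bool) (m : ℕ) :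
    rep d (d.r f m) * cop ok f = cop ok f * rep d (d.r (StepData.bar f) m) := by
  refine (total ok f).ext_op (fun i => ?_) fun j => ?_
  · rw [mul_apply_eq_comp, mul_apply_eq_comp, cop_src, (acts_r (StepData.bar f) m).rep_src,
      map_smul, cop_src, (acts_r f m).rep_tgt ok]
  · rw [mul_apply_eq_comp, mul_apply_eq_comp, cop_tgt, map_zero,
      (acts_r (StepData.bar f) m).rep_tgt ok, map_smul, cop_tgt, smul_zero]

lemma cop_pisom (ok : d.Ok) (f : d.E × Bool) :
    cop ok f * star (cop ok f) * cop ok f = cop ok f := by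
  rw [mul_assoc, star_cop, cop, pisom_mul_pisom, pisom_mul_pisom]

lemma lev_star (k : ℕ) : star (lev (d := d) k) = lev k := by
  rw [ContinuousLinearMap.star_eq_adjoint]
  symm
  refine (ContinuousLinearMap.eq_adjoint_iff _ _).2 fun x y => ?_
  rw [lp.inner_eq_tsum, lp.inner_eq_tsum]
  refine tsum_congr fun p => ?_
  rw [lev_apply, lev_apply]
  split_ifs <;> simp

lemma lev_idem (k : ℕ) : lev (d := d) k * lev k = lev k := by
  refine ContinuousLinearMap.ext fun x => lp.ext (funext fun p => ?_)
  rw [mul_apply_eq_comp, lev_apply, lev_apply]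
  split_ifs <;> rfl

lemma lev_comm (k : ℕ) (T : Op K) : lev (d := d) k * rep d T = rep d T * lev k := by
  refine ContinuousLinearMap.ext fun x => lp.ext (funext fun p => ?_)
  rw [mul_apply_eq_comp, mul_apply_eq_comp, lev_apply, rep, diagHom_apply, diagHom_apply,
    lev_apply]
  split_ifs <;> simp

lemma depth_kid {f : d.E × Bool} (i : Src d f) : depth d (kid i).2 = depth d i.1.2 + 1 := rfl

lemma lev_succ (ok : d.Ok) (k : ℕ) (f : d.E × Bool) :
    lev (d := d) (k + 1) * cop ok f = cop ok f * lev k := by
  classical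
  refine (total ok f).ext_op (fun i => ?_) fun j => ?_
  · rw [mul_apply_eq_comp, mul_apply_eq_comp, cop_src]
    conv_lhs => rw [tgt, lev_single, depth_kid]
    conv_rhs => rw [src, lev_single]
    by_cases h : depth d i.1.2 = k
    · rw [if_pos (by omega), if_pos h, ← src, cop_src]; rfl
    · rw [if_neg (by omega), if_neg h, map_zero]
  · rw [mul_apply_eq_comp, mul_apply_eq_comp, cop_tgt, map_zero]
    conv_rhs => rw [tgt, lev_single]
    split_ifs
    · rw [← tgt, cop_tgt]
    · rw [map_zero]

/-- The root. -/
abbrev root : Path d := ⟨none, .root⟩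

/-- A vector of the old space at the root. -/
noncomputable def atRoot : K →ₗᵢ[ℂ] (blk d none).X := LinearIsometry.id

lemma eq_root {p : Path d} (h : depth d p.2 = 0) : p = root := by
  obtain ⟨l, q⟩ := p
  cases q with
  | root => rfl
  | child q f n b => simp [depth] at h

open Classical in
/-- The vectors supported at the root. -/
noncomputable def singleRoot : (blk d none).X →ₗᵢ[ℂ] Sp d where
  toLinearMap := lp.lsingle (𝕜 := ℂ) (E := Co d) 2 root
  norm_map' x := by
    rw [lp.lsingle_apply]
    exact lp.norm_single (E := Co d) (p := 2) two_pos root x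

/-- The old space inside the new one. -/
noncomputable def emb : K →ₗᵢ[ℂ] Sp d := singleRoot.comp atRoot

open Classical in
lemma emb_apply (x : K) : emb (d := d) x = lp.single 2 root (atRoot x) := rfl

lemma rep_emb (T : Op K) (x : K) : rep d T (emb x) = emb (T x) := by
  classical
  rw [emb_apply, rep_single, emb_apply]
  rfl

lemma star_cop_emb (ok : d.Ok) (f : d.E × Bool) (x : K) : star (cop ok f) (emb x) = 0 := by
  classical
  rw [star_cop]
  refine pisom_eq_zero _ _ fun i => ?_
  rw [emb_apply, tgt, lp.inner_single_left, lp.single_apply_ne _ _ _ fun e => ?_, inner_zero_right]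
  exact absurd (congrArg (fun q : Path d => depth d q.2) e) (by simp [depth])

lemma lev_zero (v : Sp d) : lev 0 v = v ↔ v ∈ Set.range (emb (d := d)) := by
  classical
  constructor
  · intro h
    refine ⟨(show K from v root), (emb_apply (d := d) _).trans (lp.ext (funext fun p => ?_))⟩
    rcases eq_or_ne p root with rfl | hp
    · rw [lp.single_apply_self]; rfl
    · rw [lp.single_apply_ne _ _ _ hp]
      have h1 := congrArg (fun w : Sp d => w p) h
      simp only [lev_apply, if_neg fun e => hp (eq_root e)] at h1
      exact h1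
  · rintro ⟨x, rfl⟩
    rw [emb_apply, lev_single]
    simp [depth]

lemma lev_total (v : Sp d) (h : ∀ k, lev k v = 0) : v = 0 := by
  refine lp.ext (funext fun p => ?_)
  have h1 := congrArg (fun w : Sp d => w p) (h (depth d p.2))
  rw [lev_apply, if_pos rfl] at h1
  exact h1

/-- The model of a step. -/
noncomputable def mdl (ok : d.Ok) : Model d where
  H := Sp d
  ι := rep d
  J := emb
  c := cop ok
  lev := lev
  comm := rep_emb
  c_star_J := star_cop_emb ok
  orth := fun _ _ h T => cop_orth ok h T
  fibre := fun f _ hx => cop_fibre ok f hx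
  support := cop_support ok
  pisom := cop_pisom ok
  intertwine := cop_intertwine ok
  lev_star := lev_star
  lev_idem := lev_idem
  lev_comm := lev_comm
  lev_succ := lev_succ ok
  lev_zero := lev_zero
  lev_total := lev_total

end Mdl

/-- Every step has a model. -/
theorem model : ModelGoal := fun _ _ _ _ _ ok => ⟨Mdl.mdl ok⟩

end Vale.Agent.P070.Club
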