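import Vale.Agent.P070.Club.Basic

/-!
# Excised sequences relative to a subalgebra

Vectors in the ranges, criteria for excision, transfer along equivalence, strict subsequences.
-/

universe u

namespace Vale.Agent.P070.Club

open Filter Topology ComplexOrder ContinuousLinearMap
open scoped InnerProductSpace

variable {H : Type u} [NormedAddCommGroup H] [InnerProductSpace ℂ H] [CompleteSpace H]
variable {C C' : StarSubalgebra ℂ (Op H)} {p q r : ℕ → Op H} {χ : Op H → ℂ}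

lemma inner_star_apply (T : Op H) (u v : H) : ⟪star T u, v⟫_ℂ = ⟪u, T v⟫_ℂ := by
  rw [star_eq_adjoint, adjoint_inner_left]

lemma inner_apply_left {T : Op H} (hT : star T = T) (u v : H) : ⟪T u, v⟫_ℂ = ⟪u, T v⟫_ℂ := by
  conv_lhs => rw [← hT]
  exact inner_star_apply T u v

/-- A bound on the vector values on the range of a projection bounds the corner. -/
lemma norm_corner_le {P T : Op H} (hs : star P = P) (hi : P * P = P) {c : ℂ} {ε : ℝ} (hε : 0 ≤ ε)
    (h : ∀ v, ‖v‖ = 1 → P v = v → ‖⟪v, T v⟫_ℂ - c‖ ≤ ε) : ‖P * T * P - c • P‖ ≤ 2 * ε := by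
  set S := P * T * P - c • P with hS
  have hP1 : ∀ v, ‖P v‖ ≤ ‖v‖ := fun v => by
    have e : ⟪P v, P v⟫_ℂ = ⟪v, P v⟫_ℂ := by
      rw [inner_apply_left hs, ← mul_apply_eq_comp, hi]
    rcases eq_or_ne (P v) 0 with h0 | h0
    · simp [h0]
    refine le_of_mul_le_mul_left ?_ (norm_pos_iff.2 h0)
    calc ‖P v‖ * ‖P v‖ = ‖⟪P v, P v⟫_ℂ‖ := by rw [inner_self_eq_norm_sq_to_K]; simp [sq]
      _ = ‖⟪v, P v⟫_ℂ‖ := by rw [e]
      _ ≤ ‖v‖ * ‖P v‖ := norm_inner_le_norm _ _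
      _ = ‖P v‖ * ‖v‖ := mul_comm _ _
  have hfix : ∀ w, P w = w → ‖⟪w, T w⟫_ℂ - c * ⟪w, w⟫_ℂ‖ ≤ ε * ‖w‖ ^ 2 := by
    intro w hw
    rcases eq_or_ne w 0 with rfl | h0
    · simp
    have hn : (‖w‖ : ℂ) ≠ 0 := by simp [h0]
    have h1 := h (((‖w‖ : ℂ))⁻¹ • w)
      (by rw [norm_smul, norm_inv, Complex.norm_real, norm_norm,
        inv_mul_cancel₀ (norm_ne_zero_iff.2 h0)])
      (by rw [map_smul, hw])
    have e : ⟪((‖w‖ : ℂ))⁻¹ • w, T (((‖w‖ : ℂ))⁻¹ • w)⟫_ℂ - c =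
        ((‖w‖ : ℂ) ^ 2)⁻¹ * (⟪w, T w⟫_ℂ - c * ⟪w, w⟫_ℂ) := by
      rw [inner_smul_left, map_smul, inner_smul_right, inner_self_eq_norm_sq_to_K, map_inv₀,
        Complex.conj_ofReal]
      simp only [Complex.coe_algebraMap]
      field_simp
    rw [e, norm_mul, norm_inv, norm_pow, Complex.norm_real, norm_norm,
      inv_mul_le_iff₀ (by positivity)] at h1
    linarith
  have hquad : ∀ v, ‖⟪S v, v⟫_ℂ‖ ≤ ε * ‖v‖ ^ 2 := by
    intro v
    have e : ⟪v, S v⟫_ℂ = ⟪P v, T (P v)⟫_ℂ - c * ⟪P v, P v⟫_ℂ := by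
      rw [hS, sub_apply, smul_apply, inner_sub_right, inner_smul_right, mul_apply_eq_comp,
        mul_apply_eq_comp, inner_apply_left hs v, inner_apply_left hs v,
        ← mul_apply_eq_comp P P, hi]
    rw [← inner_conj_symm, RCLike.norm_conj, e]
    refine (hfix _ (by rw [← mul_apply_eq_comp, hi])).trans ?_
    exact mul_le_mul_of_nonneg_left (pow_le_pow_left₀ (norm_nonneg _) (hP1 v) 2) hε
  refine S.opNorm_le_bound (by positivity) fun v => ?_
  rcases eq_or_ne (S v) 0 with h0 | h0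
  · rw [h0, norm_zero]; positivity
  rcases eq_or_ne v 0 with rfl | hv
  · simp
  -- polarisation on two vectors of equal length
  set u : H := ((‖v‖ / ‖S v‖ : ℝ) : ℂ) • S v with hu
  have hun : ‖u‖ = ‖v‖ := by
    rw [hu, norm_smul, Complex.norm_real, norm_div, norm_norm, norm_norm,
      div_mul_cancel₀ _ (norm_ne_zero_iff.2 h0)]
  have hval : ⟪S v, u⟫_ℂ = ((‖v‖ * ‖S v‖ : ℝ) : ℂ) := by
    rw [hu, inner_smul_right, inner_self_eq_norm_sq_to_K]
    have : (‖S v‖ : ℂ) ≠ 0 := by simp [h0]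
    simp only [Complex.coe_algebraMap]
    push_cast
    field_simp
  have hp := inner_map_polarization' (S : H →ₗ[ℂ] H) v u
  simp only [ContinuousLinearMap.coe_coe] at hp
  have hb : ‖⟪S v, u⟫_ℂ‖ ≤ 2 * ε * ‖v‖ ^ 2 := by
    rw [hp, norm_div, Complex.norm_ofNat, div_le_iff₀ (by norm_num)]
    have par1 := parallelogram_law_with_norm ℂ v u
    have par2 := parallelogram_law_with_norm ℂ v (Complex.I • u)
    rw [norm_smul, Complex.norm_I, one_mul, hun] at par2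
    rw [hun] at par1
    have b1 := hquad (v + u)
    have b2 := hquad (v - u)
    have b3 := hquad (v + Complex.I • u)
    have b4 := hquad (v - Complex.I • u)
    refine (norm_add_le _ _).trans ?_
    refine (add_le_add ((norm_sub_le _ _).trans (add_le_add (norm_sub_le _ _) le_rfl)) le_rfl).trans ?_
    simp only [norm_mul, Complex.norm_I, one_mul]
    nlinarith [b1, b2, b3, b4, par1, par2]
  rw [hval, Complex.norm_real, Real.norm_of_nonneg (by positivity)] at hb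
  exact le_of_mul_le_mul_left (by nlinarith [hb]) (norm_pos_iff.2 hv)

namespace ProjSeq

lemma idem (hp : ProjSeq C p) (n : ℕ) : p n * p n = p n := hp.mul_eq n n le_rfl

lemma le_mul (hp : ProjSeq C p) {m n : ℕ} (h : m ≤ n) : p m * p n = p n := by
  simpa [hp.star_eq] using congrArg star (hp.mul_eq m n h)

lemma norm_eq (hp : ProjSeq C p) (n : ℕ) : ‖p n‖ = 1 := by
  have h : ‖p n‖ * ‖p n‖ = ‖p n‖ := by
    conv_rhs => rw [← hp.idem n]; arg 1; arg 1; rw [← hp.star_eq n]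
    rw [CStarRing.norm_star_mul_self]
  exact (mul_eq_left₀ (norm_ne_zero_iff.2 (hp.ne_zero n))).1 h

lemma norm_apply_le (hp : ProjSeq C p) (n : ℕ) (v : H) : ‖p n v‖ ≤ ‖v‖ :=
  ((p n).le_opNorm v).trans (by rw [hp.norm_eq, one_mul])

lemma exists_unit (hp : ProjSeq C p) (n : ℕ) : ∃ v : H, ‖v‖ = 1 ∧ p n v = v := by
  obtain ⟨x, hx⟩ : ∃ x, p n x ≠ 0 := by
    by_contra! h
    exact hp.ne_zero n (ContinuousLinearMap.ext h)
  refine ⟨((‖p n x‖ : ℂ))⁻¹ • p n x, ?_, ?_⟩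
  · rw [norm_smul, norm_inv, Complex.norm_real, norm_norm,
      inv_mul_cancel₀ (norm_ne_zero_iff.2 hx)]
  · rw [map_smul, ← mul_apply_eq_comp, hp.idem]

lemma fix_of_le (hp : ProjSeq C p) {m n : ℕ} (h : m ≤ n) {v : H} (hv : p n v = v) :
    p m v = v := by
  conv_lhs => rw [← hv, ← mul_apply_eq_comp, hp.le_mul h]
  exact hv

lemma mono (hp : ProjSeq C p) (hm : ∀ n, p n ∈ C') : ProjSeq C' p :=
  ⟨hm, hp.star_eq, hp.zero_eq, hp.mul_eq, hp.ne_zero⟩

lemma compress_eq (hp : ProjSeq C p) {m n : ℕ} (h : m ≤ n) (x : Op H) (c : ℂ) :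
    p n * x * p n - c • p n = p n * (p m * x * p m - c • p m) * p n := by
  rw [mul_sub, sub_mul]
  simp only [mul_smul_comm, smul_mul_assoc, hp.mul_eq m n h, hp.idem]
  congr 1
  simp only [← mul_assoc, hp.mul_eq m n h]
  rw [mul_assoc _ (p m), hp.le_mul h]

lemma norm_compress_le (hp : ProjSeq C p) {m n : ℕ} (h : m ≤ n) (x : Op H) (c : ℂ) :
    ‖p n * x * p n - c • p n‖ ≤ ‖p m * x * p m - c • p m‖ := by
  rw [hp.compress_eq h]
  refine (norm_mul_le _ _).trans ?_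
  rw [hp.norm_eq, mul_one]
  exact (norm_mul_le _ _).trans (by rw [hp.norm_eq, one_mul])

lemma norm_inner_sub_le (hp : ProjSeq C p) {n : ℕ} {v : H} (h1 : ‖v‖ = 1) (hv : p n v = v)
    (x : Op H) (c : ℂ) : ‖⟪v, x v⟫_ℂ - c‖ ≤ ‖p n * x * p n - c • p n‖ := by
  have e : ⟪v, x v⟫_ℂ - c = ⟪v, (p n * x * p n - c • p n) v⟫_ℂ := by
    rw [sub_apply, smul_apply, mul_apply_eq_comp, mul_apply_eq_comp, hv,
      inner_sub_right, inner_smul_right, ← inner_apply_left (hp.star_eq n), hv,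
      inner_self_eq_norm_sq_to_K, h1]
    simp
  rw [e]
  refine (norm_inner_le_norm _ _).trans ?_
  rw [h1, one_mul]
  exact ((_ : Op H).le_opNorm v).trans (by rw [h1, mul_one])

/-- Norms of `a n x b n` decrease. -/
lemma antitone_norm (hp : ProjSeq C p) (hq : ProjSeq C' q) {m n m' n' : ℕ} (h : m ≤ m')
    (h' : n ≤ n') (x : Op H) : ‖q m' * x * p n'‖ ≤ ‖q m * x * p n‖ := by
  have e : q m' * x * p n' = q m' * (q m * x * p n) * p n' := by
    simp only [← mul_assoc, hq.mul_eq m m' h]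
    rw [mul_assoc _ (p n), hp.le_mul h']
  rw [e]
  refine (norm_mul_le _ _).trans ?_
  rw [hp.norm_eq, mul_one]
  exact (norm_mul_le _ _).trans (by rw [hq.norm_eq, one_mul])

end ProjSeq

lemma Inequiv.symm (h : Inequiv C p q) (hp : ProjSeq C' p) (hq : ProjSeq C' q) :
    Inequiv C q p := fun x hx => by
  refine (h (star x) (star_mem hx)).congr fun n => ?_
  rw [← norm_star (q n * star x * p n), star_mul, star_mul, star_star, hp.star_eq, hq.star_eq,
    mul_assoc]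

/-- Failure of inequivalence gives a witness with a uniform lower bound. -/
lemma exists_lower (hp : ProjSeq C' p) (hq : ProjSeq C' q) (h : ¬ Inequiv C p q) :
    ∃ x ∈ C, ∃ δ : ℝ, 0 < δ ∧ ∀ m n, δ ≤ ‖q m * x * p n‖ := by
  by_contra! hcon
  refine h fun x hx => Metric.tendsto_atTop.2 fun ε hε => ?_
  obtain ⟨m, n, hmn⟩ := hcon x hx ε hε
  refine ⟨max m n, fun k hk => ?_⟩
  rw [Real.dist_eq, sub_zero, abs_norm]
  exact (hp.antitone_norm hq ((le_max_left m n).trans hk) ((le_max_right m n).trans hk) x).trans_lt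
    hmn

namespace Excises

lemma tendsto_inner (h : Excises C p χ) {v : ℕ → H} (h1 : ∀ n, ‖v n‖ = 1)
    (hv : ∀ n, p n (v n) = v n) {x : Op H} (hx : x ∈ C) :
    Tendsto (fun n => ⟪v n, x (v n)⟫_ℂ) atTop (𝓝 (χ x)) :=
  tendsto_iff_norm_sub_tendsto_zero.2 (squeeze_zero (fun _ => norm_nonneg _)
    (fun n => h.1.norm_inner_sub_le (h1 n) (hv n) x _) (h.2 x hx))

lemma eq_of_fixed (h : Excises C p χ) {v : H} (h1 : ‖v‖ = 1) (hv : ∀ n, p n v = v) {x : Op H}
    (hx : x ∈ C) : ⟪v, x v⟫_ℂ = χ x :=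
  tendsto_nhds_unique tendsto_const_nhds (h.tendsto_inner (v := fun _ => v) (fun _ => h1) hv hx)

lemma unique (h : Excises C p χ) {χ' : Op H → ℂ} (h' : Excises C p χ') {x : Op H} (hx : x ∈ C) :
    χ x = χ' x := by
  choose v h1 hv using h.1.exists_unit
  exact tendsto_nhds_unique (h.tendsto_inner h1 hv hx) (h'.tendsto_inner h1 hv hx)

lemma apply_one (h : Excises C p χ) : χ 1 = 1 := by
  choose v h1 hv using h.1.exists_unit
  refine tendsto_nhds_unique (h.tendsto_inner h1 hv (one_mem C)) ?_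
  simp [inner_self_eq_norm_sq_to_K, h1]

lemma apply_proj (h : Excises C p χ) (m : ℕ) : χ (p m) = 1 := by
  choose v h1 hv using h.1.exists_unit
  refine tendsto_nhds_unique (h.tendsto_inner h1 hv (h.1.mem m)) (tendsto_const_nhds.congr' ?_)
  filter_upwards [eventually_ge_atTop m] with n hn
  rw [h.1.fix_of_le hn (hv n), inner_self_eq_norm_sq_to_K, h1]
  simp

lemma norm_le (h : Excises C p χ) {x : Op H} (hx : x ∈ C) : ‖χ x‖ ≤ ‖x‖ := by
  choose v h1 hv using h.1.exists_unit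
  refine le_of_tendsto (h.tendsto_inner h1 hv hx).norm (Eventually.of_forall fun n => ?_)
  refine (norm_inner_le_norm _ _).trans ?_
  simpa [h1] using x.le_opNorm (v n)

lemma map_add (h : Excises C p χ) {x y : Op H} (hx : x ∈ C) (hy : y ∈ C) :
    χ (x + y) = χ x + χ y := by
  choose v h1 hv using h.1.exists_unit
  refine tendsto_nhds_unique (h.tendsto_inner h1 hv (add_mem hx hy)) ?_
  simpa [inner_add_right] using (h.tendsto_inner h1 hv hx).add (h.tendsto_inner h1 hv hy)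

lemma map_smul (h : Excises C p χ) (c : ℂ) {x : Op H} (hx : x ∈ C) : χ (c • x) = c * χ x := by
  choose v h1 hv using h.1.exists_unit
  refine tendsto_nhds_unique (h.tendsto_inner h1 hv (SMulMemClass.smul_mem c hx)) ?_
  simpa [inner_smul_right] using (h.tendsto_inner h1 hv hx).const_mul c

lemma map_star (h : Excises C p χ) {x : Op H} (hx : x ∈ C) :
    χ (star x) = starRingEnd ℂ (χ x) := by
  choose v h1 hv using h.1.exists_unit
  refine tendsto_nhds_unique (h.tendsto_inner h1 hv (star_mem hx)) ?_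
  refine ((Complex.continuous_conj.tendsto _).comp (h.tendsto_inner h1 hv hx)).congr fun n => ?_
  show starRingEnd ℂ _ = _
  rw [inner_conj_symm, ← inner_star_apply, star_star]

lemma map_star_mul_self (h : Excises C p χ) {x : Op H} (hx : x ∈ C) :
    0 ≤ (χ (star x * x)).re ∧ (((χ (star x * x)).re : ℝ) : ℂ) = χ (star x * x) := by
  choose v h1 hv using h.1.exists_unit
  have ht := h.tendsto_inner h1 hv (mul_mem (star_mem hx) hx)
  have e : ∀ n, ⟪v n, (star x * x) (v n)⟫_ℂ = ((‖x (v n)‖ ^ 2 : ℝ) : ℂ) := fun n => by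
    rw [mul_apply_eq_comp, ← inner_star_apply, star_star, inner_self_eq_norm_sq_to_K]
    norm_cast
  simp only [e] at ht
  have hre := (Complex.continuous_re.tendsto _).comp ht
  simp only [Function.comp_def, Complex.ofReal_re] at hre
  refine ⟨ge_of_tendsto hre (Eventually.of_forall fun n => by positivity),
    tendsto_nhds_unique ((Complex.continuous_ofReal.tendsto _).comp hre) ht⟩

/-- `‖y p n‖²` tends to `χ (y* y)`. -/
lemma tendsto_norm_sq (h : Excises C p χ) {y : Op H} (hy : y ∈ C) :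
    Tendsto (fun n => ‖y * p n‖ ^ 2) atTop (𝓝 (χ (star y * y)).re) := by
  have hn : Tendsto (fun n => ‖p n * (star y * y) * p n‖) atTop (𝓝 ‖χ (star y * y)‖) := by
    rw [tendsto_iff_norm_sub_tendsto_zero]
    refine squeeze_zero (fun _ => norm_nonneg _) (fun n => ?_) (h.2 _ (mul_mem (star_mem hy) hy))
    have := abs_norm_sub_norm_le (p n * (star y * y) * p n) (χ (star y * y) • p n)
    rwa [norm_smul, h.1.norm_eq, mul_one, ← Real.norm_eq_abs] at this
  obtain ⟨h0, he⟩ := h.map_star_mul_self hy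
  rw [← he, Complex.norm_real, Real.norm_of_nonneg h0] at hn
  refine hn.congr fun n => ?_
  rw [sq, ← CStarRing.norm_star_mul_self, star_mul, h.1.star_eq]
  simp only [mul_assoc]

lemma mono (h : Excises C' p χ) (hC : C ≤ C') (hm : ∀ n, p n ∈ C) : Excises C p χ :=
  ⟨h.1.mono hm, fun x hx => h.2 x (hC hx)⟩

end Excises

lemma Excised.projSeq (h : Excised C p) : ProjSeq C p := h.choose_spec.1

lemma Excised.mono (h : Excised C' p) (hC : C ≤ C') (hm : ∀ n, p n ∈ C) : Excised C p :=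
  let ⟨χ, hχ⟩ := h
  ⟨χ, hχ.mono hC hm⟩

/-- Excision from approximate scalars on a set which is dense in `C`. -/
theorem excised_of_dense (hp : ProjSeq C p) (S : Set (Op H)) (hS : (C : Set (Op H)) ⊆ closure S)
    (h : ∀ x ∈ S, ∀ ε > (0 : ℝ), ∃ (n : ℕ) (c : ℂ), ‖p n * x * p n - c • p n‖ ≤ ε) :
    Excised C p := by
  have hC : ∀ x ∈ C, ∀ ε > (0 : ℝ), ∃ (n : ℕ) (c : ℂ), ‖p n * x * p n - c • p n‖ ≤ ε := by
    intro x hx ε hε
    obtain ⟨y, hy, hxy⟩ := Metric.mem_closure_iff.1 (hS hx) (ε / 2) (half_pos hε)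
    obtain ⟨n, c, hc⟩ := h y hy (ε / 2) (half_pos hε)
    refine ⟨n, c, ?_⟩
    have e : p n * x * p n - c • p n = p n * (x - y) * p n + (p n * y * p n - c • p n) := by
      noncomm_ring
    rw [e]
    refine (norm_add_le _ _).trans ?_
    have : ‖p n * (x - y) * p n‖ ≤ ε / 2 := by
      refine (norm_mul_le _ _).trans ?_
      rw [hp.norm_eq, mul_one]
      refine (norm_mul_le _ _).trans ?_
      rw [hp.norm_eq, one_mul, ← dist_eq_norm]
      exact hxy.le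
    linarith
  have hlim : ∀ x ∈ C, ∃ l : ℂ, Tendsto (fun n => ‖p n * x * p n - l • p n‖) atTop (𝓝 0) := by
    intro x hx
    choose n c hc using fun k : ℕ => hC x hx (1 / (k + 1 : ℝ)) Nat.one_div_pos_of_nat
    have hb : ∀ j k, ‖c j - c k‖ ≤ 1 / (j + 1 : ℝ) + 1 / (k + 1 : ℝ) := fun j k => by
      have h1 := (hp.norm_compress_le (le_max_left (n j) (n k)) x (c j)).trans (hc j)
      have h2 := (hp.norm_compress_le (le_max_right (n j) (n k)) x (c k)).trans (hc k)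
      set N := max (n j) (n k)
      have e : (c j - c k) • p N = (p N * x * p N - c k • p N) - (p N * x * p N - c j • p N) := by
        rw [sub_smul]; abel
      calc ‖c j - c k‖ = ‖(c j - c k) • p N‖ := by rw [norm_smul, hp.norm_eq, mul_one]
        _ ≤ _ := by rw [e]; exact (norm_sub_le _ _).trans (by linarith)
    have ht := tendsto_one_div_add_atTop_nhds_zero_nat (𝕜 := ℝ)
    have hcau : CauchySeq c := Metric.cauchySeq_iff.2 fun ε hε => by
      obtain ⟨K, hK⟩ := eventually_atTop.1 (ht.eventually (gt_mem_nhds (half_pos hε)))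
      refine ⟨K, fun j hj k hk => ?_⟩
      rw [dist_eq_norm]
      linarith [hb j k, hK j hj, hK k hk]
    obtain ⟨l, hl⟩ := cauchySeq_tendsto_of_complete hcau
    refine ⟨l, Metric.tendsto_atTop.2 fun ε hε => ?_⟩
    obtain ⟨k, hk1, hk2⟩ := ((ht.eventually (gt_mem_nhds (half_pos hε))).and
      (hl.eventually (Metric.ball_mem_nhds l (half_pos hε)))).exists
    refine ⟨n k, fun N hN => ?_⟩
    rw [Real.dist_eq, sub_zero, abs_norm]
    have h1 := (hp.norm_compress_le hN x (c k)).trans (hc k)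
    have e : p N * x * p N - l • p N = (p N * x * p N - c k • p N) + (c k - l) • p N := by
      rw [sub_smul]; abel
    rw [e]
    refine (norm_add_le _ _).trans_lt ?_
    rw [norm_smul, hp.norm_eq, mul_one]
    rw [dist_eq_norm] at hk2
    linarith
  choose l hl using hlim
  classical
  refine ⟨fun x => if hx : x ∈ C then l x hx else 0, hp, fun x hx => ?_⟩
  simpa only [dif_pos hx] using hl x hx

theorem excised_of_approx (hp : ProjSeq C p)
    (h : ∀ x ∈ C, ∀ ε > (0 : ℝ), ∃ (n : ℕ) (c : ℂ), ‖p n * x * p n - c • p n‖ ≤ ε) :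
    Excised C p :=
  excised_of_dense hp C subset_closure h

/-- Excision from approximately constant vector values. -/
theorem excised_of_vectors (hp : ProjSeq C p)
    (h : ∀ x ∈ C, ∀ ε > (0 : ℝ), ∃ (n : ℕ) (c : ℂ), ∀ v, ‖v‖ = 1 → p n v = v →
      ‖⟪v, x v⟫_ℂ - c‖ ≤ ε) : Excised C p :=
  excised_of_approx hp fun x hx ε hε => by
    obtain ⟨n, c, hc⟩ := h x hx (ε / 2) (half_pos hε)
    exact ⟨n, c, (norm_corner_le (hp.star_eq n) (hp.idem n) (half_pos hε).le hc).trans (by linarith)⟩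

omit [CompleteSpace H] in
lemma inner_diff_le {v w : H} (h1 : ‖v‖ = 1) (Y : Op H) {τ : ℝ} (hτ0 : 0 ≤ τ) (hτ1 : τ ≤ 1)
    (hd : ‖v - w‖ ≤ τ) : ‖⟪v, Y v⟫_ℂ - ⟪w, Y w⟫_ℂ‖ ≤ 4 * (‖Y‖ + 1) * τ := by
  have e1 : ⟪v, Y v⟫_ℂ - ⟪w, Y w⟫_ℂ = ⟪v - w, Y v⟫_ℂ + ⟪w, Y (v - w)⟫_ℂ := by
    rw [inner_sub_left, _root_.map_sub, inner_sub_right]; ring
  have hwn : ‖w‖ ≤ 2 := by
    calc ‖w‖ = ‖v - (v - w)‖ := by rw [sub_sub_cancel]
      _ ≤ ‖v‖ + ‖v - w‖ := norm_sub_le _ _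
      _ ≤ 2 := by rw [h1]; linarith
  rw [e1]
  refine (norm_add_le _ _).trans ?_
  have t1 : ‖⟪v - w, Y v⟫_ℂ‖ ≤ τ * ‖Y‖ := by
    refine (norm_inner_le_norm _ _).trans (mul_le_mul hd ?_ (norm_nonneg _) hτ0)
    exact (Y.le_opNorm v).trans (by rw [h1, mul_one])
  have t2 : ‖⟪w, Y (v - w)⟫_ℂ‖ ≤ 2 * (‖Y‖ * τ) := by
    refine (norm_inner_le_norm _ _).trans (mul_le_mul hwn ?_ (norm_nonneg _) zero_le_two)
    exact (Y.le_opNorm _).trans (mul_le_mul_of_nonneg_left hd (norm_nonneg _))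
  nlinarith [norm_nonneg Y]

lemma dist_arith {e a g d f σ τ : ℝ} (he : 0 < e) (_hτ : 0 < τ) (ha : f - σ ≤ a)
    (hg : g ≤ e * a + τ ^ 2 / 4 * e ^ 2) (hd : d ≤ f) (he1 : e ≤ d + τ ^ 2 / 4 * d) (he2 : d ≤ e)
    (hσ : 2 * σ ≤ τ ^ 2 / 4 * e) : 1 - 2 * (a / e) + g / e ^ 2 ≤ τ ^ 2 := by
  rw [show (1 : ℝ) - 2 * (a / e) + g / e ^ 2 = (e ^ 2 - 2 * e * a + g) / e ^ 2 by field_simp,
    div_le_iff₀ (by positivity)]
  have h3 : e - a ≤ τ ^ 2 / 4 * e + σ := by nlinarith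
  nlinarith [mul_le_mul_of_nonneg_left h3 he.le, mul_le_mul_of_nonneg_left hσ he.le,
    sq_nonneg (τ * e)]

/-- A sequence of `C` which is not inequivalent to one excised in `C'` is excised in `C'`. -/
theorem Excised.transfer (hC : C ≤ C') (hp : Excised C' p) (hpC : ∀ n, p n ∈ C)
    (hq : Excised C q) (hne : ¬ Inequiv C q p) : Excised C' q := by
  obtain ⟨ψ, hψ⟩ := hp
  obtain ⟨φ, hφ⟩ := hq
  have hqs : ProjSeq C' q := hφ.1.mono fun n => hC (hφ.1.mem n)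
  have hps : ProjSeq C p := hψ.1.mono hpC
  obtain ⟨x, hx, δ, hδ, hlow⟩ := exists_lower hqs hψ.1 hne
  set y := star x with hy
  have hyC : y ∈ C := star_mem hx
  have hlow' : ∀ m n, δ ≤ ‖q m * y * p n‖ := fun m n => by
    have := hlow n m
    rwa [← norm_star, star_mul, star_mul, hψ.1.star_eq, hqs.star_eq, ← mul_assoc] at this
  have hanti : Antitone fun n => ‖q n * y * p n‖ ^ 2 := fun m n h =>
    pow_le_pow_left₀ (norm_nonneg _) (hψ.1.antitone_norm hqs h h y) 2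
  set a := fun n => ‖q n * y * p n‖ ^ 2 with ha
  have hbdd : BddBelow (Set.range a) := ⟨0, by rintro _ ⟨n, rfl⟩; positivity⟩
  set d := ⨅ n, a n with hd
  have hlim : Tendsto a atTop (𝓝 d) := tendsto_atTop_ciInf hanti hbdd
  have hdpos : 0 < d := (pow_pos hδ 2).trans_le
    (le_ciInf fun n => pow_le_pow_left₀ hδ.le (hlow' n n) 2)
  set e := fun m => (ψ (star (q m * y) * (q m * y))).re with he
  set f := fun n => (φ (star (p n * star y) * (p n * star y))).re with hf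
  have het : ∀ m, Tendsto (fun n => ‖q m * y * p n‖ ^ 2) atTop (𝓝 (e m)) := fun m =>
    hψ.tendsto_norm_sq (hC (mul_mem (hφ.1.mem m) hyC))
  have hft : ∀ n, Tendsto (fun m => ‖q m * y * p n‖ ^ 2) atTop (𝓝 (f n)) := fun n => by
    refine (hφ.tendsto_norm_sq (mul_mem (hpC n) (star_mem hyC))).congr fun m => ?_
    rw [← norm_star, star_mul, star_mul, star_star, hqs.star_eq, hψ.1.star_eq, mul_assoc]
  have hsq : ∀ {m n m' n'}, m ≤ m' → n ≤ n' → ‖q m' * y * p n'‖ ^ 2 ≤ ‖q m * y * p n‖ ^ 2 :=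
    fun h h' => pow_le_pow_left₀ (norm_nonneg _) (hψ.1.antitone_norm hqs h h' y) 2
  have hea : ∀ m, d ≤ e m ∧ e m ≤ a m := fun m => by
    refine ⟨ge_of_tendsto (het m) (eventually_atTop.2 ⟨m, fun n hn => ?_⟩),
      le_of_tendsto (het m) (eventually_atTop.2 ⟨m, fun n hn => hsq le_rfl hn⟩)⟩
    exact (ciInf_le hbdd n).trans (hsq hn le_rfl)
  have hfa : ∀ n, d ≤ f n ∧ f n ≤ a n := fun n => by
    refine ⟨ge_of_tendsto (hft n) (eventually_atTop.2 ⟨n, fun m hm => ?_⟩),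
      le_of_tendsto (hft n) (eventually_atTop.2 ⟨n, fun m hm => hsq hm le_rfl⟩)⟩
    exact (ciInf_le hbdd m).trans (hsq le_rfl hm)
  refine excised_of_vectors hqs fun Y hY ε hε => ?_
  set B := ‖y‖ with hB
  -- the tolerance for the square of the distance
  obtain ⟨τ, hτ, hτ1, hτ2⟩ : ∃ τ : ℝ, 0 < τ ∧ τ ≤ 1 ∧ 4 * (‖Y‖ + 1) * τ ≤ ε / 2 := by
    refine ⟨min 1 (ε / (8 * (‖Y‖ + 1))), lt_min one_pos (by positivity), min_le_left _ _, ?_⟩
    calc 4 * (‖Y‖ + 1) * min 1 (ε / (8 * (‖Y‖ + 1)))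
        ≤ 4 * (‖Y‖ + 1) * (ε / (8 * (‖Y‖ + 1))) := by gcongr; exact min_le_right _ _
      _ = ε / 2 := by field_simp; ring
  obtain ⟨m, hm⟩ := eventually_atTop.1 (hlim.eventually
    (gt_mem_nhds (lt_add_of_pos_right d (show 0 < τ ^ 2 / 4 * d by positivity))))
  have hem : 0 < e m := hdpos.trans_le (hea m).1
  set Z := star (q m * y) * Y * (q m * y) with hZ
  have hZmem : Z ∈ C' := mul_mem (mul_mem (star_mem (hC (mul_mem (hφ.1.mem m) hyC))) hY)
    (hC (mul_mem (hφ.1.mem m) hyC))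
  set W := star (q m * y) * (q m * y) with hW
  have hWmem : W ∈ C' := mul_mem (star_mem (hC (mul_mem (hφ.1.mem m) hyC)))
    (hC (mul_mem (hφ.1.mem m) hyC))
  have hWe : ψ W = (e m : ℂ) := (hψ.map_star_mul_self (hC (mul_mem (hφ.1.mem m) hyC))).2.symm
  -- tolerance for the corner estimates
  set κ := min (τ ^ 2 / 4 * e m ^ 2 / (B ^ 2 + 1)) (ε / 4 * e m ^ 2 / (B ^ 2 + 1)) with hκ
  have hκ0 : 0 < κ := lt_min (by positivity) (by positivity)
  obtain ⟨n, hn, hnW, hnZ⟩ : ∃ n, m ≤ n ∧ ‖p n * W * p n - ψ W • p n‖ < κ ∧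
      ‖p n * Z * p n - ψ Z • p n‖ < κ :=
    ((eventually_ge_atTop m).and (((hψ.2 W hWmem).eventually (gt_mem_nhds hκ0)).and
      ((hψ.2 Z hZmem).eventually (gt_mem_nhds hκ0)))).exists
  set X := star (p n * star y) * (p n * star y) with hX
  have hXf : φ X = (f n : ℂ) := (hφ.map_star_mul_self (mul_mem (hpC n) (star_mem hyC))).2.symm
  obtain ⟨σ, hσ, hσ1, hσ2⟩ : ∃ σ : ℝ, 0 < σ ∧ 2 * σ ≤ τ ^ 2 / 4 * e m ∧
      σ * (‖ψ Z‖ + 1) ≤ ε / 4 * e m ^ 2 := by
    refine ⟨min (τ ^ 2 / 8 * e m) (ε / 4 * e m ^ 2 / (‖ψ Z‖ + 1)),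
      lt_min (by positivity) (by positivity), ?_, ?_⟩
    · linarith [min_le_left (τ ^ 2 / 8 * e m) (ε / 4 * e m ^ 2 / (‖ψ Z‖ + 1))]
    · rw [← le_div_iff₀ (by positivity)]
      exact min_le_right _ _
  obtain ⟨N, hN, hNX⟩ : ∃ N, m ≤ N ∧ ‖q N * X * q N - φ X • q N‖ < σ :=
    ((eventually_ge_atTop m).and ((hφ.2 X (mul_mem (star_mem (mul_mem (hpC n) (star_mem hyC)))
      (mul_mem (hpC n) (star_mem hyC)))).eventually (gt_mem_nhds hσ))).exists
  refine ⟨N, ψ Z * (f n : ℂ) / (e m : ℂ) ^ 2, fun v h1 hv => ?_⟩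
  set η := p n (star y v) with hη
  have hηn : ⟪v, X v⟫_ℂ = ((‖η‖ ^ 2 : ℝ) : ℂ) := by
    rw [hX, mul_apply_eq_comp, ← inner_star_apply, star_star, inner_self_eq_norm_sq_to_K]
    norm_cast
  have hηf : |‖η‖ ^ 2 - f n| ≤ σ := by
    have := (hφ.1.norm_inner_sub_le h1 hv X (φ X)).trans hNX.le
    rwa [hηn, hXf, ← Complex.ofReal_sub, Complex.norm_real] at this
  have hpη : p n η = η := by rw [hη, ← mul_apply_eq_comp, hψ.1.idem]
  have hηB : ‖η‖ ^ 2 ≤ B ^ 2 := by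
    refine pow_le_pow_left₀ (norm_nonneg _) ((hψ.1.norm_apply_le n _).trans ?_) 2
    exact ((star y).le_opNorm v).trans (by rw [h1, mul_one, norm_star])
  -- quadratic forms at the vector
  have hform : ∀ T : Op H, ‖⟪η, T η⟫_ℂ - ψ T * ((‖η‖ ^ 2 : ℝ) : ℂ)‖ ≤
      ‖p n * T * p n - ψ T • p n‖ * B ^ 2 := fun T => by
    have e1 : ⟪η, T η⟫_ℂ - ψ T * ((‖η‖ ^ 2 : ℝ) : ℂ) = ⟪η, (p n * T * p n - ψ T • p n) η⟫_ℂ := by
      rw [sub_apply, smul_apply, mul_apply_eq_comp, mul_apply_eq_comp, hpη,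
        inner_sub_right, inner_smul_right, ← inner_apply_left (hψ.1.star_eq n), hpη,
        inner_self_eq_norm_sq_to_K]
      norm_cast
    rw [e1]
    refine (norm_inner_le_norm _ _).trans ?_
    refine (mul_le_mul_of_nonneg_left ((_ : Op H).le_opNorm η) (norm_nonneg η)).trans ?_
    rw [mul_comm ‖η‖, mul_assoc, ← sq]
    exact mul_le_mul_of_nonneg_left hηB (norm_nonneg _)
  set w : H := ((e m : ℂ))⁻¹ • q m (y η) with hw
  have hqv : q m v = v := hqs.fix_of_le hN hv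
  have hvw : ⟪v, q m (y η)⟫_ℂ = ((‖η‖ ^ 2 : ℝ) : ℂ) := by
    rw [← inner_apply_left (hqs.star_eq m), hqv, ← inner_star_apply y, ← hpη,
      ← inner_apply_left (hψ.1.star_eq n), ← hη, hpη, inner_self_eq_norm_sq_to_K]
    norm_cast
  have hWη : ⟪η, W η⟫_ℂ = ((‖q m (y η)‖ ^ 2 : ℝ) : ℂ) := by
    rw [hW, mul_apply_eq_comp, ← inner_star_apply, star_star, inner_self_eq_norm_sq_to_K]
    norm_cast
  have hWb : |‖q m (y η)‖ ^ 2 - e m * ‖η‖ ^ 2| ≤ τ ^ 2 / 4 * e m ^ 2 := by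
    have h2 := hform W
    rw [hWη] at h2
    have e0 : ‖((‖q m (y η)‖ ^ 2 : ℝ) : ℂ) - ψ W * ((‖η‖ ^ 2 : ℝ) : ℂ)‖ =
        |‖q m (y η)‖ ^ 2 - e m * ‖η‖ ^ 2| := by
      rw [hWe, ← Complex.ofReal_mul, ← Complex.ofReal_sub, Complex.norm_real, Real.norm_eq_abs]
    rw [e0] at h2
    refine h2.trans ((mul_le_mul_of_nonneg_right
      (hnW.le.trans (min_le_left _ _)) (sq_nonneg B)).trans ?_)
    rw [div_mul_eq_mul_div, div_le_iff₀ (by positivity)]
    exact mul_le_mul_of_nonneg_left (by linarith) (by positivity)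
  have hdist : ‖v - w‖ ≤ τ := by
    have e1 : ‖v - w‖ ^ 2 = 1 - 2 * (‖η‖ ^ 2 / e m) + ‖q m (y η)‖ ^ 2 / e m ^ 2 := by
      rw [norm_sub_sq (𝕜 := ℂ), h1, hw, inner_smul_right, hvw, norm_smul, mul_pow, norm_inv,
        Complex.norm_real, Real.norm_of_nonneg hem.le, ← Complex.ofReal_inv, ← Complex.ofReal_mul]
      simp only [RCLike.re_to_complex, Complex.ofReal_re]
      ring
    refine le_of_pow_le_pow_left₀ two_ne_zero hτ.le ?_
    rw [e1]
    exact dist_arith hem hτ (by linarith [(abs_le.1 hηf).1]) (by linarith [(abs_le.1 hWb).2])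
      (hfa n).1 ((hea m).2.trans (hm m le_rfl).le) (hea m).1 hσ1
  have hYw : ‖⟪w, Y w⟫_ℂ - ψ Z * (f n : ℂ) / (e m : ℂ) ^ 2‖ ≤ ε / 2 := by
    have e1 : ⟪w, Y w⟫_ℂ = ⟪η, Z η⟫_ℂ / (e m : ℂ) ^ 2 := by
      rw [hw, inner_smul_left, map_smul, inner_smul_right, map_inv₀, Complex.conj_ofReal, hZ,
        mul_apply_eq_comp, mul_apply_eq_comp, ← inner_star_apply (star _),
        star_star, mul_apply_eq_comp]
      ring
    rw [e1, ← sub_div, norm_div, norm_pow, Complex.norm_real, Real.norm_of_nonneg hem.le,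
      div_le_iff₀ (by positivity)]
    have e2 : ⟪η, Z η⟫_ℂ - ψ Z * (f n : ℂ) =
        (⟪η, Z η⟫_ℂ - ψ Z * ((‖η‖ ^ 2 : ℝ) : ℂ)) + ψ Z * ((‖η‖ ^ 2 - f n : ℝ) : ℂ) := by
      push_cast; ring
    rw [e2]
    refine (norm_add_le _ _).trans ?_
    have t1 : ‖p n * Z * p n - ψ Z • p n‖ * B ^ 2 ≤ ε / 4 * e m ^ 2 := by
      refine (mul_le_mul_of_nonneg_right (hnZ.le.trans (min_le_right _ _)) (sq_nonneg B)).trans ?_
      rw [div_mul_eq_mul_div, div_le_iff₀ (by positivity)]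
      exact mul_le_mul_of_nonneg_left (by linarith) (by positivity)
    have t2 : ‖ψ Z * ((‖η‖ ^ 2 - f n : ℝ) : ℂ)‖ ≤ ε / 4 * e m ^ 2 := by
      rw [norm_mul, Complex.norm_real, Real.norm_eq_abs]
      refine (mul_le_mul_of_nonneg_left hηf (norm_nonneg _)).trans ?_
      nlinarith [hσ2, hσ.le]
    linarith [(hform Z).trans t1]
  have hdiff : ‖⟪v, Y v⟫_ℂ - ⟪w, Y w⟫_ℂ‖ ≤ ε / 2 :=
    (inner_diff_le h1 Y hτ.le hτ1 hdist).trans hτ2
  have e3 : ⟪v, Y v⟫_ℂ - ψ Z * (f n : ℂ) / (e m : ℂ) ^ 2 =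
      (⟪v, Y v⟫_ℂ - ⟪w, Y w⟫_ℂ) + (⟪w, Y w⟫_ℂ - ψ Z * (f n : ℂ) / (e m : ℂ) ^ 2) := by ring
  rw [e3]
  exact (norm_add_le _ _).trans (by linarith)

end Vale.Agent.P070.Club
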