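import Vale.Agent.P070.Club.Node

/-!
# Coherent systems of nodes and their direct limits
-/

namespace Vale.Agent.P070.Club

/-- A coherent family of nodes. -/
structure Sys (I : Type) [Preorder I] where
  N : I → Node
  e : ∀ i j, i ≤ j → Emb (N i) (N j)
  J_self : ∀ i x, (e i i le_rfl).J x = x
  ι_self : ∀ i T, (e i i le_rfl).ι T = T
  J_trans : ∀ i j k (hij : i ≤ j) (hjk : j ≤ k) x,
    (e j k hjk).J ((e i j hij).J x) = (e i k (hij.trans hjk)).J x
  ι_trans : ∀ i j k (hij : i ≤ j) (hjk : j ≤ k) T,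
    (e j k hjk).ι ((e i j hij).ι T) = (e i k (hij.trans hjk)).ι T

/-- All nodes and embeddings of the family satisfy their invariants. -/
structure Sys.Good {I : Type} [Preorder I] (S : Sys I) : Prop where
  node : ∀ i, (S.N i).Good
  emb : ∀ i j h, (S.e i j h).Good

/-- A Hilbert space which is the limit of the spaces of the family. -/
structure Colim {I : Type} [Preorder I] (S : Sys I) where
  K : Type
  [normed : NormedAddCommGroup K]
  [ip : InnerProductSpace ℂ K]
  [complete : CompleteSpace K]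
  J : ∀ i, (S.N i).K →ₗᵢ[ℂ] K
  ι : ∀ i, Op (S.N i).K →⋆ₐ[ℂ] Op K
  comm : ∀ i T x, ι i T (J i x) = J i (T x)
  J_compat : ∀ i j h x, J j ((S.e i j h).J x) = J i x
  ι_compat : ∀ i j h T, ι j ((S.e i j h).ι T) = ι i T
  dense : Dense (⋃ i, Set.range (J i))

attribute [instance] Colim.normed Colim.ip Colim.complete

/-- The closed union of the algebras of the family inside a limit space. -/
noncomputable def Colim.alg {I : Type} [Preorder I] {S : Sys I} (L : Colim S) :
    StarSubalgebra ℂ (Op L.K) :=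
  (⨆ i, (S.N i).A.map (L.ι i)).topologicalClosure

/-- A limit node of the family. -/
structure LimitNode {I : Type} [Preorder I] (S : Sys I) where
  L : Node
  e : ∀ i, Emb (S.N i) L
  J_compat : ∀ i j h x, (e j).J ((S.e i j h).J x) = (e i).J x
  ι_compat : ∀ i j h T, (e j).ι ((S.e i j h).ι T) = (e i).ι T

/-- The closed union of an increasing chain of members at cofinal stages is a member of the limit
node. -/
def LimitNode.ChainsClose {I : Type} [Preorder I] {S : Sys I} (Λ : LimitNode S) : Prop :=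
  ∀ (s : ℕ → I) (hs : Monotone s) (C : ∀ k, StarSubalgebra ℂ (Op (S.N (s k)).K)),
    (∀ i, ∃ k, i ≤ s k) → (∀ k, (S.N (s k)).mem (C k)) →
    (∀ k, (C k).map (S.e (s k) (s (k + 1)) (hs k.le_succ)).ι ≤ C (k + 1)) →
    Λ.L.mem (⨆ k, (C k).map (Λ.e (s k)).ι).topologicalClosure

/-- Increasing chains of members close up to a member at some later stage. -/
def Sys.Cont {I : Type} [Preorder I] (S : Sys I) : Prop :=
  ∀ (s : ℕ → I) (hs : Monotone s) (C : ∀ k, StarSubalgebra ℂ (Op (S.N (s k)).K)),
    (∀ k, (S.N (s k)).mem (C k)) →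
    (∀ k, (C k).map (S.e (s k) (s (k + 1)) (hs k.le_succ)).ι ≤ C (k + 1)) →
    ∃ (l : I) (h : ∀ k, s k ≤ l) (D : StarSubalgebra ℂ (Op (S.N l).K)), (S.N l).mem D ∧
      D = (⨆ k, (C k).map (S.e (s k) l (h k)).ι).topologicalClosure

end Vale.Agent.P070.Club
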