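import Vale.Agent.P070.Club.StepData
import Vale.Agent.P070.Club.System

/-!
# The intermediate statements of the ZFC construction

Each proposition below is proved in its own module.
-/

universe u

namespace Vale.Agent.P070.Club

open Filter Topology

/-- Module Transit: irreducible representations reflect their vector states. -/
def ReflectsGoal : Prop :=
  ∀ (H : Type u) [NormedAddCommGroup H] [InnerProductSpace ℂ H] [CompleteSpace H]
    (G : Type u) [NormedAddCommGroup G] [InnerProductSpace ℂ G] [CompleteSpace G]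
    (C : StarSubalgebra ℂ (Op H)), IsClosed (C : Set (Op H)) →
    ∀ π : C →⋆ₐ[ℂ] Op G, Irred π → ∀ ξ : G, ‖ξ‖ = 1 → Reflects π ξ

/-- Module Proj: a reflected vector state of a separable purely infinite algebra is excised. -/
def ExcisedVectorGoal : Prop :=
  ∀ (H : Type u) [NormedAddCommGroup H] [InnerProductSpace ℂ H] [CompleteSpace H]
    (G : Type u) [NormedAddCommGroup G] [InnerProductSpace ℂ G] [CompleteSpace G]
    (C : StarSubalgebra ℂ (Op H)), IsClosed (C : Set (Op H)) →
    TopologicalSpace.IsSeparable (C : Set (Op H)) → IsPI C →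
    ∀ π : C →⋆ₐ[ℂ] Op G, ∀ ξ : G, ‖ξ‖ = 1 → Reflects π ξ →
    ∃ p : ℕ → Op H, Excised C p ∧ ∀ n (h : p n ∈ C), π ⟨p n, h⟩ ξ = ξ

/-- Module Dicho: the core of the dichotomy. -/
def DichoCoreGoal : Prop :=
  ∀ (H : Type u) [NormedAddCommGroup H] [InnerProductSpace ℂ H] [CompleteSpace H]
    (W : Op H) (C₀ C : StarSubalgebra ℂ (Op H)), Compresses W C₀ C →
    IsClosed (C₀ : Set (Op H)) → TopologicalSpace.IsSeparable (C₀ : Set (Op H)) → IsPI C₀ →
    ∀ τ : Op H →ₗ[ℂ] ℂ, IsState τ → τ W = 1 →
    ∀ p, Excised C p → ∀ z ∈ C,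
    ¬ Tendsto (fun n => τ (z * p n * star z)) atTop (𝓝 0) →
    ∃ q, Excised C₀ q ∧ ¬ Inequiv C q p ∧
      ∃ x ∈ C₀, ¬ Tendsto (fun n => τ (x * q n * star x)) atTop (𝓝 0)

/-- Module Dicho: the dichotomy for an excised sequence under a compression. -/
def DichotomyGoal : Prop :=
  ∀ (H : Type u) [NormedAddCommGroup H] [InnerProductSpace ℂ H] [CompleteSpace H]
    (W : Op H) (C₀ C : StarSubalgebra ℂ (Op H)), Compresses W C₀ C →
    IsClosed (C₀ : Set (Op H)) → TopologicalSpace.IsSeparable (C₀ : Set (Op H)) → IsPI C₀ →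
    ∀ p, Excised C p →
    (∀ z ∈ C, Tendsto (fun n => ‖W * z * p n‖) atTop (𝓝 0)) ∨
      ∃ q, Excised C₀ q ∧ ¬ Inequiv C q p

/-- Module Edges: every good node carries edge data. -/
def SpecGoal : Prop :=
  ∀ N : Node, N.Good → ∃ (d : StepData N.K) (dom : d.E → StarSubalgebra ℂ (Op N.K)),
    StepSpec N d dom

/-- Module Model: the space and operators of one step. -/
def ModelGoal : Prop :=
  ∀ (K : Type) [NormedAddCommGroup K] [InnerProductSpace ℂ K] [CompleteSpace K]
    (d : StepData K), d.Ok → Nonempty (Model d)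

/-- Module Unique: every excised sequence stays excised after a step. -/
def StepExcisedGoal : Prop :=
  ∀ (N : Node), N.Good → ∀ (d : StepData N.K) (dom : d.E → StarSubalgebra ℂ (Op N.K)),
    StepSpec N d dom → ∀ M : Model d,
    (∀ p, Excised N.A p → Excised (stepNode N dom M).A (fun n => M.ι (p n))) ∧
      Absorbs (stepEmb N dom M)

/-- Module Club: the next node and its embedding satisfy the invariants. -/
def StepGoodGoal : Prop :=
  ∀ (N : Node), N.Good → ∀ (d : StepData N.K) (dom : d.E → StarSubalgebra ℂ (Op N.K)),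
    StepSpec N d dom → ∀ M : Model d,
    (stepNode N dom M).Good ∧ (stepEmb N dom M).Good

/-- Module Colim: limit spaces exist. -/
def ColimGoal : Prop :=
  ∀ (I : Type) [LinearOrder I] [Nonempty I] (S : Sys I), Nonempty (Colim S)

/-- Module Limit: limits of countable cofinality of good systems are good. -/
def LimitGoal : Prop :=
  ∀ (I : Type) [LinearOrder I] [Nonempty I] (S : Sys I), S.Good →
    (∃ s : ℕ → I, ∀ i, ∃ k, i ≤ s k) →
    ∃ Λ : LimitNode S, Λ.L.Good ∧ (∀ i, (Λ.e i).Good) ∧ Λ.ChainsClose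

/-- Module Base: a good node exists. -/
def BaseGoal : Prop :=
  ∃ N : Node, N.Good

end Vale.Agent.P070.Club
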