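import Vale.Agent.P070.Club.Words
import Vale.Agent.P070.Club.Excise
import Vale.Agent.P070.Club.Goals

/-!
# Excised sequences stay excised after a step

The base sequence stays excised because the corners of reduced words tend to zero; the sequences
of the edges are its conjugates; all others follow by transfer.
-/

namespace Vale.Agent.P070.Club

open Filter Topology ComplexOrder

namespace Unique

/-! ### General facts -/

section General

variable {K : Type} [NormedAddCommGroup K] [InnerProductSpace ℂ K] [CompleteSpace K]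
variable {d : StepData K} (M : Model d)

theorem norm_le_ι (T : Op K) : ‖T‖ ≤ ‖M.ι T‖ :=
  T.opNorm_le_bound (norm_nonneg _) fun x => by
    have := (M.ι T).le_opNorm (M.J x)
    rwa [M.comm, LinearIsometry.norm_map, LinearIsometry.norm_map] at this

theorem norm_ι_le (T : Op K) : ‖M.ι T‖ ≤ ‖T‖ :=
  NonUnitalStarAlgHom.norm_apply_le M.ι T

theorem norm_U_le (f : d.E × Bool) : ‖M.U f‖ ≤ 1 := by
  have h : ‖M.U f‖ * ‖M.U f‖ ≤ 1 := by
    rw [← CStarRing.norm_star_mul_self, M.U_star_mul]
    exact ContinuousLinearMap.norm_id_le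
  nlinarith [norm_nonneg (M.U f)]

/-- A word is unchanged when a compatible letter is put in front. -/
theorem cons {C₀ : StarSubalgebra ℂ (Op K)} {s : Set d.E} {k f g : d.E × Bool} {x y : Op K}
    {Q : Op M.H} (h : M.Pre C₀ s k x Q f) (hy : y ∈ C₀) (hg : g.1 ∈ s)
    (hred : k = StepData.bar g → ∀ n, d.μ k n x = 0) :
    M.Pre C₀ s g y (M.ι y * M.U g * Q) f := by
  induction h with
  | one hx hk =>
    have := Model.Pre.snoc (Model.Pre.one (M := M) hy hg) hx hk hred
    simpa only [mul_assoc] using this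
  | snoc _ hx hk hr ih =>
    have := Model.Pre.snoc (ih hred) hx hk hr
    simpa only [mul_assoc] using this

end General

variable {N : Node} {d : StepData N.K} {dom : d.E → StarSubalgebra ℂ (Op N.K)}

/-- The vector state of the distinguished vector. -/
noncomputable def φ (N : Node) (x : Op N.K) : ℂ :=
  inner ℂ N.ξ₀ (x N.ξ₀)

theorem excises_base (hN : N.Good) : Excises N.A N.p₀ (φ N) := by
  obtain ⟨χ, hχ⟩ := hN.p0_excised
  refine ⟨hχ.1, fun x hx => ?_⟩
  show Tendsto (fun n => ‖N.p₀ n * x * N.p₀ n - inner ℂ N.ξ₀ (x N.ξ₀) • N.p₀ n‖) atTop (𝓝 0)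
  rw [hχ.eq_of_fixed hN.norm_xi hN.p0_fix hx]
  exact hχ.2 x hx

theorem corner_base (hN : N.Good) {x : Op N.K} (hx : x ∈ N.A) :
    Tendsto (fun n => ‖N.p₀ n * (x - φ N x • 1) * N.p₀ n‖) atTop (𝓝 0) := by
  have h := excises_base hN
  refine (h.2 x hx).congr fun n => ?_
  rw [mul_sub, sub_mul, mul_smul_comm, smul_mul_assoc, mul_one, h.1.idem]

theorem mem_A (hd : StepSpec N d dom) (f : d.E × Bool) (n : ℕ) : d.r f n ∈ N.A :=
  hd.A_eq ▸ (hd.ok.proj f).mem n

/-- Two edges with different ranges, one of them not the base, have inequivalent ranges. -/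
theorem inequiv_range (hd : StepSpec N d dom) {g h : d.E × Bool} (hne : g ≠ h)
    (ht : g.2 = true ∨ h.2 = true) : Inequiv N.A (d.r g) (d.r h) := by
  obtain ⟨e, b⟩ := g
  obtain ⟨e', b'⟩ := h
  cases b <;> cases b'
  · simp at ht
  · have h1 := (hd.inequiv_base e').symm (hd.ok.proj (e', true))
      ((hd.r_base e).symm ▸ hd.ok.proj (e, false))
    rwa [hd.r_base e]
  · rw [hd.r_base e']
    exact hd.inequiv_base e
  · exact hd.inequiv e e' fun h => hne (by rw [h])

theorem inequiv_to_base (hd : StepSpec N d dom) (hN : N.Good) {g : d.E × Bool} (hg : g.2 = true)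
    {x : Op N.K} (hx : x ∈ N.A) :
    Tendsto (fun n => ‖N.p₀ n * x * d.r g n‖) atTop (𝓝 0) ∧
      Tendsto (fun n => ‖d.r g n * x * N.p₀ n‖) atTop (𝓝 0) := by
  obtain ⟨e, b⟩ := g
  subst hg
  exact ⟨hd.inequiv_base e x hx, (hd.inequiv_base e).symm (hd.excises (e, true)).1
    (excises_base hN).1 x hx⟩

/-- The junction inside a reduced word. -/
theorem junction (hd : StepSpec N d dom) {h f : d.E × Bool} (ht : h.2 = true ∨ f.2 = true)
    {y : Op N.K} (hy : y ∈ N.A) (hred : f = h → ∀ n, d.μ f n y = 0) :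
    Tendsto (fun n => ‖d.r h n * y * d.r f n‖) atTop (𝓝 0) := by
  by_cases heq : f = h
  · subst heq
    simpa [hred rfl none] using (hd.excises f).2 y hy
  · exact inequiv_range hd heq ht.symm y hy

/-- The corner between a projection of an excised sequence and a creation operator. -/
theorem norm_mul_c_tendsto (hd : StepSpec N d dom) (M : Model d) {s : ℕ → Op N.K}
    (hs : Excised N.A s) {x : Op N.K} (hx : x ∈ N.A) {g : d.E × Bool}
    (h : Tendsto (fun n => ‖s n * x * d.r g n‖) atTop (𝓝 0)) :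
    Tendsto (fun n => ‖M.ι (s n * x) * M.c g‖) atTop (𝓝 0) := by
  have hsp : ProjSeq N.A s := hs.projSeq
  set a : Option ℕ → ℕ → ℝ := fun m n =>
    ‖(d.fib g m).ρ (s n * x) (d.fib g m).η‖ ^ 2 with ha
  have hmem : ∀ n, star (s n * x) * (s n * x) ∈ N.A := fun n =>
    mul_mem (star_mem (mul_mem (hsp.mem n) hx)) (mul_mem (hsp.mem n) hx)
  have hμ : ∀ m n, d.μ g m (star (s n * x) * (s n * x)) = ((a m n : ℝ) : ℂ) := by
    intro m n
    show inner ℂ (d.fib g m).η ((d.fib g m).ρ (star (s n * x) * (s n * x)) (d.fib g m).η) = _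
    rw [map_mul, map_star, ContinuousLinearMap.mul_def, ContinuousLinearMap.comp_apply,
      ← inner_star_apply, star_star, inner_self_eq_norm_sq_to_K, ha]
    norm_cast
  have hanti : ∀ m {n k}, n ≤ k → a m k ≤ a m n := by
    intro m n k hnk
    refine pow_le_pow_left₀ (norm_nonneg _) ?_ 2
    have e : s k * x = s k * (s n * x) := by rw [← mul_assoc, hsp.mul_eq n k hnk]
    rw [e, map_mul, ContinuousLinearMap.mul_def, ContinuousLinearMap.comp_apply]
    refine (((d.fib g m).ρ (s k)).le_opNorm _).trans ?_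
    refine mul_le_of_le_one_left (norm_nonneg _) ?_
    exact (NonUnitalStarAlgHom.norm_apply_le (d.fib g m).ρ (s k)).trans (hsp.norm_eq k).le
  have hnone : Tendsto (fun n => a none n) atTop (𝓝 0) := by
    have h2 : Tendsto (fun n => ‖s n * x * d.r g n‖ ^ 2) atTop (𝓝 0) := by
      simpa using h.pow 2
    refine squeeze_zero (fun n => sq_nonneg _) (fun n => ?_) h2
    have hlim := (hd.excises g).tendsto_norm_sq (mul_mem (hsp.mem n) hx)
    rw [hμ, Complex.ofReal_re] at hlim
    refine le_of_tendsto hlim (eventually_atTop.2 ⟨n, fun m hm => ?_⟩)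
    refine pow_le_pow_left₀ (norm_nonneg _) ?_ 2
    rw [← (hd.ok.proj g).le_mul hm, ← mul_assoc]
    exact (norm_mul_le _ _).trans (by rw [(hd.ok.proj g).norm_eq, mul_one])
  have hsome : ∀ m, Tendsto (fun n => a (some m) n) atTop (𝓝 0) := by
    intro m
    have := hd.diffuse g m s hs (star x) (star_mem hx)
    have hre := (Complex.continuous_re.tendsto _).comp this
    rw [Complex.zero_re] at hre
    refine hre.congr fun n => ?_
    show (d.μ g (some m) (star x * s n * star (star x))).re = a (some m) n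
    have e : star x * s n * star (star x) = star (s n * x) * (s n * x) := by
      rw [star_star, star_mul, hsp.star_eq, mul_assoc, mul_assoc, ← mul_assoc (s n) (s n),
        hsp.idem]
    rw [e, hμ, Complex.ofReal_re]
  have hunif : ∀ ε > (0 : ℝ), ∀ᶠ n in atTop, ∀ m, a m n ≤ ε := by
    intro ε hε
    obtain ⟨n₀, hn₀⟩ := eventually_atTop.1 (hnone.eventually (gt_mem_nhds hε))
    have htail : Tendsto (fun m => a (some m) n₀) atTop (𝓝 (a none n₀)) := by
      have := (Complex.continuous_re.tendsto _).comp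
        (hd.ok.tendsto g _ (show star (s n₀ * x) * (s n₀ * x) ∈ d.A from hd.A_eq ▸ hmem n₀))
      simpa only [Function.comp_def, hμ, Complex.ofReal_re] using this
    obtain ⟨m₀, hm₀⟩ := eventually_atTop.1 (htail.eventually (gt_mem_nhds (hn₀ n₀ le_rfl)))
    have hfin : ∀ᶠ n in atTop, ∀ m ∈ Finset.range m₀, a (some m) n < ε :=
      (eventually_all_finset _).2 fun m _ => (hsome m).eventually (gt_mem_nhds hε)
    filter_upwards [hfin, eventually_ge_atTop n₀] with n hn hn' m
    cases m with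
    | none => exact (hn₀ n hn').le
    | some m =>
      by_cases hm : m < m₀
      · exact (hn m (Finset.mem_range.2 hm)).le
      · exact ((hanti (some m) hn').trans (hm₀ m (not_lt.1 hm)).le)
  have hsq : Tendsto (fun n => ‖M.ι (s n * x) * M.c g‖ ^ 2) atTop (𝓝 0) := by
    set R := (1 : Op M.H) - M.c (StepData.bar g) * star (M.c (StepData.bar g))
    refine Metric.tendsto_atTop.2 fun ε hε => ?_
    have hpos : 0 < ε / (3 * (‖R‖ + 1)) := by positivity
    obtain ⟨n₁, hn₁⟩ := eventually_atTop.1 (hunif _ hpos)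
    refine ⟨n₁, fun n hn => ?_⟩
    rw [Real.dist_eq, sub_zero, abs_of_nonneg (sq_nonneg _), sq, ← CStarRing.norm_star_mul_self]
    have e : star (M.ι (s n * x) * M.c g) * (M.ι (s n * x) * M.c g) =
        star (M.c g) * M.ι (star (s n * x) * (s n * x)) * M.c g := by
      simp only [map_mul, map_star, star_mul, mul_assoc]
    rw [e, M.fibre g _ (hd.A_eq ▸ hmem n)]
    refine (norm_mul_le _ _).trans_lt ?_
    have hb : ‖M.ι (dsum (d.r (StepData.bar g))
        (fun m => d.μ g m (star (s n * x) * (s n * x))))‖ ≤ 3 * (ε / (3 * (‖R‖ + 1))) := by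
      refine (norm_ι_le M _).trans ((hd.ok.proj _).norm_dsum_le ?_ hpos.le fun m => ?_)
      · exact hd.ok.tendsto g _ (hd.A_eq ▸ hmem n)
      · rw [hμ, Complex.norm_real, Real.norm_of_nonneg (sq_nonneg _)]
        exact hn₁ n hn m
    refine (mul_le_mul_of_nonneg_right hb (norm_nonneg _)).trans_lt ?_
    have e2 : 3 * (ε / (3 * (‖R‖ + 1))) = ε / (‖R‖ + 1) := by field_simp
    rw [e2, div_mul_eq_mul_div, div_lt_iff₀ (by positivity)]
    nlinarith [norm_nonneg R]
  have := hsq.sqrt
  simpa [Real.sqrt_sq (norm_nonneg _)] using this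

/-- Both ends of a word are small, so its corner is small. -/
theorem tendsto_ends (hd : StepSpec N d dom) (M : Model d) {g f : d.E × Bool} {x₀ x : Op N.K}
    {P : Op M.H} (hP : M.Pre N.A Set.univ g x₀ P f) (hx : x ∈ N.A) {s t : ℕ → Op N.K}
    (hs : Excised N.A s) (ht : Excised N.A t)
    (h1 : Tendsto (fun n => ‖s n * x₀ * d.r g n‖) atTop (𝓝 0))
    (h2 : Tendsto (fun n => ‖d.r (StepData.bar f) n * x * t n‖) atTop (𝓝 0)) :
    Tendsto (fun n => ‖M.ι (s n) * (P * M.ι x) * M.ι (t n)‖) atTop (𝓝 0) := by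
  obtain ⟨S, T, rfl⟩ := hP.decomp hd.A_eq.ge
  have hx₀ : x₀ ∈ N.A := hP.mem.1
  have a1 := norm_mul_c_tendsto hd M hs hx₀ h1
  have h2' : Tendsto (fun n => ‖t n * star x * d.r (StepData.bar f) n‖) atTop (𝓝 0) := by
    refine h2.congr fun n => ?_
    rw [← norm_star, star_mul, star_mul, (hd.ok.proj _).star_eq, ht.projSeq.star_eq, mul_assoc]
  have a2 := norm_mul_c_tendsto hd M ht (star_mem hx) h2'
  have hlim : Tendsto (fun n => ‖M.ι (s n * x₀) * M.c g‖ * ‖S * M.ι x‖ +
      ‖T‖ * ‖M.ι (t n * star x) * M.c (StepData.bar f)‖) atTop (𝓝 0) := by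
    simpa using (a1.mul_const (‖S * M.ι x‖)).add (a2.const_mul ‖T‖)
  refine squeeze_zero (fun _ => norm_nonneg _) (fun n => ?_) hlim
  have hι : ∀ {u : ℕ → Op N.K}, Excised N.A u → ∀ n, ‖M.ι (u n)‖ ≤ 1 := fun hu n =>
    (norm_ι_le M _).trans (hu.projSeq.norm_eq n).le
  have e : M.ι (s n) * ((M.ι x₀ * M.c g * S + T * star (M.c (StepData.bar f))) * M.ι x) *
      M.ι (t n) = M.ι (s n * x₀) * M.c g * (S * M.ι x) * M.ι (t n) +
      M.ι (s n) * T * star (M.ι (t n * star x) * M.c (StepData.bar f)) := by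
    simp only [star_mul, ← map_star, map_mul, star_star, ht.projSeq.star_eq, add_mul, mul_add,
      mul_assoc]
  rw [e]
  refine (norm_add_le _ _).trans (add_le_add ?_ ?_)
  · refine (norm_mul_le _ _).trans ?_
    exact (mul_le_of_le_one_right (norm_nonneg _) (hι ht n)).trans (norm_mul_le _ _)
  · refine (norm_mul_le _ _).trans ?_
    rw [norm_star]
    refine mul_le_mul_of_nonneg_right ?_ (norm_nonneg _)
    exact (norm_mul_le _ _).trans (mul_le_of_le_one_left (norm_nonneg _) (hι hs n))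

/-- A word with a good first letter has a small corner at the base. -/
theorem tendsto_start (hd : StepSpec N d dom) (hN : N.Good) (M : Model d) {g f : d.E × Bool}
    {x₀ x : Op N.K} {P : Op M.H} (hP : M.Pre N.A Set.univ g x₀ P f) (hx : x ∈ N.A)
    {s : ℕ → Op N.K} (hs : Excised N.A s)
    (h1 : Tendsto (fun n => ‖s n * x₀ * d.r g n‖) atTop (𝓝 0)) :
    Tendsto (fun n => ‖M.ι (s n) * (P * M.ι x) * M.ι (N.p₀ n)‖) atTop (𝓝 0) := by
  have hp := excises_base hN
  obtain ⟨e, b⟩ := f
  cases b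
  · exact tendsto_ends hd M hP hx hs hN.p0_excised h1 (inequiv_to_base hd hN (g := (e, true)) rfl hx).2
  · have hbar : d.r (StepData.bar (e, true)) = N.p₀ := hd.r_base e
    set a := φ N x with ha
    have hx' : x - a • (1 : Op N.K) ∈ N.A := sub_mem hx (SMulMemClass.smul_mem _ (one_mem _))
    have h2 : Tendsto
        (fun n => ‖d.r (StepData.bar (e, true)) n * (x - a • 1) * N.p₀ n‖) atTop (𝓝 0) := by
      rw [hbar]
      exact corner_base hN hx
    have hA := tendsto_ends hd M hP hx' hs hN.p0_excised h1 h2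
    -- the scalar part
    have hB : Tendsto (fun n => ‖M.ι (s n) * P * M.ι (N.p₀ n)‖) atTop (𝓝 0) := by
      have hU : ∀ n, M.U (e, true) * M.ι (N.p₀ n) = M.ι (d.r (e, true) n) * M.U (e, true) :=
        fun n => by rw [M.U_intertwine hd.ok, hbar]
      have hr : Excised N.A (d.r (e, true)) := ⟨_, hd.excises _⟩
      cases hP with
      | one hx₀ hg =>
        refine squeeze_zero (fun _ => norm_nonneg _) (fun n => ?_) h1
        rw [mul_assoc (M.ι (s n)), mul_assoc (M.ι x₀), hU, ← mul_assoc, ← mul_assoc, ← map_mul,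
          ← map_mul]
        refine (norm_mul_le _ _).trans ?_
        exact (mul_le_of_le_one_right (norm_nonneg _) (norm_U_le M _)).trans (norm_ι_le M _)
      | snoc hP' hy hk hred =>
        have hj := junction hd (Or.inr rfl) hy hred
        refine squeeze_zero (fun _ => norm_nonneg _) (fun n => ?_)
          (tendsto_ends hd M hP' hy hs hr h1 hj)
        rw [mul_assoc (M.ι (s n)), mul_assoc _ (M.U _), hU, ← mul_assoc, ← mul_assoc]
        exact (norm_mul_le _ _).trans (mul_le_of_le_one_right (norm_nonneg _) (norm_U_le M _))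
    have hlim : Tendsto (fun n => ‖M.ι (s n) * (P * M.ι (x - a • 1)) * M.ι (N.p₀ n)‖ +
        ‖a‖ * ‖M.ι (s n) * P * M.ι (N.p₀ n)‖) atTop (𝓝 0) := by
      simpa using hA.add (hB.const_mul ‖a‖)
    refine squeeze_zero (fun _ => norm_nonneg _) (fun n => ?_) hlim
    have e' : M.ι (s n) * (P * M.ι x) * M.ι (N.p₀ n) =
        M.ι (s n) * (P * M.ι (x - a • 1)) * M.ι (N.p₀ n) +
          a • (M.ι (s n) * P * M.ι (N.p₀ n)) := by
      simp only [map_sub, map_smul, map_one, mul_sub, sub_mul, mul_smul_comm, smul_mul_assoc,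
        mul_one, sub_add_cancel]
    rw [e']
    exact (norm_add_le _ _).trans (by rw [norm_smul])

/-- The corners of reduced words at the base tend to zero. -/
theorem tendsto_word (hd : StepSpec N d dom) (hN : N.Good) (M : Model d) {g f : d.E × Bool}
    {x₀ x : Op N.K} {P : Op M.H} (hP : M.Pre N.A Set.univ g x₀ P f) (hx : x ∈ N.A) :
    Tendsto (fun n => ‖M.ι (N.p₀ n) * (P * M.ι x) * M.ι (N.p₀ n)‖) atTop (𝓝 0) := by
  have hx₀ : x₀ ∈ N.A := hP.mem.1
  obtain ⟨e, b⟩ := g
  cases b
  · obtain ⟨Q, rfl, hQ⟩ := hP.tail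
    set a := φ N x₀ with ha
    set x₁ := x₀ - a • (1 : Op N.K) with hx₁
    have hx₁m : x₁ ∈ N.A := sub_mem hx₀ (SMulMemClass.smul_mem _ (one_mem _))
    have hgood : Tendsto (fun n => ‖N.p₀ n * x₁ * d.r (e, false) n‖) atTop (𝓝 0) := by
      rw [hd.r_base]
      exact corner_base hN hx₀
    have hP₁ : M.Pre N.A Set.univ (e, false) x₁ (M.ι x₁ * M.U (e, false) * Q) f := by
      rcases hQ with ⟨rfl, rfl⟩ | ⟨k, y, hQ, hk⟩
      · rw [mul_one]
        exact Model.Pre.one hx₁m (Set.mem_univ _)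
      · exact cons M hQ hx₁m (Set.mem_univ _) hk
    have hA := tendsto_start hd hN M hP₁ hx hN.p0_excised hgood
    have hU : ∀ n, M.ι (N.p₀ n) * M.U (e, false) = M.U (e, false) * M.ι (d.r (e, true) n) :=
      fun n => by
        rw [← hd.r_base e, M.U_intertwine hd.ok]
        rfl
    have hB : Tendsto (fun n => ‖M.ι (d.r (e, true) n) * (Q * M.ι x) * M.ι (N.p₀ n)‖)
        atTop (𝓝 0) := by
      rcases hQ with ⟨rfl, rfl⟩ | ⟨k, y, hQ, hk⟩
      · refine squeeze_zero (fun _ => norm_nonneg _) (fun n => ?_)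
          (inequiv_to_base hd hN (g := (e, true)) rfl hx).2
        rw [one_mul, ← map_mul, ← map_mul]
        exact norm_ι_le M _
      · exact tendsto_start hd hN M hQ hx ⟨_, hd.excises _⟩
          (junction hd (h := (e, true)) (f := k) (Or.inl rfl) hQ.mem.1 hk)
    have hlim : Tendsto (fun n =>
        ‖M.ι (N.p₀ n) * (M.ι x₁ * M.U (e, false) * Q * M.ι x) * M.ι (N.p₀ n)‖ +
          ‖a‖ * ‖M.ι (d.r (e, true) n) * (Q * M.ι x) * M.ι (N.p₀ n)‖) atTop (𝓝 0) := by
      simpa using hA.add (hB.const_mul ‖a‖)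
    refine squeeze_zero (fun _ => norm_nonneg _) (fun n => ?_) hlim
    have e' : M.ι (N.p₀ n) * (M.ι x₀ * M.U (e, false) * Q * M.ι x) * M.ι (N.p₀ n) =
        M.ι (N.p₀ n) * (M.ι x₁ * M.U (e, false) * Q * M.ι x) * M.ι (N.p₀ n) +
          a • (M.U (e, false) * (M.ι (d.r (e, true) n) * (Q * M.ι x) * M.ι (N.p₀ n))) := by
      simp only [← mul_assoc, ← hU, hx₁, map_sub, map_smul, map_one, mul_sub, sub_mul,
        mul_smul_comm, smul_mul_assoc, one_mul, sub_add_cancel]
    rw [e']
    refine (norm_add_le _ _).trans (add_le_add le_rfl ?_)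
    rw [norm_smul]
    refine mul_le_mul_of_nonneg_left ((norm_mul_le _ _).trans ?_) (norm_nonneg _)
    exact mul_le_of_le_one_left (norm_nonneg _) (norm_U_le M _)
  · exact tendsto_start hd hN M hP hx hN.p0_excised (inequiv_to_base hd hN (g := (e, true)) rfl hx₀).1

end Unique

open Vale.Agent.P070.Club.Unique in
/-- Every excised sequence stays excised after a step, and becomes equivalent to the base. -/
theorem stepExcised : StepExcisedGoal := by
  intro N hN d dom hd M
  set A' : StarSubalgebra ℂ (Op M.H) := M.gen N.A Set.univ with hA'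
  have hsub : ∀ y ∈ M.ι '' N.A ∪ M.U '' {f | f.1 ∈ (Set.univ : Set d.E)}, y ∈ A' := fun y hy =>
    StarSubalgebra.le_topologicalClosure _ (StarAlgebra.subset_adjoin ℂ _ hy)
  have hι : ∀ x ∈ N.A, M.ι x ∈ A' := fun x hx => hsub _ (Or.inl ⟨x, hx, rfl⟩)
  have hU : ∀ f, M.U f ∈ A' := fun f => hsub _ (Or.inr ⟨f, Set.mem_univ _, rfl⟩)
  -- images of excised sequences
  have hproj : ∀ {q : ℕ → Op N.K}, ProjSeq N.A q → ProjSeq A' (fun n => M.ι (q n)) := fun hq =>
    ⟨fun n => hι _ (hq.mem n), fun n => by rw [← map_star, hq.star_eq],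
      by rw [hq.zero_eq, map_one], fun m n h => by rw [← map_mul, hq.mul_eq m n h],
      fun n h => hq.ne_zero n (norm_le_zero_iff.1 ((norm_le_ι M _).trans (by rw [h, norm_zero])))⟩
  -- the base
  have hbase : Excised A' (fun n => M.ι (N.p₀ n)) := by
    have hp := hproj (excises_base hN).1
    refine excised_of_approx hp fun y hy => ?_
    suffices h : ∀ ε > (0 : ℝ), ∃ (n₀ : ℕ) (c : ℂ), ∀ n ≥ n₀,
        ‖M.ι (N.p₀ n) * y * M.ι (N.p₀ n) - c • M.ι (N.p₀ n)‖ ≤ ε by
      intro ε hε
      obtain ⟨n₀, c, hc⟩ := h ε hε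
      exact ⟨n₀, c, hc n₀ le_rfl⟩
    refine Model.gen_induction hd.ok hd.A_eq.ge hN.closed (fun f _ n => mem_A hd f n)
      (fun y => ∀ ε > (0 : ℝ), ∃ (n₀ : ℕ) (c : ℂ), ∀ n ≥ n₀,
        ‖M.ι (N.p₀ n) * y * M.ι (N.p₀ n) - c • M.ι (N.p₀ n)‖ ≤ ε) ?_ ?_ ?_ ?_ ?_ hy
    · refine isClosed_of_closure_subset fun y hy ε hε => ?_
      obtain ⟨z, hz, hyz⟩ := Metric.mem_closure_iff.1 hy (ε / 2) (half_pos hε)
      obtain ⟨n₀, c, hc⟩ := hz (ε / 2) (half_pos hε)
      refine ⟨n₀, c, fun n hn => ?_⟩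
      have e : M.ι (N.p₀ n) * y * M.ι (N.p₀ n) - c • M.ι (N.p₀ n) =
          M.ι (N.p₀ n) * (y - z) * M.ι (N.p₀ n) +
            (M.ι (N.p₀ n) * z * M.ι (N.p₀ n) - c • M.ι (N.p₀ n)) := by
        rw [mul_sub, sub_mul]
        abel
      rw [e]
      refine (norm_add_le _ _).trans ?_
      have h1 : ‖M.ι (N.p₀ n) * (y - z) * M.ι (N.p₀ n)‖ ≤ ε / 2 := by
        refine (norm_mul_le _ _).trans ?_
        rw [hp.norm_eq, mul_one]
        refine (norm_mul_le _ _).trans ?_
        rw [hp.norm_eq, one_mul, ← dist_eq_norm]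
        exact hyz.le
      linarith [hc n hn]
    · intro y z hy hz ε hε
      obtain ⟨n₁, c₁, h₁⟩ := hy (ε / 2) (half_pos hε)
      obtain ⟨n₂, c₂, h₂⟩ := hz (ε / 2) (half_pos hε)
      refine ⟨max n₁ n₂, c₁ + c₂, fun n hn => ?_⟩
      rw [mul_add, add_mul, add_smul, add_sub_add_comm]
      exact (norm_add_le _ _).trans (by
        linarith [h₁ n ((le_max_left _ _).trans hn), h₂ n ((le_max_right _ _).trans hn)])
    · intro a y hy ε hε
      obtain ⟨n₁, c₁, h₁⟩ := hy (ε / (‖a‖ + 1)) (by positivity)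
      refine ⟨n₁, a * c₁, fun n hn => ?_⟩
      rw [mul_smul_comm, smul_mul_assoc, ← smul_smul, ← smul_sub, norm_smul]
      refine (mul_le_mul_of_nonneg_left (h₁ n hn) (norm_nonneg a)).trans ?_
      rw [mul_div_assoc', div_le_iff₀ (by positivity)]
      nlinarith [norm_nonneg a]
    · intro x hx ε hε
      obtain ⟨n₁, h₁⟩ := eventually_atTop.1
        (((excises_base hN).2 x hx).eventually (gt_mem_nhds hε))
      refine ⟨n₁, φ N x, fun n hn => ?_⟩
      rw [← map_smul, ← map_mul, ← map_mul, ← map_sub]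
      exact (norm_ι_le M _).trans (h₁ n hn).le
    · intro g x₀ P f hP x hx ε hε
      obtain ⟨n₁, h₁⟩ := eventually_atTop.1
        ((tendsto_word hd hN M hP hx).eventually (gt_mem_nhds hε))
      exact ⟨n₁, 0, fun n hn => by rw [zero_smul, sub_zero]; exact (h₁ n hn).le⟩
  -- the edges
  have hedge : ∀ e : d.E, Excised A' (fun n => M.ι (d.r (e, true) n)) := by
    intro e
    have hp := hproj (show ProjSeq N.A (d.r (e, true)) from (hd.excises _).1)
    refine excised_of_approx hp fun y hy ε hε => ?_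
    obtain ⟨χ, hχ⟩ := hbase
    have hy' : star (M.U (e, true)) * y * M.U (e, true) ∈ A' :=
      mul_mem (mul_mem (star_mem (hU _)) hy) (hU _)
    obtain ⟨n, hn⟩ := ((hχ.2 _ hy').eventually (gt_mem_nhds hε)).exists
    refine ⟨n, χ (star (M.U (e, true)) * y * M.U (e, true)), le_trans ?_ hn.le⟩
    have hq : M.ι (d.r (e, true) n) =
        M.U (e, true) * M.ι (N.p₀ n) * star (M.U (e, true)) := by
      have hi : M.ι (d.r (e, true) n) * M.U (e, true) = M.U (e, true) * M.ι (d.r (e, false) n) :=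
        M.U_intertwine hd.ok (e, true) n
      rw [← hd.r_base e, ← hi, M.U_star, mul_assoc, M.U_mul_bar, mul_one]
    have e1 : ∀ c : ℂ, M.ι (d.r (e, true) n) * y * M.ι (d.r (e, true) n) -
        c • M.ι (d.r (e, true) n) =
        M.U (e, true) * (M.ι (N.p₀ n) * (star (M.U (e, true)) * y * M.U (e, true)) *
          M.ι (N.p₀ n) - c • M.ι (N.p₀ n)) * star (M.U (e, true)) := by
      intro c
      simp only [hq, mul_sub, sub_mul, mul_smul_comm, smul_mul_assoc, mul_assoc]
    rw [e1]
    refine (norm_mul_le _ _).trans ?_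
    rw [norm_star]
    exact (mul_le_of_le_one_right (norm_nonneg _) (norm_U_le M _)).trans
      ((norm_mul_le _ _).trans (mul_le_of_le_one_left (norm_nonneg _) (norm_U_le M _)))
  -- transfer from the small algebra
  have himage : ∀ {q r : ℕ → Op N.K}, Excised N.A q → ProjSeq N.A r →
      Excised A' (fun n => M.ι (r n)) → ¬ Inequiv N.A q r →
      Excised A' (fun n => M.ι (q n)) ∧
        ¬ Inequiv A' (fun n => M.ι (q n)) (fun n => M.ι (r n)) := by
    intro q r hq hr hr' hne
    have hle : N.A.map M.ι ≤ A' := by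
      intro z hz
      obtain ⟨x, hx, rfl⟩ := hz
      exact hι x hx
    have hne' : ¬ Inequiv (N.A.map M.ι) (fun n => M.ι (q n)) (fun n => M.ι (r n)) := by
      refine fun h => hne fun x hx => squeeze_zero (fun _ => norm_nonneg _) (fun n => ?_)
        (h (M.ι x) ⟨x, hx, rfl⟩)
      rw [← map_mul, ← map_mul]
      exact norm_le_ι M _
    obtain ⟨χ, hχ⟩ := hq
    have hq' : Excised (N.A.map M.ι) (fun n => M.ι (q n)) := by
      refine excised_of_approx ((hproj hχ.1).mono fun n => ⟨q n, hχ.1.mem n, rfl⟩) ?_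
      rintro z ⟨x, hx, rfl⟩ ε hε
      obtain ⟨n, hn⟩ := ((hχ.2 x hx).eventually (gt_mem_nhds hε)).exists
      refine ⟨n, χ x, ?_⟩
      show ‖M.ι (q n) * M.ι x * M.ι (q n) - χ x • M.ι (q n)‖ ≤ ε
      rw [← map_smul, ← map_mul, ← map_mul, ← map_sub]
      exact (norm_ι_le M _).trans hn.le
    exact ⟨Excised.transfer hle hr' (fun n => ⟨r n, hr.mem n, rfl⟩) hq' hne',
      fun h => hne' fun z hz => h z (hle hz)⟩
  have hself : ∀ {r : ℕ → Op N.K}, ProjSeq N.A r →
      ¬ Inequiv A' (fun n => M.ι (r n)) (fun n => M.ι (r n)) := by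
    intro r hr h
    have := h 1 (one_mem _)
    simp only [mul_one, (hproj hr).idem, (hproj hr).norm_eq] at this
    exact one_ne_zero (tendsto_nhds_unique tendsto_const_nhds this)
  refine ⟨fun p hp => ?_, fun q hq => ?_⟩
  · rcases hd.maximal p hp with h | ⟨e, h⟩
    · exact (himage hp (excises_base hN).1 hbase h).1
    · exact (himage hp (hd.excises _).1 (hedge e) h).1
  · rcases hd.maximal q hq with h | ⟨e, h⟩
    · exact ⟨fun n => M.ι (N.p₀ n), hbase, (himage hq (excises_base hN).1 hbase h).2,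
        hself (excises_base hN).1⟩
    · refine ⟨fun n => M.ι (d.r (e, true) n), hedge e, (himage hq (hd.excises _).1 (hedge e) h).2,
        fun hin => ?_⟩
      have h1 := hin (M.U (e, false)) (hU _)
      have e1 : ∀ n, ‖M.ι (N.p₀ n) * M.U (e, false) * M.ι (d.r (e, true) n)‖ = 1 := by
        intro n
        rw [← hd.r_base e, M.U_intertwine hd.ok]
        show ‖M.U (e, false) * M.ι (d.r (e, true) n) * M.ι (d.r (e, true) n)‖ = 1
        rw [mul_assoc, ← map_mul, (hd.ok.proj _).idem]
        refine le_antisymm ((norm_mul_le _ _).trans ?_) ?_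
        · exact mul_le_one₀ (norm_U_le M _) (norm_nonneg _)
            ((norm_ι_le M _).trans ((hd.ok.proj _).norm_eq n).le)
        · calc (1 : ℝ) = ‖M.ι (d.r (e, true) n)‖ :=
                ((hproj (hd.excises (e, true)).1).norm_eq n).symm
            _ = ‖M.U (e, true) * (M.U (e, false) * M.ι (d.r (e, true) n))‖ := by
                rw [← mul_assoc,
                  show M.U (e, true) * M.U (e, false) = 1 from M.U_mul_bar (e, true), one_mul]
            _ ≤ _ := (norm_mul_le _ _).trans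
                (mul_le_of_le_one_left (norm_nonneg _) (norm_U_le M _))
      exact one_ne_zero (tendsto_nhds_unique tendsto_const_nhds (h1.congr e1))

end Vale.Agent.P070.Club
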