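import Vale.Agent.P070.Club.StepGood.Member
import Vale.Agent.P070.Club.Unique
import Vale.Agent.P070.Club.Dicho

/-!
# The next node and its embedding are good
-/

namespace Vale.Agent.P070.Club

open Filter Topology TopologicalSpace ComplexOrder

variable {N : Node} {d : StepData N.K} {dom : d.E → StarSubalgebra ℂ (Op N.K)}

lemma StepSpec.ctx (hN : N.Good) (hd : StepSpec N d dom) (M : Model d)
    {C₀ : StarSubalgebra ℂ (Op N.K)} (hC : N.mem C₀) {s : Set d.E} (hs : ∀ e ∈ s, dom e ≤ C₀) :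
    M.Ctx N.ξ₀ C₀ s where
  ok := hd.ok
  closed := (hN.member C₀ hC).closed
  r_mem := fun f hf n => hs f.1 hf (hd.r_mem f.1 f.2 n)
  comp := hd.A_eq.symm ▸ (hN.member C₀ hC).compresses
  fix := fun f hf n => hd.support f n C₀ hC (hs f.1 hf)

lemma step_p0_fix (hN : N.Good) (M : Model d) (n : ℕ) :
    M.ι (N.p₀ n) (M.J N.ξ₀) = M.J N.ξ₀ := by
  rw [M.comm, hN.p0_fix]

lemma Model.Ctx.isPI (hN : N.Good) {M : Model d} {C₀ : StarSubalgebra ℂ (Op N.K)} {s : Set d.E}
    (h : M.Ctx N.ξ₀ C₀ s) (hC : N.mem C₀)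
    (hp0 : Excised (M.gen d.A Set.univ) fun n => M.ι (N.p₀ n)) : IsPI (M.gen C₀ s) := by
  have : IsClosed (M.gen C₀ s : Set (Op M.H)) := M.isClosed_gen C₀ s
  refine isPI_of_orbit (hp0.mono h.gen_le fun n => M.ι_mem_gen (hN.base_le C₀ hC (hN.p0_mem n)) s)
    (ξ := M.J N.ξ₀) (by rw [M.J.norm_map, hN.norm_xi]) (step_p0_fix hN M) (fun b hb hb0 => ?_)
    fun n => ?_
  · by_contra hcon
    push Not at hcon
    exact hb0 (h.eq_zero_of_mul_cyc hb (mul_cyc_eq_zero hcon))
  · have hps := hp0.projSeq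
    obtain ⟨x, hx, hx1⟩ := (hN.member N.C₀₀ hN.base_mem).pi (N.p₀ n) (hN.p0_mem n)
      (fun h0 => hps.ne_zero n (by rw [h0, map_zero]))
    refine ⟨M.ι x, M.ι_mem_gen (hN.base_le C₀ hC hx) s, ?_⟩
    have h1 := congrArg M.ι hx1
    rw [map_mul, map_mul, map_mul, map_star, map_star, map_one] at h1
    rwa [hps.star_eq n, hps.idem n] at h1

lemma step_member (hdich : DichotomyGoal.{0}) (hstep : StepExcisedGoal) (hN : N.Good)
    (hd : StepSpec N d dom) (M : Model d) {C₀ : StarSubalgebra ℂ (Op N.K)} {s : Set d.E}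
    (hs : s.Countable) (hC : N.mem C₀) (hle : ∀ e ∈ s, dom e ≤ C₀) :
    Member (stepNode N dom M) (M.gen C₀ s) := by
  have h := hd.ctx hN M hC hle
  have hA : M.gen d.A Set.univ = M.gen N.A Set.univ := by rw [hd.A_eq]
  have hm := hN.member C₀ hC
  have hstay : ∀ p, Excised N.A p → Excised (M.gen d.A Set.univ) fun n => M.ι (p n) := fun p hp =>
    hA ▸ (hstep N hN d dom hd M).1 p hp
  refine ⟨M.isClosed_gen C₀ s, M.isSeparable_gen hm.separable hs,
    h.isPI hN hC (hstay _ hN.p0_excised), ⟨?_, ?_, ?_, ?_, ?_, ?_⟩, fun p hp => ?_⟩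
  · exact star_spanProj _
  · exact spanProj_idem _
  · exact (hA ▸ h.gen_le : M.gen C₀ s ≤ M.gen N.A Set.univ)
  · exact fun c hc => cyc_comm (M.gen C₀ s) (M.J N.ξ₀) hc
  · exact fun c hc h0 => h.eq_zero_of_mul_cyc hc h0
  · exact fun y hy => h.compress_cyc (z := y) (hA.symm ▸ hy)
  · have h1 := h.excised hdich hm.separable hm.pi (fun q hq => hstay q (hm.excised q hq)) hp
    rw [hA] at h1
    exact h1

lemma step_linked (hN : N.Good) (hd : StepSpec N d dom) (M : Model d)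
    {C₀ : StarSubalgebra ℂ (Op N.K)} {s : Set d.E} (hC : N.mem C₀) (hle : ∀ e ∈ s, dom e ≤ C₀) :
    Linked (stepEmb N dom M) C₀ (M.gen C₀ s) := by
  have h := hd.ctx hN M hC hle
  refine ⟨?_, ?_, fun y hy => h.down_mem hy, fun y hy => h.compress_window hy⟩
  · rintro _ ⟨c, hc, rfl⟩
    exact M.ι_mem_gen hc s
  · exact h.ιP_mul_cyc

/-- The compression of a positive operator to the old space is positive. -/
lemma step_state (hσ : IsState N.σ) (M : Model d) : IsState (M.liftState N.σ) := by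
  refine ⟨?_, fun x => ?_⟩
  · show N.σ (M.down 1) = 1
    rw [← map_one M.ι, M.down_ι]
    exact hσ.1
  · show 0 ≤ N.σ (M.down (star x * x))
    have hpos : 0 ≤ M.down (star x * x) := by
      rw [ContinuousLinearMap.nonneg_iff_isPositive]
      have h := ContinuousLinearMap.IsPositive.adjoint_conj
        ((ContinuousLinearMap.nonneg_iff_isPositive _).1 (star_mul_self_nonneg x))
        M.J.toContinuousLinearMap
      exact h
    obtain ⟨y, hy⟩ := CStarAlgebra.nonneg_iff_eq_star_mul_self.1 hpos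
    rw [hy]
    exact hσ.2 y

lemma step_down_cyc (M : Model d) (C : StarSubalgebra ℂ (Op N.K)) :
    M.down (cyc (C.map M.ι) (M.J N.ξ₀)) = cyc C N.ξ₀ := by
  have key : ∀ x, cyc (C.map M.ι) (M.J N.ξ₀) (M.J x) = M.J (cyc C N.ξ₀ x) := by
    intro x
    refine Submodule.eq_starProjection_of_mem_of_inner_eq_zero ?_ ?_
    · have h2 : clSpan {v | ∃ c ∈ C, c N.ξ₀ = v} ≤
          (clSpan {v | ∃ c ∈ C.map M.ι, c (M.J N.ξ₀) = v}).comap M.J.toLinearMap :=
        clSpan_le ((Submodule.isClosed_topologicalClosure _).preimage M.J.continuous) (by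
          rintro v ⟨c, hc, rfl⟩
          exact subset_clSpan ⟨M.ι c, ⟨c, hc, rfl⟩, M.comm c _⟩)
      exact h2 (spanProj_mem _ x)
    · intro w hw
      have hw' : w ∈ clSpan {v | ∃ c ∈ C.map M.ι, c (M.J N.ξ₀) = v} := hw
      have h2 : clSpan {v | ∃ c ∈ C.map M.ι, c (M.J N.ξ₀) = v} ≤
          (Submodule.span ℂ {M.J x - M.J (cyc C N.ξ₀ x)}).orthogonal :=
        clSpan_le (Submodule.isClosed_orthogonal _) (by
          rintro v ⟨_, ⟨c, hc, rfl⟩, rfl⟩
          refine Submodule.mem_orthogonal_singleton_iff_inner_right.2 ?_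
          show inner ℂ _ (M.ι c (M.J N.ξ₀)) = 0
          rw [M.comm, ← map_sub, M.J.inner_map_map]
          exact Submodule.starProjection_inner_eq_zero x _
            (subset_clSpan (S := {v | ∃ c ∈ C, c N.ξ₀ = v}) ⟨c, hc, rfl⟩))
      exact Submodule.mem_orthogonal_singleton_iff_inner_right.1 (h2 hw')
  ext x
  rw [M.down_apply, key, M.Jad_J]

lemma step_diffuse (hN : N.Good) (M : Model d) :
    Diffuse (N.C₀₀.map M.ι) (M.liftState N.σ) := by
  intro p hp x hx
  obtain ⟨q, hq, rfl⟩ := M.exists_preimage hp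
  obtain ⟨y, hy, rfl⟩ := hx
  refine (hN.σ_diffuse q hq y hy).congr fun n => ?_
  show _ = N.σ (M.down (M.ι y * M.ι (q n) * star (M.ι y)))
  rw [← map_star, ← map_mul, ← map_mul, M.down_ι]

lemma step_cofinal (hN : N.Good) (hd : StepSpec N d dom) (M : Model d) {S : Set (Op M.H)}
    (hS : S.Countable) (hSA : S ⊆ M.gen N.A Set.univ) :
    ∃ C₀ s, s.Countable ∧ N.mem C₀ ∧ (∀ e ∈ s, dom e ≤ C₀) ∧ S ⊆ M.gen C₀ s := by
  classical
  choose G hG hGc hmem using fun x : S => exists_countable_generators (hSA x.2)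
  have := hS.to_subtype
  set G' : Set (Op M.H) := ⋃ x : S, G x with hG'
  have hG'c : G'.Countable := Set.countable_iUnion hGc
  set T : Set (Op N.K) := M.ι ⁻¹' G' ∩ N.A with hT
  have hTc : T.Countable := (hG'c.preimage M.ι_injective).mono Set.inter_subset_left
  choose F hF using fun g : {g : Op M.H | g ∈ G' ∧ g ∈ Set.range M.U} => g.2.2
  have := (hG'c.mono (fun g (hg : g ∈ {g : Op M.H | g ∈ G' ∧ g ∈ Set.range M.U}) => hg.1)).to_subtype
  set s : Set d.E := Set.range fun g => (F g).1 with hs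
  have hsc : s.Countable := Set.countable_range _
  choose D hDsub hDc hDd using fun e : s =>
    (hN.member _ (hd.dom_mem e.1)).separable.exists_countable_dense_subset
  have := hsc.to_subtype
  have hsubA : T ∪ ⋃ e : s, D e ⊆ N.A := by
    refine Set.union_subset Set.inter_subset_right (Set.iUnion_subset fun e => ?_)
    exact (hDsub e).trans (hN.member _ (hd.dom_mem e.1)).compresses.le
  obtain ⟨C₀, hC₀, hsub⟩ := hN.cofinal _ (hTc.union (Set.countable_iUnion hDc)) hsubA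
  refine ⟨C₀, s, hsc, hC₀, fun e he x hx => ?_, fun x hx => ?_⟩
  · exact closure_minimal
      ((Set.subset_iUnion D ⟨e, he⟩).trans (Set.subset_union_right.trans hsub))
      (hN.member C₀ hC₀).closed (hDd ⟨e, he⟩ hx)
  · refine StarSubalgebra.topologicalClosure_minimal (StarAlgebra.adjoin_le ?_)
      (M.isClosed_gen C₀ s) (hmem ⟨x, hx⟩)
    intro g hg
    have hgG : g ∈ G' := Set.mem_iUnion.2 ⟨⟨x, hx⟩, hg⟩
    rcases hG ⟨x, hx⟩ hg with ⟨a, ha, rfl⟩ | ⟨f, -, rfl⟩
    · exact M.ι_mem_gen (hsub (Or.inl ⟨hgG, ha⟩)) s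
    · have h2 : M.U (F ⟨M.U f, hgG, f, rfl⟩) ∈ M.gen C₀ s := M.U_mem_gen C₀ ⟨_, rfl⟩
      rwa [hF ⟨M.U f, hgG, f, rfl⟩] at h2

lemma step_union (hN : N.Good) (hd : StepSpec N d dom) (M : Model d)
    (g : ℕ → StarSubalgebra ℂ (Op M.H)) (hg : Monotone g)
    (hmem : ∀ k, (stepNode N dom M).mem (g k)) :
    ∃ C₀ s, s.Countable ∧ N.mem C₀ ∧ (∀ e ∈ s, dom e ≤ C₀) ∧
      (⨆ k, g k).topologicalClosure = M.gen C₀ s := by
  choose C t htc hC hle heq using hmem
  have hmono : Monotone C := fun k l hkl c hc => by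
    have h1 : M.ι c ∈ M.gen (C l) (t l) := heq l ▸ hg hkl ((heq k).symm ▸ M.ι_mem_gen hc (t k))
    have h2 := (hd.ctx hN M (hC l) (hle l)).down_mem h1
    rwa [M.down_ι] at h2
  have hCle : ∀ k, C k ≤ (⨆ k, C k).topologicalClosure := fun k =>
    (le_iSup C k).trans (StarSubalgebra.le_topologicalClosure _)
  refine ⟨_, ⋃ k, t k, Set.countable_iUnion htc, hN.union C hmono hC, fun e he => ?_,
    le_antisymm ?_ ?_⟩
  · obtain ⟨k, hk⟩ := Set.mem_iUnion.1 he
    exact (hle k e hk).trans (hCle k)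
  · refine StarSubalgebra.topologicalClosure_minimal (iSup_le fun k => ?_) (M.isClosed_gen _ _)
    rw [heq k]
    exact M.gen_mono (hCle k) (Set.subset_iUnion t k)
  · refine StarSubalgebra.topologicalClosure_minimal (StarAlgebra.adjoin_le ?_)
      (StarSubalgebra.isClosed_topologicalClosure _)
    have hk : ∀ k, (g k : Set (Op M.H)) ⊆ (⨆ k, g k).topologicalClosure := fun k =>
      SetLike.coe_subset_coe.2 ((le_iSup g k).trans (StarSubalgebra.le_topologicalClosure _))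
    rintro _ (⟨c, hc, rfl⟩ | ⟨f, hf, rfl⟩)
    · have h2 : (⨆ k, C k).topologicalClosure ≤ (⨆ k, g k).topologicalClosure.comap M.ι :=
        StarSubalgebra.topologicalClosure_minimal
          (iSup_le fun k c hc => hk k ((heq k).symm ▸ M.ι_mem_gen hc (t k)))
          ((StarSubalgebra.isClosed_topologicalClosure _).preimage M.isometry_ι.continuous)
      exact h2 hc
    · obtain ⟨k, hkf⟩ := Set.mem_iUnion.1 hf
      exact hk k ((heq k).symm ▸ M.U_mem_gen (C k) hkf)

/-- The next node and its embedding satisfy the invariants. -/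
theorem stepGood : StepGoodGoal := by
  intro N hN d dom hd M
  have hexc := stepExcised N hN d dom hd M
  have hC00 := (hN.member N.C₀₀ hN.base_mem).closed
  refine ⟨⟨?_, ?_, ?_, ?_, ?_, ?_, ?_, ?_, ?_, ?_, ?_, ?_, ?_, ?_⟩, ⟨?_, ?_, ?_, ?_, ?_, ?_⟩⟩
  · exact M.isClosed_gen N.A Set.univ
  · show ‖M.J N.ξ₀‖ = 1
    rw [M.J.norm_map, hN.norm_xi]
  · exact fun n => ⟨N.p₀ n, hN.p0_mem n, rfl⟩
  · exact step_p0_fix hN M
  · exact fun n h => hN.p0_strict n (M.ι_injective h)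
  · exact hexc.1 _ hN.p0_excised
  · exact ⟨N.C₀₀, ∅, Set.countable_empty, hN.base_mem, fun e he => absurd he (Set.notMem_empty e),
      (M.gen_empty hC00).symm⟩
  · rintro C ⟨C₀, s, -, hC₀, -, rfl⟩ _ ⟨c, hc, rfl⟩
    exact M.ι_mem_gen (hN.base_le C₀ hC₀ hc) s
  · rintro C ⟨C₀, s, hs, hC₀, hle, rfl⟩
    exact step_member dichotomy stepExcised hN hd M hs hC₀ hle
  · intro S hS hSA
    obtain ⟨C₀, s, h1, h2, h3, h4⟩ := step_cofinal hN hd M hS hSA
    exact ⟨_, ⟨C₀, s, h1, h2, h3, rfl⟩, h4⟩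
  · intro g hg hmem
    exact step_union hN hd M g hg hmem
  · exact step_state hN.σ_state M
  · show N.σ (M.down (cyc (N.C₀₀.map M.ι) (M.J N.ξ₀))) = 1
    rw [step_down_cyc]
    exact hN.σ_supp
  · exact step_diffuse hN M
  · rintro _ ⟨a, ha, rfl⟩
    exact M.ι_mem_gen ha Set.univ
  · exact fun _ => rfl
  · rfl
  · exact fun _ => rfl
  · exact hexc.1
  · rintro C ⟨C₀, s, -, hC₀, hle, rfl⟩
    exact ⟨C₀, hC₀, step_linked hN hd M hC₀ hle⟩

end Vale.Agent.P070.Club
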