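import Vale.Agent.P070.Club.Colim

/-!
The tower of good nodes over a well order with countable initial segments and no countable cofinal
set, from the base, the successor step and the limit step.
-/

namespace Vale.Agent.P070.Club

open Vale.Agent.P070.ZFC

/-- The successor step. -/
def StepGoal : Prop :=
  ∀ N : Node, N.Good → ∃ (M : Node) (e : Emb N M), M.Good ∧ e.Good ∧ Absorbs e

/-- The successor step from its modules. -/
theorem stepGoal_of (hspec : SpecGoal) (hmodel : ModelGoal) (hex : StepExcisedGoal)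
    (hgood : StepGoodGoal) : StepGoal := by
  intro N hN
  obtain ⟨d, dom, hd⟩ := hspec N hN
  obtain ⟨M⟩ := hmodel N.K d hd.ok
  exact ⟨stepNode N dom M, stepEmb N dom M, (hgood N hN d dom hd M).1, (hgood N hN d dom hd M).2,
    (hex N hN d dom hd M).2⟩

/-- Identities and composites of good embeddings between good nodes are good. -/
def EmbGoodGoal : Prop :=
  (∀ N : Node, N.Good → (Emb.refl N).Good) ∧
    ∀ (L M N : Node) (e : Emb L M) (e' : Emb M N), L.Good → M.Good → N.Good → e.Good → e'.Good →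
      (Emb.trans e e').Good

/-- The tower. -/
def TowerGoal : Prop :=
  ∃ (I : Type) (_ : LinearOrder I) (_ : Nonempty I) (S : Sys I), S.Good ∧ S.Cont ∧
    (∀ i, ∃ j, ∃ h : i < j, Absorbs (S.e i j h.le)) ∧
    ∀ s : Set I, s.Countable → ∃ i, ∀ x ∈ s, x < i

/-- A well order on a type, with countable initial segments, in which every countable set is
strictly bounded. -/
theorem exists_omega1 : ∃ (I : Type) (_ : LinearOrder I), WellFoundedLT I ∧ Nonempty I ∧
    (∀ i : I, (Set.Iio i).Countable) ∧ ∀ s : Set I, s.Countable → ∃ i, ∀ x ∈ s, x < i := by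
  refine ⟨(Cardinal.aleph 1).ord.ToType, inferInstance, inferInstance, ?_⟩
  have hcard : Cardinal.mk (Cardinal.aleph 1).ord.ToType = Cardinal.aleph 1 :=
    Cardinal.mk_ord_toType _
  have hun : ¬ Countable (Cardinal.aleph 1).ord.ToType := by
    rw [← Cardinal.mk_le_aleph0_iff, hcard, not_le]
    exact Cardinal.aleph0_lt_aleph_one
  have hne : Nonempty (Cardinal.aleph 1).ord.ToType := by
    by_contra h
    have := not_nonempty_iff.1 h
    exact hun inferInstance
  have hIio : ∀ i : (Cardinal.aleph 1).ord.ToType, (Set.Iio i).Countable := fun i => by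
    rw [← Cardinal.le_aleph0_iff_set_countable, ← Order.lt_succ_iff, Cardinal.succ_aleph0]
    exact (Cardinal.mk_Iio_lt i (by rw [hcard]; exact (Ordinal.type_toType _).symm)).trans_eq hcard
  refine ⟨hne, hIio, fun s hs => ?_⟩
  by_contra hno
  push Not at hno
  refine hun (Set.countable_univ_iff.1 ((hs.biUnion fun x _ => (hIio x).insert x).mono ?_))
  intro i _
  obtain ⟨x, hx, hix⟩ := hno i
  refine Set.mem_biUnion hx ?_
  rcases eq_or_lt_of_le hix with h | h
  · exact Set.mem_insert_iff.2 (Or.inl h)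
  · exact Set.mem_insert_of_mem _ h

namespace TowerAux

/-- Nodes and embeddings. -/
noncomputable abbrev cat : Tower.Cat.{1, 0} where
  Obj := Node
  Hom := Emb
  idH := Emb.refl
  compH e e' := Emb.trans e e'
  id_comp _ := rfl
  comp_id _ := rfl
  assoc _ _ _ := rfl

variable {Ω : Type} [LinearOrder Ω] {s : Set Ω}

/-- A system as a coherent family. -/
def toSys (D : Tower.Sys cat s) : Sys s where
  N := D.obj
  e i j h := D.map i j h
  J_self i x := by
    show (D.map i i le_rfl).J x = x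
    rw [D.map_id]
    rfl
  ι_self i T := by
    show (D.map i i le_rfl).ι T = T
    rw [D.map_id]
    rfl
  J_trans i j k hij hjk x := by
    rw [← D.map_comp i j k hij hjk]
    rfl
  ι_trans i j k hij hjk T := by
    rw [← D.map_comp i j k hij hjk]
    rfl

/-- A limit node as a cocone. -/
def ofLimit (D : Tower.Sys cat s) (Λ : LimitNode (toSys D)) : Tower.Cocone D where
  apex := Λ.L
  leg := Λ.e
  comm a b h := by
    have e1 := Λ.J_compat a b h
    have e2 := Λ.ι_compat a b h
    show Emb.trans (D.map a b h) (Λ.e b) = Λ.e a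
    exact embExt (fun x => e1 x) (fun T => e2 T)
where
  embExt {M N : Node} {e e' : Emb M N} (h1 : ∀ x, e.J x = e'.J x) (h2 : ∀ T, e.ι T = e'.ι T) :
      e = e' := by
    obtain ⟨J, ι, _, _⟩ := e
    obtain ⟨J', ι', _, _⟩ := e'
    obtain rfl : J = J' := LinearIsometry.ext h1
    obtain rfl : ι = ι' := StarAlgHom.ext h2
    rfl

/-- A cocone without any invariants. -/
noncomputable def anyLimit [Nonempty s] (D : Tower.Sys cat s) : LimitNode (toSys D) where
  L :=
    { K := (toSys D).colim.K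
      A := (toSys D).colim.alg
      ξ₀ := (toSys D).colim.J (Classical.arbitrary s) ((toSys D).N _).ξ₀
      p₀ := fun _ => 1
      C₀₀ := ⊥
      σ := 0
      mem := fun _ => False }
  e i :=
    { J := (toSys D).colim.J i
      ι := (toSys D).colim.ι i
      comm := (toSys D).colim.comm i
      xi := (toSys D).colim_xi i _ }
  J_compat i j h x := (toSys D).colim.J_compat i j h x
  ι_compat i j h T := (toSys D).colim.ι_compat i j h T

open Classical in
/-- The successor embedding. -/
noncomputable def stepHom (hs : StepGoal) (N : Node) : Σ M : Node, Emb N M :=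
  if h : N.Good then ⟨(hs N h).choose, (hs N h).choose_spec.choose⟩ else ⟨N, Emb.refl N⟩

lemma stepHom_spec (hs : StepGoal) (N : Node) (h : N.Good) :
    (stepHom hs N).1.Good ∧ (stepHom hs N).2.Good ∧ Absorbs (stepHom hs N).2 := by
  have e : stepHom hs N = ⟨(hs N h).choose, (hs N h).choose_spec.choose⟩ := by
    rw [stepHom, dif_pos h]
  rw [e]
  exact (hs N h).choose_spec.choose_spec

open Classical in
/-- The limit node. -/
noncomputable def limitCone (hl : LimitGoal) [Nonempty s] (D : Tower.Sys cat s) :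
    LimitNode (toSys D) :=
  if h : (toSys D).Good ∧ ∃ f : ℕ → s, ∀ i, ∃ k, i ≤ f k then (hl s (toSys D) h.1 h.2).choose
  else anyLimit D

lemma limitCone_spec (hl : LimitGoal) [Nonempty s] (D : Tower.Sys cat s) (hD : (toSys D).Good)
    (hc : ∃ f : ℕ → s, ∀ i, ∃ k, i ≤ f k) :
    (limitCone hl D).L.Good ∧ (∀ i, ((limitCone hl D).e i).Good) ∧
      (limitCone hl D).ChainsClose := by
  rw [limitCone, dif_pos ⟨hD, hc⟩]
  exact (hl s (toSys D) hD hc).choose_spec

open Classical in
/-- The recursion step. -/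
noncomputable def build (hb : BaseGoal) (hs : StepGoal) (hl : LimitGoal) (l : Ω)
    (D : Tower.Sys cat (Set.Iio l)) : Tower.Cocone D :=
  if hmax : ∃ δ : Set.Iio l, ∀ a : Set.Iio l, a.1 ≤ δ.1 then
    { apex := (stepHom hs (D.obj hmax.choose)).1
      leg := fun a => Emb.trans (D.map a hmax.choose (hmax.choose_spec a))
        (stepHom hs (D.obj hmax.choose)).2
      comm := fun a b h => by
        show Emb.trans (D.map a b h) (Emb.trans (D.map b hmax.choose (hmax.choose_spec b)) _) = _
        show Emb.trans (Emb.trans (D.map a b h) (D.map b hmax.choose (hmax.choose_spec b))) _ = _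
        exact congrArg (fun x => Emb.trans x (stepHom hs (D.obj hmax.choose)).2)
          (D.map_comp a b hmax.choose h (hmax.choose_spec b)) }
  else if hne : Nonempty (Set.Iio l) then ofLimit D (limitCone hl D)
  else
    { apex := hb.choose
      leg := fun a => absurd ⟨a⟩ hne
      comm := fun a _ _ => absurd ⟨a⟩ hne }

variable (hb : BaseGoal) (hst : StepGoal) (hl : LimitGoal)

lemma build_good (hg : EmbGoodGoal) (l : Ω) (D : Tower.Sys cat (Set.Iio l)) (hD : (toSys D).Good)
    (hcount : (Set.Iio l).Countable) (c : Tower.Cocone D) (hc : c = build hb hst hl l D) :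
    Node.Good c.apex ∧ ∀ a, Emb.Good (c.leg a) := by
  by_cases hmax : ∃ δ : Set.Iio l, ∀ a : Set.Iio l, a.1 ≤ δ.1
  · rw [build, dif_pos hmax] at hc
    subst hc
    obtain ⟨h1, h2, -⟩ := stepHom_spec hst _ (hD.node hmax.choose)
    exact ⟨h1, fun a => hg.2 _ _ _ _ _ (hD.node a) (hD.node hmax.choose) h1
      (hD.emb a hmax.choose (hmax.choose_spec a)) h2⟩
  by_cases hne' : Nonempty (Set.Iio l)
  · rw [build, dif_neg hmax, dif_pos hne'] at hc
    subst hc
    have hf : ∃ f : ℕ → Set.Iio l, ∀ i, ∃ k, i ≤ f k := by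
      have := hcount.to_subtype
      obtain ⟨f, hf⟩ := exists_surjective_nat (Set.Iio l)
      exact ⟨f, fun i => (hf i).imp fun k hk => hk.ge⟩
    obtain ⟨h1, h2, -⟩ := limitCone_spec hl D hD hf
    exact ⟨h1, h2⟩
  · rw [build, dif_neg hmax, dif_neg hne'] at hc
    subst hc
    exact ⟨hb.choose_spec, fun a => absurd ⟨a⟩ hne'⟩

lemma build_absorbs (l : Ω) (D : Tower.Sys cat (Set.Iio l)) (δ : Set.Iio l)
    (hδ : ∀ a : Set.Iio l, a.1 ≤ δ.1) (hgood : Node.Good (D.obj δ)) (c : Tower.Cocone D)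
    (hc : c = build hb hst hl l D) : Absorbs (c.leg δ) := by
  subst hc
  have hmax : ∃ δ : Set.Iio l, ∀ a : Set.Iio l, a.1 ≤ δ.1 := ⟨δ, hδ⟩
  have e : hmax.choose = δ := Subtype.ext (le_antisymm (hδ _) (hmax.choose_spec δ))
  rw [build, dif_pos hmax]
  subst e
  show Absorbs (Emb.trans (D.map hmax.choose hmax.choose (hmax.choose_spec hmax.choose))
    (stepHom hst (D.obj hmax.choose)).2)
  rw [show D.map hmax.choose hmax.choose (hmax.choose_spec hmax.choose) =
    Emb.refl (D.obj hmax.choose) from D.map_id _]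
  exact (stepHom_spec hst _ hgood).2.2

lemma build_chain (l : Ω) (D : Tower.Sys cat (Set.Iio l)) (hD : (toSys D).Good)
    (s : ℕ → Set.Iio l) (hs : Monotone s)
    (hcof : ∀ i, ∃ k, i ≤ s k) (hmax : ¬ ∃ δ : Set.Iio l, ∀ a : Set.Iio l, a.1 ≤ δ.1)
    (C : ∀ k, StarSubalgebra ℂ (Op ((toSys D).N (s k)).K)) (hC : ∀ k, ((toSys D).N (s k)).mem (C k))
    (hchain : ∀ k, (C k).map ((toSys D).e (s k) (s (k + 1)) (hs k.le_succ)).ι ≤ C (k + 1))
    (c : Tower.Cocone D) (hc : c = build hb hst hl l D) :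
    Node.mem c.apex (⨆ k, (C k).map (Emb.ι (c.leg (s k)))).topologicalClosure := by
  have hne : Nonempty (Set.Iio l) := ⟨s 0⟩
  rw [build, dif_neg hmax, dif_pos hne] at hc
  subst hc
  have hf : ∃ f : ℕ → Set.Iio l, ∀ i, ∃ k, i ≤ f k := ⟨s, hcof⟩
  exact (limitCone_spec hl D hD hf).2.2 s hs C hcof hC hchain

end TowerAux

/-- A member pushed to the same stage is a member. -/
lemma Sys.mem_map_of_eq {I : Type} [Preorder I] (S : Sys I) {a l : I} (e : a = l) (h : a ≤ l)
    {C : StarSubalgebra ℂ (Op (S.N a).K)} (hC : (S.N a).mem C) :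
    (S.N l).mem (C.map (S.e a l h).ι) := by
  subst e
  rwa [show (S.e a a h).ι = StarAlgHom.id ℂ _ from StarAlgHom.ext (S.ι_self a),
    StarSubalgebra.map_id]

open TowerAux in
/-- Module Tower. -/
theorem tower (hb : BaseGoal) (hs : StepGoal) (hl : LimitGoal) (hg : EmbGoodGoal) :
    TowerGoal := by
  obtain ⟨Ω, _, hwf, hne, hcount, hbound⟩ := exists_omega1
  obtain ⟨T, hT⟩ := Tower.exists_tower (𝒞 := cat) (Ω := Ω) hb.choose (build hb hs hl)
  let S : Sys Ω :=
    { N := fun i => T.obj ⟨i, trivial⟩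
      e := fun i j h => T.map ⟨i, trivial⟩ ⟨j, trivial⟩ h
      J_self := fun i x => (toSys T).J_self _ x
      ι_self := fun i x => (toSys T).ι_self _ x
      J_trans := fun i j k h₁ h₂ x => (toSys T).J_trans _ _ _ h₁ h₂ x
      ι_trans := fun i j k h₁ h₂ x => (toSys T).ι_trans _ _ _ h₁ h₂ x }
  have main : ∀ l : Ω, (S.N l).Good ∧ ∀ i (h : i ≤ l), (S.e i l h).Good := by
    intro l
    induction l using WellFoundedLT.induction with
    | _ l ih =>
      have hD : (toSys (T.below l)).Good :=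
        ⟨fun i => (ih i.1 i.2).1, fun i j h => (ih j.1 j.2).2 i.1 h⟩
      have key := build_good hb hs hl hg l (T.below l) hD (hcount l) (T.cap l) (hT l)
      refine ⟨key.1, fun i h => ?_⟩
      rcases eq_or_lt_of_le h with rfl | h'
      · have : S.e i i h = Emb.refl (S.N i) := T.map_id _
        rw [this]
        exact hg.1 _ key.1
      · exact key.2 ⟨i, h'⟩
  have hgood : S.Good := ⟨fun i => (main i).1, fun i j h => (main j).2 i h⟩
  have hcont : S.Cont := by
    intro s hs' C hC hchain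
    have hup : {j | ∀ k, s k ≤ j}.Nonempty := by
      obtain ⟨j, hj⟩ := hbound (Set.range s) (Set.countable_range s)
      exact ⟨j, fun k => (hj _ ⟨k, rfl⟩).le⟩
    obtain ⟨l, hl₁, hl₂⟩ := hwf.wf.has_min _ hup
    have hleast : ∀ b, (∀ k, s k ≤ b) → l ≤ b := fun b hb' => not_lt.1 (hl₂ b hb')
    refine ⟨l, hl₁, _, ?_, rfl⟩
    by_cases hex : ∃ k, s k = l
    · obtain ⟨k₀, hk₀⟩ := hex
      have hcon : ∀ m, k₀ ≤ m → s m = l := fun m hm =>
        le_antisymm (hl₁ m) (hk₀.ge.trans (hs' hm))
      set f : ℕ → StarSubalgebra ℂ (Op (S.N l).K) := fun k =>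
        (C k).map (S.e (s k) l (hl₁ k)).ι
      have hmono : Monotone f := monotone_nat_of_le_succ fun k => by
        rintro _ ⟨x, hx, rfl⟩
        refine ⟨(S.e (s k) (s (k + 1)) (hs' k.le_succ)).ι x, hchain k ⟨x, hx, rfl⟩, ?_⟩
        exact S.ι_trans _ _ _ (hs' k.le_succ) (hl₁ (k + 1)) x
      have hsup : (⨆ k, f k) = ⨆ k, f (k₀ + k) :=
        le_antisymm (iSup_le fun k => (hmono (Nat.le_add_left k k₀)).trans
          (le_iSup (fun k => f (k₀ + k)) k)) (iSup_le fun k => le_iSup f (k₀ + k))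
      show (S.N l).mem (⨆ k, f k).topologicalClosure
      rw [hsup]
      exact (main l).1.union _ (hmono.comp fun a b h => Nat.add_le_add_left h k₀) fun k =>
        S.mem_map_of_eq (hcon _ (Nat.le_add_right k₀ k)) _ (hC _)
    · push Not at hex
      have hlt : ∀ k, s k < l := fun k => lt_of_le_of_ne (hl₁ k) (hex k)
      have hnmax : ¬ ∃ δ : Set.Iio l, ∀ a : Set.Iio l, a.1 ≤ δ.1 := fun ⟨δ, hδ⟩ =>
        absurd (hleast δ.1 fun k => hδ ⟨s k, hlt k⟩) (not_le.2 δ.2)
      have hcof : ∀ i : Set.Iio l, ∃ k, i ≤ (⟨s k, hlt k⟩ : Set.Iio l) := fun i => by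
        by_contra hno
        push Not at hno
        exact absurd (hleast i.1 fun k => (hno k).le) (not_le.2 i.2)
      exact build_chain hb hs hl l (T.below l)
        ⟨fun i => (main i.1).1, fun i j h => (main j.1).2 i.1 h⟩ 
        (fun k => ⟨s k, hlt k⟩) (fun a b h => hs' h) hcof hnmax C hC hchain (T.cap l) (hT l)
  refine ⟨Ω, _, hne, S, hgood, hcont, fun i => ?_, hbound⟩
  have hex : {j | i < j}.Nonempty := by
    obtain ⟨j, hj⟩ := hbound {i} (Set.countable_singleton i)
    exact ⟨j, hj i rfl⟩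
  obtain ⟨j, hij, hj⟩ := hwf.wf.has_min _ hex
  have hjmax : ∀ a : Set.Iio j, a.1 ≤ i := fun a => not_lt.1 fun h => hj a.1 h a.2
  refine ⟨j, hij, ?_⟩
  exact build_absorbs hb hs hl j (T.below j) ⟨i, hij⟩ hjmax (main i).1 (T.cap j) (hT j)

end Vale.Agent.P070.Club
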