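import Vale.Agent.P070.Club.Main
import Vale.Agent.P070.Club.Tower
import Vale.Agent.P070.Club.Link
import Vale.Agent.P070.Club.Limit
import Vale.Agent.P070.Club.StepGood
import Vale.Agent.P070.Club.Unique
import Vale.Agent.P070.Club.Model
import Vale.Agent.P070.Club.Edges
import Vale.Agent.P070.Club.Base
import Vale.Agent.P070.Club.Colim
import Vale.Agent.P070.Club.Dicho
import Vale.Agent.P070.Club.Transit
import Vale.Agent.P070.Club.Proj

/-!
# The counterexample to Naimark's problem in ZFC
-/

namespace Vale.Agent.P070.Club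

/-- A unital infinite-dimensional C*-algebra with property (N) which is not elementary. -/
theorem naimark : ∃ (A : Type) (_ : CStarAlgebra A),
    PropertyN A ∧ ¬ IsElementary A ∧ ¬ FiniteDimensional ℂ A := by
  have hstep : StepGoal := stepGoal_of (Edges.spec_of_core dichoCore) model stepExcised stepGood
  have hemb : EmbGoodGoal :=
    ⟨fun N _ => Emb.Good.refl N, fun _ _ _ _ _ _ _ _ he he' => Emb.Good.trans he he'⟩
  obtain ⟨I, hI, hne, S, hS, hcont, habs, hbd⟩ := tower base hstep (limit dichotomy) hemb
  obtain ⟨L⟩ := colim I S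
  refine main_of (hS := hS) (hU := hcont) (hb := fun f => ?_) reflects excisedVector
    (fun i => ?_) L
  · obtain ⟨j, hj⟩ := hbd (Set.range f) (Set.countable_range f)
    exact ⟨j, fun k => (hj _ ⟨k, rfl⟩).le⟩
  · obtain ⟨j, h, ha⟩ := habs i
    exact ⟨j, h.le, ha⟩

end Vale.Agent.P070.Club
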