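import Vale.Agent.P070.Defs

/-!
# Basic notions for the ZFC construction

Excised pairs, inequivalence, diffuse functionals, compressing projections, cyclic projections.
-/

universe u

namespace Vale.Agent.P070.Club

open Filter Topology ComplexOrder

section Abstract

variable {B : Type u} [CStarAlgebra B]

/-- Purely infinite in the unital sense: every nonzero positive element is invertible up to
compression. -/
def IsPI (C : StarSubalgebra ℂ B) : Prop :=
  ∀ a ∈ C, a ≠ 0 → ∃ x ∈ C, star x * (star a * a) * x = 1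

/-- A decreasing sequence of nonzero projections in `C` starting at `1`. -/
structure ProjSeq (C : StarSubalgebra ℂ B) (p : ℕ → B) : Prop where
  mem : ∀ n, p n ∈ C
  star_eq : ∀ n, star (p n) = p n
  zero_eq : p 0 = 1
  mul_eq : ∀ m n, m ≤ n → p n * p m = p n
  ne_zero : ∀ n, p n ≠ 0

/-- `p` excises `χ` in `C`. -/
def Excises (C : StarSubalgebra ℂ B) (p : ℕ → B) (χ : B → ℂ) : Prop :=
  ProjSeq C p ∧ ∀ x ∈ C, Tendsto (fun n => ‖p n * x * p n - χ x • p n‖) atTop (𝓝 0)

/-- `p` excises some functional in `C`. -/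
def Excised (C : StarSubalgebra ℂ B) (p : ℕ → B) : Prop :=
  ∃ χ, Excises C p χ

/-- The two sequences are inequivalent in `C`. -/
def Inequiv (C : StarSubalgebra ℂ B) (p q : ℕ → B) : Prop :=
  ∀ x ∈ C, Tendsto (fun n => ‖q n * x * p n‖) atTop (𝓝 0)

/-- Consecutive members are different. -/
def IsStrict (p : ℕ → B) : Prop :=
  ∀ n, p n ≠ p (n + 1)

/-- No excised sequence is seen by `τ`. -/
def Diffuse (C : StarSubalgebra ℂ B) (τ : B → ℂ) : Prop :=
  ∀ p, Excised C p → ∀ x ∈ C, Tendsto (fun n => τ (x * p n * star x)) atTop (𝓝 0)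

/-- The element with value `μ (some n)` on `r n - r (n + 1)` and limit value `μ none`. -/
noncomputable def dsum (r : ℕ → B) (μ : Option ℕ → ℂ) : B :=
  μ none • (1 : B) + ∑' n : ℕ, (μ (some n) - μ none) • (r n - r (n + 1))

end Abstract

section Concrete

variable {H : Type u} [NormedAddCommGroup H] [InnerProductSpace ℂ H] [CompleteSpace H]

/-- A state of all bounded operators. -/
def IsState (τ : Op H →ₗ[ℂ] ℂ) : Prop :=
  τ 1 = 1 ∧ ∀ x : Op H, 0 ≤ τ (star x * x)

/-- The closed span of the orbit of `ξ` under `C`. -/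
def cycSpace (C : StarSubalgebra ℂ (Op H)) (ξ : H) : Submodule ℂ H :=
  (Submodule.span ℂ {v | ∃ c ∈ C, c ξ = v}).topologicalClosure

instance (C : StarSubalgebra ℂ (Op H)) (ξ : H) : CompleteSpace (cycSpace C ξ) :=
  (Submodule.isClosed_topologicalClosure _).completeSpace_coe

/-- The projection onto the closed span of the orbit of `ξ` under `C`. -/
noncomputable def cyc (C : StarSubalgebra ℂ (Op H)) (ξ : H) : Op H :=
  (cycSpace C ξ).starProjection

/-- `W` commutes with `C₀`, separates it, and compresses `C` into it. -/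
structure Compresses (W : Op H) (C₀ C : StarSubalgebra ℂ (Op H)) : Prop where
  star_eq : star W = W
  idem : W * W = W
  le : C₀ ≤ C
  comm : ∀ c ∈ C₀, c * W = W * c
  inj : ∀ c ∈ C₀, c * W = 0 → c = 0
  compress : ∀ y ∈ C, ∃ c ∈ C₀, W * y * W = c * W

variable {G : Type u} [NormedAddCommGroup G] [InnerProductSpace ℂ G] [CompleteSpace G]

/-- No closed invariant subspaces other than the trivial ones. -/
def Irred {C : StarSubalgebra ℂ (Op H)} (π : C →⋆ₐ[ℂ] Op G) : Prop :=
  Nontrivial G ∧ ∀ M : Submodule ℂ G, IsClosed (M : Set G) →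
    (∀ a : C, ∀ x ∈ M, π a x ∈ M) → M = ⊥ ∨ M = ⊤

/-- The vector state of `ξ` is excised from within `C` by positive contractions fixing `ξ`. -/
def Reflects {C : StarSubalgebra ℂ (Op H)} (π : C →⋆ₐ[ℂ] Op G) (ξ : G) : Prop :=
  ∀ x : C, ∀ ε : ℝ, 0 < ε → ∃ b : C, star b = b ∧ ‖(b : Op H)‖ ≤ 1 ∧ π b ξ = ξ ∧
    ‖(b : Op H) * ((x : Op H) - (inner ℂ ξ (π x ξ)) • 1) * (b : Op H)‖ ≤ ε

end Concrete

end Vale.Agent.P070.Club
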