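import Vale.Agent.P070.Club.Basic

/-!
# Fixed vectors of excised sequences

The vector functional of a fixed vector is the excised functional; failure of inequivalence gives a
fixed vector of the other sequence.
-/

universe u

namespace Vale.Agent.P070.Club

open Filter Topology InnerProductSpace

variable {H : Type u} [NormedAddCommGroup H] [InnerProductSpace ℂ H] [CompleteSpace H]
variable {G : Type u} [NormedAddCommGroup G] [InnerProductSpace ℂ G] [CompleteSpace G]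
variable {C : StarSubalgebra ℂ (Op H)} {p q : ℕ → Op H} {χ : Op H → ℂ}

lemma alg_apply_mul (π : C →⋆ₐ[ℂ] Op G) (a b : C) (v : G) : π (a * b) v = π a (π b v) := by
  rw [map_mul]; rfl

lemma alg_inner_star (π : C →⋆ₐ[ℂ] Op G) (a : C) (v w : G) :
    ⟪v, π (star a) w⟫_ℂ = ⟪π a v, w⟫_ℂ := by
  rw [map_star, ContinuousLinearMap.star_eq_adjoint, ContinuousLinearMap.adjoint_inner_right]

/-- A vector fixed by an excising sequence has the excised vector functional. -/
lemma inner_of_fixed (π : C →⋆ₐ[ℂ] Op G) (hπ : ∀ a, ‖π a‖ ≤ ‖(a : Op H)‖) (hp : Excises C p χ)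
    {ξ : G} (hfix : ∀ n, π ⟨p n, hp.1.mem n⟩ ξ = ξ) (c : C) :
    ⟪ξ, π c ξ⟫_ℂ = χ c * ⟪ξ, ξ⟫_ℂ := by
  refine tendsto_nhds_unique (l := (atTop : Filter ℕ)) (f := fun _ : ℕ => ⟪ξ, π c ξ⟫_ℂ)
    tendsto_const_nhds ?_
  refine tendsto_iff_norm_sub_tendsto_zero.2 (squeeze_zero (fun _ => norm_nonneg _) (fun n => ?_)
    (by simpa using (hp.2 c c.2).const_mul (‖ξ‖ * ‖ξ‖)))
  set P : C := ⟨p n, hp.1.mem n⟩ with hP
  have hPs : star P = P := Subtype.ext (hp.1.star_eq n)
  have h1 : ⟪ξ, π (P * c * P - χ c • P) ξ⟫_ℂ = ⟪ξ, π c ξ⟫_ℂ - χ c * ⟪ξ, ξ⟫_ℂ := by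
    rw [map_sub, map_smul, sub_apply, smul_apply, inner_sub_right, inner_smul_right,
      alg_apply_mul, alg_apply_mul, hfix n]
    congr 1
    nth_rw 1 [← hPs]
    rw [alg_inner_star, hfix n]
  rw [← h1]
  refine (norm_inner_le_norm _ _).trans ?_
  rw [mul_assoc ‖ξ‖]
  refine mul_le_mul_of_nonneg_left ?_ (norm_nonneg ξ)
  refine ((π _).le_opNorm ξ).trans ?_
  rw [mul_comm]
  exact mul_le_mul_of_nonneg_left (hπ _) (norm_nonneg _)

/-- A fixed vector moves along a failure of inequivalence. -/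
lemma fixed_of_not_inequiv (π : C →⋆ₐ[ℂ] Op G) (hπ : ∀ a, ‖π a‖ ≤ ‖(a : Op H)‖)
    (hp : Excises C p χ) (hq : ProjSeq C q) {ξ : G} (hξ : ξ ≠ 0)
    (hfix : ∀ n, π ⟨p n, hp.1.mem n⟩ ξ = ξ) (hne : ¬ Inequiv C p q) :
    ∃ η : G, η ≠ 0 ∧ ∀ n, π ⟨q n, hq.mem n⟩ η = η := by
  simp only [Inequiv, not_forall] at hne
  obtain ⟨x, hx, hlim⟩ := hne
  set X : C := ⟨x, hx⟩ with hX
  let Q : ℕ → C := fun n => ⟨q n, hq.mem n⟩
  have hQs : ∀ n, star (Q n) = Q n := fun n => Subtype.ext (hq.star_eq n)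
  have hQm : ∀ m n, m ≤ n → Q n * Q m = Q n := fun m n h => Subtype.ext (hq.mul_eq m n h)
  have hQm' : ∀ m n, m ≤ n → Q m * Q n = Q n := fun m n h => by
    simpa [hQs] using congrArg star (hQm m n h)
  let g : ℕ → G := fun n => π (Q n) (π X ξ)
  have hgg : ∀ m n, m ≤ n → π (Q n) (g m) = g n := fun m n h => by
    simp only [g, ← alg_apply_mul, ← mul_assoc, hQm m n h]
  have hpyth : ∀ m n, m ≤ n → ‖g m - g n‖ ^ 2 = ‖g m‖ ^ 2 - ‖g n‖ ^ 2 := by
    intro m n h
    have h1 : ⟪g m, g n⟫_ℂ = ⟪g n, g n⟫_ℂ := by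
      have : g n = π (Q n) (g n) := (hgg n n le_rfl).symm
      conv_lhs => rw [this, ← hQs n, alg_inner_star, hgg m n h]
    rw [norm_sub_sq (𝕜 := ℂ), h1, inner_self_eq_norm_sq]
    ring
  have hanti : Antitone fun n => ‖g n‖ ^ 2 := fun m n h => by
    have h1 := hpyth m n h
    have h2 := sq_nonneg ‖g m - g n‖
    show ‖g n‖ ^ 2 ≤ ‖g m‖ ^ 2
    linarith
  have hconv : Tendsto (fun n => ‖g n‖ ^ 2) atTop (𝓝 (⨅ n, ‖g n‖ ^ 2)) :=
    tendsto_atTop_ciInf hanti ⟨0, by rintro _ ⟨n, rfl⟩; positivity⟩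
  have hcau : CauchySeq g := by
    refine Metric.cauchySeq_iff'.2 fun ε hε => ?_
    obtain ⟨N, hN⟩ := Metric.tendsto_atTop.1 hconv (ε ^ 2) (by positivity)
    refine ⟨N, fun n hn => ?_⟩
    rw [dist_eq_norm, norm_sub_rev]
    refine (pow_lt_pow_iff_left₀ (norm_nonneg _) hε.le two_ne_zero).1 ?_
    rw [hpyth N n hn]
    have h1 := hN N le_rfl
    rw [Real.dist_eq] at h1
    have h2 : (⨅ k, ‖g k‖ ^ 2) ≤ ‖g n‖ ^ 2 :=
      ciInf_le ⟨0, by rintro _ ⟨k, rfl⟩; positivity⟩ n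
    linarith [le_abs_self (‖g N‖ ^ 2 - ⨅ k, ‖g k‖ ^ 2)]
  obtain ⟨η, hη⟩ := cauchySeq_tendsto_of_complete hcau
  refine ⟨η, fun h0 => hlim ?_, fun k => ?_⟩
  · -- `g → 0` would make `q_n x p_n` small
    rw [h0] at hη
    have hg : ∀ m, (χ (star x * q m * x)) * ⟪ξ, ξ⟫_ℂ = ((‖g m‖ ^ 2 : ℝ) : ℂ) := by
      intro m
      rw [show star x * q m * x = ((star X * Q m * X : C) : Op H) from rfl,
        ← inner_of_fixed π hπ hp hfix]
      rw [mul_assoc, alg_apply_mul, alg_inner_star, alg_apply_mul]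
      rw [show π (Q m) (π X ξ) = π (Q m) (g m) from (hgg m m le_rfl).symm]
      nth_rw 1 [← hQs m]
      rw [alg_inner_star, show π (Q m) (π X ξ) = g m from rfl, inner_self_eq_norm_sq_to_K]
      simp
    have hn2 : ∀ m n, m ≤ n → ‖q n * x * p n‖ ^ 2 ≤
        ‖χ (star x * q m * x)‖ +
          ‖p n * (star x * q m * x) * p n - χ (star x * q m * x) • p n‖ := by
      intro m n h
      have hQn : ‖q n‖ ≤ 1 := by
        have h1 : ‖q n‖ * ‖q n‖ = ‖q n‖ := by
          rw [← CStarRing.norm_star_mul_self, hq.star_eq, hq.mul_eq n n le_rfl]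
        nlinarith [norm_nonneg (q n)]
      have hPn : ‖p n‖ ≤ 1 := by
        have h1 : ‖p n‖ * ‖p n‖ = ‖p n‖ := by
          rw [← CStarRing.norm_star_mul_self, hp.1.star_eq, hp.1.mul_eq n n le_rfl]
        nlinarith [norm_nonneg (p n)]
      have hle : ‖q n * x * p n‖ ≤ ‖q m * x * p n‖ := by
        rw [show q n * x * p n = q n * (q m * x * p n) by
          rw [← mul_assoc, ← mul_assoc, hq.mul_eq m n h]]
        exact (norm_mul_le _ _).trans (mul_le_of_le_one_left (norm_nonneg _) hQn)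
      have heq : star (q m * x * p n) * (q m * x * p n) = p n * (star x * q m * x) * p n := by
        simp only [star_mul, hp.1.star_eq, hq.star_eq, mul_assoc]
        rw [← mul_assoc (q m) (q m), hq.mul_eq m m le_rfl]
      calc ‖q n * x * p n‖ ^ 2 ≤ ‖q m * x * p n‖ ^ 2 := pow_le_pow_left₀ (norm_nonneg _) hle 2
        _ = ‖p n * (star x * q m * x) * p n‖ := by rw [sq, ← CStarRing.norm_star_mul_self, heq]
        _ ≤ _ := by
          refine (norm_le_norm_add_norm_sub' _ (χ (star x * q m * x) • p n)).trans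
            (add_le_add ?_ le_rfl)
          rw [norm_smul]
          exact mul_le_of_le_one_right (norm_nonneg _) hPn
    have hξ2 : 0 < ‖ξ‖ ^ 2 := by positivity
    rw [Metric.tendsto_atTop]
    intro ε hε
    obtain ⟨m, hm⟩ := Metric.tendsto_atTop.1 (hη.norm.pow 2) (ε ^ 2 / 2 * ‖ξ‖ ^ 2) (by positivity)
    have hχm : ‖χ (star x * q m * x)‖ < ε ^ 2 / 2 := by
      have h1 := congrArg norm (hg m)
      rw [norm_mul, inner_self_eq_norm_sq_to_K, norm_pow, RCLike.norm_ofReal, abs_norm,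
        Complex.norm_real, Real.norm_of_nonneg (sq_nonneg _)] at h1
      have h2 := hm m le_rfl
      rw [norm_zero, Real.dist_eq, zero_pow two_ne_zero, sub_zero, abs_of_nonneg (sq_nonneg _),
        ← h1] at h2
      exact lt_of_mul_lt_mul_right h2 hξ2.le
    obtain ⟨N, hN⟩ := Metric.tendsto_atTop.1
      (hp.2 (star x * q m * x) (mul_mem (mul_mem (star_mem hx) (hq.mem m)) hx)) (ε ^ 2 / 2)
      (by positivity)
    refine ⟨max m N, fun n hn => ?_⟩
    have h3 := hN n ((le_max_right _ _).trans hn)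
    rw [dist_zero_right, norm_norm] at h3
    rw [dist_zero_right, norm_norm]
    refine (pow_lt_pow_iff_left₀ (norm_nonneg _) hε.le two_ne_zero).1 ?_
    exact (hn2 m n ((le_max_left _ _).trans hn)).trans_lt (by linarith)
  · refine tendsto_nhds_unique (((π (Q k)).continuous.tendsto _).comp hη) (hη.congr' ?_)
    filter_upwards [eventually_ge_atTop k] with n hn
    simp only [g, Function.comp_apply, ← alg_apply_mul, ← mul_assoc, hQm' k n hn]

end Vale.Agent.P070.Club
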