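import Vale.Agent.P070.Club.Basic

/-!
# Two small tools for the final assembly

Unital irreducible representations with a common vector functional are unitarily equivalent, and
failure of inequivalence moves a fixed vector from one sequence to another.
-/

universe u

namespace Vale.Agent.P070.Club

open Filter Topology InnerProductSpace

variable {A : Type u} [CStarAlgebra A]
variable {G₁ : Type u} [NormedAddCommGroup G₁] [InnerProductSpace ℂ G₁] [CompleteSpace G₁]
variable {G₂ : Type u} [NormedAddCommGroup G₂] [InnerProductSpace ℂ G₂] [CompleteSpace G₂]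

lemma apply_mul_apply (π : A →⋆ₙₐ[ℂ] Op G₁) (a b : A) (x : G₁) :
    π (a * b) x = π a (π b x) := by
  rw [map_mul]; rfl

/-- An irreducible representation of a unital algebra is unital. -/
lemma map_one_of_irreducible {π : A →⋆ₙₐ[ℂ] Op G₁} (h : IsIrreducibleRep π) : π 1 = 1 := by
  set M : Submodule ℂ G₁ := LinearMap.ker ((π 1 - 1 : Op G₁) : G₁ →ₗ[ℂ] G₁) with hM
  have hmem : ∀ x, x ∈ M ↔ π 1 x = x := fun x => by simp [hM, sub_eq_zero]
  rcases h.2 M (π 1 - 1 : Op G₁).isClosed_ker (fun a x _ => by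
    refine (hmem _).2 ?_
    show π 1 (π a x) = π a x
    rw [← apply_mul_apply π 1 a, one_mul]) with h0 | h1
  · obtain ⟨a, ha⟩ := h.1
    refine absurd (ContinuousLinearMap.ext fun x => ?_) ha
    have : π a x ∈ M := (hmem _).2 (by rw [← apply_mul_apply π 1 a, one_mul])
    rw [h0, Submodule.mem_bot] at this
    simpa using this
  · ext x
    have : x ∈ M := h1 ▸ Submodule.mem_top
    simpa using (hmem x).1 this

/-- A nonzero vector of an irreducible representation is cyclic. -/
lemma denseRange_orbit {π : A →⋆ₙₐ[ℂ] Op G₁} (h : IsIrreducibleRep π) {ξ : G₁} (hξ : ξ ≠ 0) :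
    DenseRange fun a => π a ξ := by
  let L : A →ₗ[ℂ] G₁ :=
    { toFun := fun a => π a ξ
      map_add' := fun a b => by simp
      map_smul' := fun z a => by simp }
  have hinv : ∀ a : A, ∀ x ∈ L.range.topologicalClosure, π a x ∈ L.range.topologicalClosure := by
    intro a x hx
    rw [← SetLike.mem_coe, Submodule.topologicalClosure_coe] at hx ⊢
    refine map_mem_closure (π a).continuous hx ?_
    rintro _ ⟨c, rfl⟩
    exact ⟨a * c, apply_mul_apply π a c ξ⟩
  rcases h.2 _ (Submodule.isClosed_topologicalClosure _) hinv with h0 | h1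
  · have hmem : ξ ∈ L.range.topologicalClosure :=
      Submodule.le_topologicalClosure _ ⟨1, by
        show π 1 ξ = ξ
        rw [map_one_of_irreducible h]; rfl⟩
    rw [h0, Submodule.mem_bot] at hmem
    exact absurd hmem hξ
  · intro y
    have : y ∈ L.range.topologicalClosure := h1 ▸ Submodule.mem_top
    rw [← SetLike.mem_coe, Submodule.topologicalClosure_coe] at this
    exact this

/-- Irreducible representations with a common vector functional are unitarily equivalent. -/
theorem unitarilyEquivalent_of_inner_eq {π : A →⋆ₙₐ[ℂ] Op G₁} {σ : A →⋆ₙₐ[ℂ] Op G₂}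
    (hπ : IsIrreducibleRep π) (hσ : IsIrreducibleRep σ) {ξ : G₁} {η : G₂} (hξ : ξ ≠ 0)
    (hη : η ≠ 0) (heq : ∀ a, ⟪ξ, π a ξ⟫_ℂ = ⟪η, σ a η⟫_ℂ) : UnitarilyEquivalent π σ := by
  let L₁ : A →ₗ[ℂ] G₁ :=
    { toFun := fun a => π a ξ
      map_add' := fun a b => by simp
      map_smul' := fun z a => by simp }
  let L₂ : A →ₗ[ℂ] G₂ :=
    { toFun := fun a => σ a η
      map_add' := fun a b => by simp
      map_smul' := fun z a => by simp }
  have hn : ∀ a, ‖L₂ a‖ = ‖L₁ a‖ := by
    intro a
    have h1 : ⟪L₁ a, L₁ a⟫_ℂ = ⟪ξ, π (star a * a) ξ⟫_ℂ := by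
      rw [apply_mul_apply, map_star, ContinuousLinearMap.star_eq_adjoint,
        ContinuousLinearMap.adjoint_inner_right]
      rfl
    have h2 : ⟪L₂ a, L₂ a⟫_ℂ = ⟪η, σ (star a * a) η⟫_ℂ := by
      rw [apply_mul_apply, map_star, ContinuousLinearMap.star_eq_adjoint,
        ContinuousLinearMap.adjoint_inner_right]
      rfl
    have h3 := h2.trans ((heq _).symm.trans h1.symm)
    rw [inner_self_eq_norm_sq_to_K, inner_self_eq_norm_sq_to_K] at h3
    exact (pow_left_inj₀ (norm_nonneg _) (norm_nonneg _) two_ne_zero).1 (by exact_mod_cast h3)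
  have hd : DenseRange L₁ := denseRange_orbit hπ hξ
  set U : G₁ →L[ℂ] G₂ := LinearMap.extendOfNorm L₂ L₁ with hU
  have hUe : ∀ a, U (L₁ a) = L₂ a :=
    LinearMap.extendOfNorm_eq hd ⟨1, fun a => by rw [hn, one_mul]⟩
  have hiso : ∀ x, ‖U x‖ = ‖x‖ := fun x =>
    hd.induction_on x (isClosed_eq U.continuous.norm continuous_norm) fun a => by rw [hUe, hn]
  let V : G₁ →ₗᵢ[ℂ] G₂ := ⟨U.toLinearMap, hiso⟩
  have hsurj : Function.Surjective V := fun y => by
    have hc : IsClosed (Set.range V) := V.isometry.isClosedEmbedding.isClosed_range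
    exact hc.closure_subset_iff.2 (Set.range_subset_iff.2 fun a => ⟨L₁ a, hUe a⟩)
      (denseRange_orbit hσ hη y)
  refine ⟨LinearIsometryEquiv.ofSurjective V hsurj, fun a x => ?_⟩
  show U (π a x) = σ a (U x)
  refine hd.induction_on x (isClosed_eq (U.continuous.comp (π a).continuous)
    ((σ a).continuous.comp U.continuous)) fun b => ?_
  have h1 : π a (L₁ b) = L₁ (a * b) := (apply_mul_apply π a b ξ).symm
  rw [h1, hUe, hUe]
  exact apply_mul_apply σ a b η

end Vale.Agent.P070.Club
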