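import Vale.Agent.P070.Club.Goals
import Vale.Agent.P070.Club.Equiv
import Vale.Agent.P070.Club.Chain

/-!
# The union of a good tower is a counterexample to Naimark's problem
-/

namespace Vale.Agent.P070.Club

set_option linter.unusedSectionVars false

open Filter Topology InnerProductSpace

variable {I : Type} [LinearOrder I] [Nonempty I] {S : Sys I}

namespace Colim

variable (L : Colim S)

lemma ι_injective (i : I) : Function.Injective (L.ι i) := by
  refine (injective_iff_map_eq_zero (L.ι i)).2 fun T hT => ?_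
  ext x
  apply (L.J i).injective
  rw [← L.comm i T x, hT]
  simp

lemma norm_ι (i : I) (T : Op (S.N i).K) : ‖L.ι i T‖ = ‖T‖ :=
  NonUnitalStarAlgHom.norm_map (L.ι i) (L.ι_injective i) T

lemma isometry_ι (i : I) : Isometry (L.ι i) :=
  AddMonoidHomClass.isometry_of_norm _ (L.norm_ι i)

lemma map_mono (hS : S.Good) {i j : I} (h : i ≤ j) :
    (S.N i).A.map (L.ι i) ≤ (S.N j).A.map (L.ι j) := by
  rintro _ ⟨x, hx, rfl⟩
  exact ⟨(S.e i j h).ι x, (hS.emb i j h).map_le ⟨x, hx, rfl⟩, L.ι_compat i j h x⟩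

lemma map_le_alg (i : I) : (S.N i).A.map (L.ι i) ≤ L.alg :=
  (le_iSup (fun j => (S.N j).A.map (L.ι j)) i).trans (StarSubalgebra.le_topologicalClosure _)

lemma ι_mem_alg {i : I} {x : Op (S.N i).K} (hx : x ∈ (S.N i).A) : L.ι i x ∈ L.alg :=
  L.map_le_alg i ⟨x, hx, rfl⟩

variable (hS : S.Good) (hb : ∀ f : ℕ → I, ∃ j, ∀ k, f k ≤ j)
include hS hb

/-- The union of the algebras is already closed. -/
lemma exists_stage {a : Op L.K} (ha : a ∈ L.alg) : ∃ i, ∃ x ∈ (S.N i).A, L.ι i x = a := by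
  have hdir : Directed (· ≤ ·) fun i => (S.N i).A.map (L.ι i) := fun i j =>
    ⟨max i j, L.map_mono hS (le_max_left i j), L.map_mono hS (le_max_right i j)⟩
  have ha' : a ∈ closure (⋃ i, ((S.N i).A.map (L.ι i) : Set (Op L.K))) := by
    rw [← StarSubalgebra.coe_iSup_of_directed hdir, ← StarSubalgebra.topologicalClosure_coe]
    exact ha
  obtain ⟨u, hu, hlim⟩ := mem_closure_iff_seq_limit.1 ha'
  choose f hf using fun n => Set.mem_iUnion.1 (hu n)
  obtain ⟨j, hj⟩ := hb f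
  have hc : IsClosed ((L.ι j) '' ((S.N j).A : Set (Op (S.N j).K))) :=
    (L.isometry_ι j).isClosedEmbedding.isClosedMap _ (hS.node j).closed
  obtain ⟨x, hx, hxa⟩ := hc.mem_of_tendsto hlim
    (Eventually.of_forall fun n => L.map_mono hS (hj n) (hf n))
  exact ⟨j, x, hx, hxa⟩

/-- Countably many elements of the union lie in one member above a given one. -/
lemma exists_member (i : I) {C : StarSubalgebra ℂ (Op (S.N i).K)} (hC : (S.N i).mem C)
    {T : Set (Op L.K)} (hT : T.Countable) (hTL : T ⊆ L.alg) :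
    ∃ j, ∃ h : i ≤ j, ∃ C', (S.N j).mem C' ∧ C.map (S.e i j h).ι ≤ C' ∧ T ⊆ L.ι j '' C' := by
  have : Countable T := hT.to_subtype
  choose g x hx hgx using fun t : T => L.exists_stage hS hb (hTL t.2)
  obtain ⟨j, hj⟩ : ∃ j, i ≤ j ∧ ∀ t, g t ≤ j := by
    rcases isEmpty_or_nonempty T with hT0 | hT0
    · exact ⟨i, le_rfl, fun t => isEmptyElim t⟩
    · obtain ⟨e, he⟩ := exists_surjective_nat T
      obtain ⟨j, hj⟩ := hb fun n => max i (g (e n))
      refine ⟨j, (le_max_left _ _).trans (hj 0), fun t => ?_⟩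
      obtain ⟨n, rfl⟩ := he t
      exact (le_max_right _ _).trans (hj n)
  obtain ⟨hij, hgj⟩ := hj
  obtain ⟨c, hcC, hc, hcd⟩ := ((hS.node i).member C hC).separable.exists_countable_dense_subset
  set Z : Set (Op (S.N j).K) := (S.e i j hij).ι '' c ∪ Set.range fun t => (S.e (g t) j (hgj t)).ι (x t)
    with hZ
  have hZA : Z ⊆ (S.N j).A := by
    rintro z (⟨y, hy, rfl⟩ | ⟨t, rfl⟩)
    · exact (hS.emb i j hij).map_le
        ⟨y, ((hS.node i).member C hC).compresses.le (hcC hy), rfl⟩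
    · exact (hS.emb _ j (hgj t)).map_le ⟨x t, hx t, rfl⟩
  obtain ⟨C', hC', hsub⟩ :=
    (hS.node j).cofinal Z ((hc.image _).union (Set.countable_range _)) hZA
  refine ⟨j, hij, C', hC', ?_, fun t ht => ?_⟩
  · rintro _ ⟨y, hy, rfl⟩
    have hcl : IsClosed {z : Op (S.N i).K | L.ι j ((S.e i j hij).ι z) ∈ L.ι j '' C'} := by
      simp only [L.ι_compat]
      exact ((L.isometry_ι j).isClosedEmbedding.isClosedMap _
        ((hS.node j).member C' hC').closed).preimage (L.isometry_ι i).continuous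
    have hy' : L.ι j ((S.e i j hij).ι y) ∈ L.ι j '' C' :=
      closure_minimal (fun z hz =>
        Set.mem_image_of_mem (L.ι j) (hsub (Set.mem_union_left _ (Set.mem_image_of_mem _ hz))))
        hcl (hcd hy)
    obtain ⟨z, hz, hzy⟩ := hy'
    rwa [L.ι_injective j hzy] at hz
  · refine ⟨_, hsub (Set.mem_union_right _ ⟨⟨t, ht⟩, rfl⟩), ?_⟩
    rw [L.ι_compat]
    exact hgx ⟨t, ht⟩

end Colim

section Representations

variable {G : Type} [NormedAddCommGroup G] [InnerProductSpace ℂ G] [CompleteSpace G]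

/-- The restriction of a representation of the union to a member. -/
noncomputable def restrictRep (L : Colim S) (π : L.alg →⋆ₐ[ℂ] Op G) (i : I)
    (C : StarSubalgebra ℂ (Op (S.N i).K)) (h : ∀ x ∈ C, L.ι i x ∈ L.alg) : C →⋆ₐ[ℂ] Op G :=
  π.comp (StarAlgHom.codRestrict ((L.ι i).comp C.subtype) L.alg fun x => h x x.2)

lemma restrictRep_apply (L : Colim S) (π : L.alg →⋆ₐ[ℂ] Op G) (i : I)
    (C : StarSubalgebra ℂ (Op (S.N i).K)) (h : ∀ x ∈ C, L.ι i x ∈ L.alg) (x : C) :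
    restrictRep L π i C h x = π ⟨L.ι i x, h x x.2⟩ := rfl

lemma norm_rep_le (L : Colim S) (π : L.alg →⋆ₐ[ℂ] Op G) (a : L.alg) :
    ‖π a‖ ≤ ‖(a : Op L.K)‖ := by
  let _ : CStarAlgebra L.alg :=
    StarSubalgebra.cstarAlgebra L.alg (h_closed := StarSubalgebra.isClosed_topologicalClosure _)
  exact NonUnitalStarAlgHom.norm_apply_le π a

lemma norm_restrictRep_le (L : Colim S) (π : L.alg →⋆ₐ[ℂ] Op G) (i : I)
    (C : StarSubalgebra ℂ (Op (S.N i).K)) (h : ∀ x ∈ C, L.ι i x ∈ L.alg) (x : C) :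
    ‖restrictRep L π i C h x‖ ≤ ‖(x : Op (S.N i).K)‖ :=
  (norm_rep_le L π _).trans_eq (L.norm_ι i x)

/-- Approximate witnesses in `D` give a reflected vector state. -/
lemma reflects_of_approx (L : Colim S) (π : L.alg →⋆ₐ[ℂ] Op G) {ξ : G} (hξ : ‖ξ‖ = 1) (l : I)
    (D : StarSubalgebra ℂ (Op (S.N l).K)) (hDL : ∀ x ∈ D, L.ι l x ∈ L.alg)
    (h : ∀ x ∈ D, ∀ ε : ℝ, 0 < ε → ∃ y, ∃ hy : y ∈ D, ‖x - y‖ < ε ∧ ∃ β ∈ D,
      ∃ B : L.alg, (B : Op L.K) = L.ι l β ∧ star B = B ∧ ‖(B : Op L.K)‖ ≤ 1 ∧ π B ξ = ξ ∧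
        ‖(B : Op L.K) * (L.ι l y - (inner ℂ ξ (π ⟨L.ι l y, hDL y hy⟩ ξ)) • 1) * (B : Op L.K)‖
          ≤ ε) :
    Reflects (restrictRep L π l D hDL) ξ := by
  intro x ε hε
  obtain ⟨y, hy, hxy, β, hβ, B, hβB, hBs, hBn, hBfix, hBy⟩ := h x x.2 (ε / 4) (by positivity)
  have hβn : ‖β‖ ≤ 1 := by rw [← L.norm_ι l, ← hβB]; exact hBn
  refine ⟨⟨β, hβ⟩, Subtype.ext (L.ι_injective l ?_), hβn, ?_, ?_⟩
  · simp only [StarMemClass.coe_star, map_star, ← hβB]
    exact congrArg (Subtype.val (p := (· ∈ L.alg))) hBs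
  · rw [restrictRep_apply, show (⟨L.ι l β, hDL β hβ⟩ : L.alg) = B from Subtype.ext hβB.symm]
    exact hBfix
  · set cx := inner ℂ ξ (restrictRep L π l D hDL x ξ) with hcx
    set cy := inner ℂ ξ (π ⟨L.ι l y, hDL y hy⟩ ξ) with hcy
    have hc : ‖cx - cy‖ ≤ ε / 4 := by
      have e : cx - cy = inner ℂ ξ (restrictRep L π l D hDL (x - ⟨y, hy⟩) ξ) := by
        rw [map_sub, sub_apply, inner_sub_right, hcx, hcy, restrictRep_apply L π l D hDL ⟨y, hy⟩]
      rw [e]
      refine (norm_inner_le_norm _ _).trans ?_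
      rw [hξ, one_mul]
      refine (ContinuousLinearMap.le_opNorm _ _).trans ?_
      rw [hξ, mul_one]
      exact (norm_restrictRep_le L π l D _ _).trans hxy.le
    have hmain : ‖β * (y - cy • 1) * β‖ ≤ ε / 4 := by
      rw [← L.norm_ι l, map_mul, map_mul, map_sub, map_smul, map_one, ← hβB]
      exact hBy
    have e2 : β * ((x : Op (S.N l).K) - cx • 1) * β
        = β * (y - cy • 1) * β + β * (((x : Op (S.N l).K) - y) - (cx - cy) • 1) * β := by
      rw [← add_mul, ← mul_add]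
      congr 2
      rw [sub_smul]
      abel
    show ‖β * ((x : Op (S.N l).K) - cx • 1) * β‖ ≤ ε
    rw [e2]
    refine (norm_add_le _ _).trans ?_
    have h3 : ‖((x : Op (S.N l).K) - y) - (cx - cy) • (1 : Op (S.N l).K)‖ ≤ ε / 2 := by
      refine (norm_sub_le _ _).trans ?_
      have : ‖(cx - cy) • (1 : Op (S.N l).K)‖ ≤ ε / 4 := by
        rw [norm_smul]
        exact (mul_le_of_le_one_right (norm_nonneg _) ContinuousLinearMap.norm_id_le).trans hc
      linarith
    have h4 : ‖β * (((x : Op (S.N l).K) - y) - (cx - cy) • 1) * β‖ ≤ ε / 2 :=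
      ((norm_mul_le _ _).trans ((mul_le_of_le_one_right (norm_nonneg _) hβn).trans
        ((norm_mul_le _ _).trans (mul_le_of_le_one_left (norm_nonneg _) hβn)))).trans h3
    linarith

/-- A member together with its stage. -/
def MemberAt (S : Sys I) : Type :=
  (i : I) × {C : StarSubalgebra ℂ (Op (S.N i).K) // (S.N i).mem C}

variable (hS : S.Good) (hb : ∀ f : ℕ → I, ∃ j, ∀ k, f k ≤ j) (hU : S.Cont)
include hS hb

/-- A member receiving countably many prescribed elements for a dense set of a given one. -/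
lemma exists_next (L : Colim S) (b : L.alg → ℕ → L.alg) (P : MemberAt S) :
    ∃ Q : MemberAt S, ∃ h : P.1 ≤ Q.1, P.2.1.map (S.e P.1 Q.1 h).ι ≤ Q.2.1 ∧
      ∃ c : Set (Op (S.N P.1).K), c ⊆ P.2.1 ∧ (P.2.1 : Set (Op (S.N P.1).K)) ⊆ closure c ∧
        ∀ x ∈ c, ∀ (hx : L.ι P.1 x ∈ L.alg) (m : ℕ),
          (b ⟨L.ι P.1 x, hx⟩ m : Op L.K) ∈ L.ι Q.1 '' Q.2.1 := by
  obtain ⟨i, C, hC⟩ := P
  obtain ⟨c, hcC, hc, hcd⟩ := ((hS.node i).member C hC).separable.exists_countable_dense_subset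
  let T : Set (Op L.K) := ⋃ x : c, Set.range fun m =>
    (b ⟨L.ι i x, L.ι_mem_alg (((hS.node i).member C hC).compresses.le (hcC x.2))⟩ m : Op L.K)
  have : Countable c := hc.to_subtype
  obtain ⟨j, hij, C', hC', hle, hT⟩ := L.exists_member hS hb i hC (T := T)
    (Set.countable_iUnion fun x => Set.countable_range _)
    (Set.iUnion_subset fun x => Set.range_subset_iff.2 fun m => (b _ m).2)
  exact ⟨⟨j, C', hC'⟩, hij, hle, c, hcC, hcd, fun x hx _ m =>
    hT (Set.mem_iUnion.2 ⟨⟨x, hx⟩, m, rfl⟩)⟩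

/-- A chain of members closed under prescribed witnesses. -/
lemma exists_chain (L : Colim S) (b : L.alg → ℕ → L.alg) :
    ∃ (s : ℕ → I) (hs : Monotone s) (C : ∀ k, StarSubalgebra ℂ (Op (S.N (s k)).K))
      (c : ∀ k, Set (Op (S.N (s k)).K)),
      (∀ k, (S.N (s k)).mem (C k)) ∧
      (∀ k, (C k).map (S.e (s k) (s (k + 1)) (hs k.le_succ)).ι ≤ C (k + 1)) ∧
      (∀ k, c k ⊆ C k) ∧ (∀ k, (C k : Set (Op (S.N (s k)).K)) ⊆ closure (c k)) ∧
      ∀ k, ∀ x ∈ c k, ∀ (hx : L.ι (s k) x ∈ L.alg) (m : ℕ),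
        (b ⟨L.ι (s k) x, hx⟩ m : Op L.K) ∈ L.ι (s (k + 1)) '' C (k + 1) := by
  choose next hnext hmap c hcC hcd hcb using exists_next hS hb L b
  obtain ⟨i₀⟩ := ‹Nonempty I›
  obtain ⟨P, hP⟩ : ∃ P : ℕ → MemberAt S, ∀ k, P (k + 1) = next (P k) :=
    ⟨fun k => next^[k] ⟨i₀, (S.N i₀).C₀₀, (hS.node i₀).base_mem⟩,
      fun k => Function.iterate_succ_apply' next k _⟩
  have hs : Monotone fun k => (P k).1 := monotone_nat_of_le_succ fun k => by
    rw [hP]; exact hnext _
  refine ⟨fun k => (P k).1, hs, fun k => (P k).2.1, fun k => c (P k), fun k => (P k).2.2,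
    fun k => ?_, fun k => hcC _, fun k => hcd _, fun k x hx hxL m => ?_⟩
  · have key : ∀ (Q : MemberAt S) (_ : Q = next (P k)) (h : (P k).1 ≤ Q.1),
        (P k).2.1.map (S.e (P k).1 Q.1 h).ι ≤ Q.2.1 := by
      rintro Q rfl h; exact hmap (P k)
    exact key _ (hP k) _
  · have h1 := hcb (P k) x hx hxL m
    rw [← hP k] at h1
    exact h1

include hU

/-- An irreducible representation of the union reflects a vector state at some member. -/
lemma exists_reflecting_member (L : Colim S) (hR : ReflectsGoal.{0})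
    (π : L.alg →⋆ₐ[ℂ] Op G) (hπ : Irred π) {ξ : G} (hξ : ‖ξ‖ = 1) :
    ∃ (l : I) (D : StarSubalgebra ℂ (Op (S.N l).K)) (_ : (S.N l).mem D)
      (h : ∀ x ∈ D, L.ι l x ∈ L.alg), Reflects (restrictRep L π l D h) ξ := by
  have hrefl := hR L.K G L.alg (StarSubalgebra.isClosed_topologicalClosure _) π hπ ξ hξ
  have hsub : ∀ i C, (S.N i).mem C → ∀ x ∈ C, L.ι i x ∈ L.alg := fun i C hC x hx =>
    L.ι_mem_alg (((hS.node i).member C hC).compresses.le hx)
  choose b hbs hbn hbfix hbx using fun (x : L.alg) (m : ℕ) =>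
    hrefl x (1 / ((m : ℝ) + 1)) (by positivity)
  obtain ⟨s, hs, C, c, hC, hchain, hcC, hcd, hcb⟩ := exists_chain hS hb L b
  obtain ⟨l, hl, D, hD, hDeq⟩ := hU s hs C hC hchain
  refine ⟨l, D, hD, hsub l D hD, reflects_of_approx L π hξ l D _ fun x hx ε hε => ?_⟩
  have hkD : ∀ k, ∀ y ∈ C k, (S.e (s k) l (hl k)).ι y ∈ D := fun k y hy => by
    rw [hDeq]
    exact StarSubalgebra.le_topologicalClosure _
      (le_iSup (fun k => (C k).map (S.e (s k) l (hl k)).ι) k ⟨y, hy, rfl⟩)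
  have hdir : Directed (· ≤ ·) fun k => (C k).map (S.e (s k) l (hl k)).ι := by
    refine (monotone_nat_of_le_succ fun k => ?_).directed_le
    rintro _ ⟨z, hz, rfl⟩
    exact ⟨(S.e (s k) (s (k + 1)) (hs k.le_succ)).ι z, hchain k ⟨z, hz, rfl⟩,
      S.ι_trans _ _ _ _ _ _⟩
  have hxcl : x ∈ closure (⋃ k, (((C k).map (S.e (s k) l (hl k)).ι : StarSubalgebra ℂ _) :
      Set (Op (S.N l).K))) := by
    rw [← StarSubalgebra.coe_iSup_of_directed hdir, ← StarSubalgebra.topologicalClosure_coe,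
      ← hDeq]
    exact hx
  obtain ⟨z, hz, hxz⟩ := Metric.mem_closure_iff.1 hxcl (ε / 2) (by positivity)
  obtain ⟨k, y, hy, rfl⟩ := Set.mem_iUnion.1 hz
  obtain ⟨y', hy', hyy'⟩ := Metric.mem_closure_iff.1 (hcd k hy) (ε / 2) (by positivity)
  rw [dist_eq_norm] at hxz hyy'
  have h1 : ‖(S.e (s k) l (hl k)).ι y - (S.e (s k) l (hl k)).ι y'‖ < ε / 2 := by
    rw [← map_sub]
    exact (NonUnitalStarAlgHom.norm_apply_le _ _).trans_lt hyy'
  have hyL : L.ι (s k) y' ∈ L.alg := hsub _ _ (hC k) y' (hcC k hy')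
  obtain ⟨m, hm⟩ := exists_nat_one_div_lt hε
  obtain ⟨w, hw, hwB⟩ := hcb k y' hy' hyL m
  refine ⟨_, hkD k y' (hcC k hy'),
    (norm_sub_le_norm_sub_add_norm_sub _ _ _).trans_lt ((add_lt_add hxz h1).trans_le (by linarith)),
    (S.e (s (k + 1)) l (hl (k + 1))).ι w, hkD (k + 1) w hw, b ⟨_, hyL⟩ m,
    ((L.ι_compat _ _ _ _).trans hwB).symm, hbs _ _, hbn _ _, hbfix _ _, ?_⟩
  simp only [L.ι_compat]
  exact (hbx _ _).trans hm.le

/-- Every irreducible representation has a vector fixed by the base sequence at some stage. -/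
lemma exists_base_vector (L : Colim S) (hR : ReflectsGoal.{0}) (hV : ExcisedVectorGoal.{0})
    (habs : ∀ i, ∃ j, ∃ h : i ≤ j, Absorbs (S.e i j h))
    (π : L.alg →⋆ₐ[ℂ] Op G) (hπ : Irred π) :
    ∃ (i : I) (η : G), η ≠ 0 ∧ ∀ n (h : L.ι i ((S.N i).p₀ n) ∈ L.alg),
      π ⟨L.ι i ((S.N i).p₀ n), h⟩ η = η := by
  obtain ⟨v, hv⟩ := @exists_ne G hπ.1 0
  set ξ : G := ((‖v‖⁻¹ : ℝ) : ℂ) • v with hξdef
  have hξ : ‖ξ‖ = 1 := by
    rw [hξdef, norm_smul, Complex.norm_real, norm_inv, norm_norm, inv_mul_cancel₀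
      (norm_ne_zero_iff.2 hv)]
  obtain ⟨l, D, hD, hDL, hrefl⟩ := exists_reflecting_member hS hb hU L hR π hπ hξ
  have hmem := (hS.node l).member D hD
  obtain ⟨q, hq, hqfix⟩ := hV (S.N l).K G D hmem.closed hmem.separable hmem.pi
    (restrictRep L π l D hDL) ξ hξ hrefl
  obtain ⟨m, hlm, habs⟩ := habs l
  have hqA : Excised (S.N l).A q := hmem.excised q hq
  obtain ⟨r, hr, hne1, hne2⟩ := habs q hqA
  have hA : ∀ x ∈ (S.N m).A, L.ι m x ∈ L.alg := fun x hx => L.ι_mem_alg hx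
  set πm := restrictRep L π m (S.N m).A hA
  obtain ⟨χ, hχ⟩ := (hS.emb l m hlm).excised q hqA
  obtain ⟨χr, hχr⟩ := hr
  obtain ⟨χ0, hχ0⟩ := (hS.node m).p0_excised
  have hξ0 : ξ ≠ 0 := fun h => by simp [h] at hξ
  have hfix : ∀ n, πm ⟨(S.e l m hlm).ι (q n), hχ.1.mem n⟩ ξ = ξ := by
    intro n
    obtain ⟨χ', hχ'⟩ := hq
    have h1 := hqfix n (hχ'.1.mem n)
    rw [restrictRep_apply] at h1 ⊢
    simp only [L.ι_compat]
    exact h1
  obtain ⟨ζ, hζ, hζfix⟩ := fixed_of_not_inequiv πm (norm_restrictRep_le L π m _ hA) hχ hχr.1 hξ0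
    hfix hne1
  obtain ⟨η, hη, hηfix⟩ := fixed_of_not_inequiv πm (norm_restrictRep_le L π m _ hA) hχr hχ0.1 hζ
    hζfix hne2
  exact ⟨m, η, hη, fun n _ => hηfix n⟩

end Representations

variable (hS : S.Good) (hb : ∀ f : ℕ → I, ∃ j, ∀ k, f k ≤ j) (hU : S.Cont)

include hS in
lemma Colim.ι_p₀ (L : Colim S) (i j : I) (n : ℕ) :
    L.ι i ((S.N i).p₀ n) = L.ι j ((S.N j).p₀ n) := by
  rcases le_total i j with h | h
  · rw [← (hS.emb i j h).p0 n, L.ι_compat]
  · rw [← (hS.emb j i h).p0 n, L.ι_compat]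

include hS hb hU in
/-- The union of a good absorbing tower has property (N) and is not elementary. -/
theorem main_of (hR : ReflectsGoal.{0}) (hV : ExcisedVectorGoal.{0})
    (habs : ∀ i, ∃ j, ∃ h : i ≤ j, Absorbs (S.e i j h)) (L : Colim S) :
    ∃ (A : Type) (_ : CStarAlgebra A),
      PropertyN A ∧ ¬ IsElementary A ∧ ¬ FiniteDimensional ℂ A := by
  classical
  let inst : CStarAlgebra L.alg :=
    StarSubalgebra.cstarAlgebra L.alg (h_closed := StarSubalgebra.isClosed_topologicalClosure _)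
  obtain ⟨i₀⟩ := ‹Nonempty I›
  have hpA : ∀ i n, (S.N i).p₀ n ∈ (S.N i).A := fun i n => by
    obtain ⟨χ, hχ⟩ := (hS.node i).p0_excised
    exact hχ.1.mem n
  -- the base projections are infinitely many different ones
  have hinf : ¬ FiniteDimensional ℂ L.alg := by
    intro hfin
    obtain ⟨χ, hχ⟩ := (hS.node i₀).p0_excised
    let d : ℕ → Op (S.N i₀).K := fun n => (S.N i₀).p₀ n - (S.N i₀).p₀ (n + 1)
    have hp : ∀ m n, m ≤ n → (S.N i₀).p₀ n * (S.N i₀).p₀ m = (S.N i₀).p₀ n := hχ.1.mul_eq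
    have hp' : ∀ m n, m ≤ n → (S.N i₀).p₀ m * (S.N i₀).p₀ n = (S.N i₀).p₀ n := fun m n h => by
      simpa [hχ.1.star_eq] using congrArg star (hp m n h)
    have horth : ∀ m n, m < n → d m * d n = 0 := fun m n h => by
      simp only [d, sub_mul, mul_sub]
      rw [hp' m n h.le, hp' m (n + 1) (by omega), hp' (m + 1) n h, hp' (m + 1) (n + 1) (by omega)]
      abel
    have horth' : ∀ m n, m < n → d n * d m = 0 := fun m n h => by
      simp only [d, sub_mul, mul_sub]
      rw [hp m n h.le, hp (m + 1) n h, hp m (n + 1) (by omega), hp (m + 1) (n + 1) (by omega)]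
      abel
    have hidem : ∀ m, d m * d m = d m := fun m => by
      simp only [d, sub_mul, mul_sub]
      rw [hp m m le_rfl, hp' m (m + 1) m.le_succ, hp m (m + 1) m.le_succ,
        hp (m + 1) (m + 1) le_rfl]
      abel
    have hdA : ∀ n, L.ι i₀ (d n) ∈ L.alg := fun n =>
      L.ι_mem_alg (sub_mem (hpA i₀ n) (hpA i₀ (n + 1)))
    have hli : LinearIndependent ℂ fun n => (⟨L.ι i₀ (d n), hdA n⟩ : L.alg) := by
      refine linearIndependent_iff'.2 fun s g hg m hm => ?_
      have h1 : ∑ n ∈ s, g n • d n = 0 := by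
        apply L.ι_injective i₀
        have := congrArg (Subtype.val (p := (· ∈ L.alg))) hg
        simpa [map_sum, map_smul] using this
      have h2 := congrArg (fun z => d m * z) h1
      simp only [Finset.mul_sum, mul_smul_comm, mul_zero] at h2
      rw [Finset.sum_eq_single m (fun n _ hn => by
        rcases lt_or_gt_of_ne hn with h | h
        · rw [horth' n m h, smul_zero]
        · rw [horth m n h, smul_zero]) (fun h => absurd hm h), hidem] at h2
      exact (smul_eq_zero.1 h2).resolve_right (sub_ne_zero.2 ((hS.node i₀).p0_strict m))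
    have := hli.finite
    exact not_finite ℕ
  refine ⟨L.alg, inst, ⟨?_, ?_⟩, ?_, hinf⟩
  · by_contra hnt
    rw [not_nontrivial_iff_subsingleton] at hnt
    exact hinf inferInstance
  · intro G₁ _ _ _ G₂ _ _ _ π σ hπ hσ
    -- unital versions
    have mk : ∀ (G : Type) [NormedAddCommGroup G] [InnerProductSpace ℂ G] [CompleteSpace G]
        (π : Rep L.alg G), IsIrreducibleRep π → ∃ π' : L.alg →⋆ₐ[ℂ] Op G, Irred π' ∧
          ∀ a, π' a = π a := by
      intro G _ _ _ π hπ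
      refine ⟨{ toFun := π
                map_one' := map_one_of_irreducible hπ
                map_mul' := map_mul π
                map_zero' := map_zero π
                map_add' := map_add π
                commutes' := fun z => by
                  rw [Algebra.algebraMap_eq_smul_one, Algebra.algebraMap_eq_smul_one, map_smul,
                    map_one_of_irreducible hπ]
                map_star' := map_star π }, ⟨?_, hπ.2⟩, fun a => rfl⟩
      obtain ⟨a, ha⟩ := hπ.1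
      by_contra hnt
      rw [not_nontrivial_iff_subsingleton] at hnt
      exact ha (ContinuousLinearMap.ext fun x => Subsingleton.elim _ _)
    obtain ⟨π', hπ'i, hπ'e⟩ := mk G₁ π hπ
    obtain ⟨σ', hσ'i, hσ'e⟩ := mk G₂ σ hσ
    obtain ⟨i, ξ, hξ, hξfix⟩ := exists_base_vector hS hb hU L hR hV habs π' hπ'i
    obtain ⟨j, η, hη, hηfix⟩ := exists_base_vector hS hb hU L hR hV habs σ' hσ'i
    set η' : G₂ := ((‖ξ‖ / ‖η‖ : ℝ) : ℂ) • η with hη'
    have hη'0 : η' ≠ 0 := smul_ne_zero (by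
      simp only [ne_eq, Complex.ofReal_eq_zero, div_eq_zero_iff, norm_eq_zero, hξ, hη, or_self,
        not_false_eq_true]) hη
    have hnorm : ⟪ξ, ξ⟫_ℂ = ⟪η', η'⟫_ℂ := by
      rw [inner_self_eq_norm_sq_to_K, inner_self_eq_norm_sq_to_K, hη', norm_smul,
        Complex.norm_real, Real.norm_of_nonneg (by positivity),
        div_mul_cancel₀ _ (norm_ne_zero_iff.2 hη)]
    refine unitarilyEquivalent_of_inner_eq hπ hσ hξ hη'0 fun a => ?_
    obtain ⟨k, x, hx, hxa⟩ := L.exists_stage hS hb a.2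
    have hk : ∀ y ∈ (S.N k).A, L.ι k y ∈ L.alg := fun y hy => L.ι_mem_alg hy
    obtain ⟨χ, hχ⟩ := (hS.node k).p0_excised
    have key : ∀ (G : Type) [NormedAddCommGroup G] [InnerProductSpace ℂ G] [CompleteSpace G]
        (τ : L.alg →⋆ₐ[ℂ] Op G) (i : I) (ζ : G),
        (∀ n (h : L.ι i ((S.N i).p₀ n) ∈ L.alg), τ ⟨L.ι i ((S.N i).p₀ n), h⟩ ζ = ζ) →
        ⟪ζ, τ a ζ⟫_ℂ = χ x * ⟪ζ, ζ⟫_ℂ := by
      intro G _ _ _ τ i ζ hζ
      have h := inner_of_fixed (restrictRep L τ k _ hk) (norm_restrictRep_le L τ k _ hk) hχ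
        (ξ := ζ) (fun n => by
          rw [restrictRep_apply]
          simp only [L.ι_p₀ hS k i]
          exact hζ n _) ⟨x, hx⟩
      rwa [restrictRep_apply, show (⟨L.ι k x, hk x hx⟩ : L.alg) = a from Subtype.ext hxa] at h
    rw [← hπ'e a, ← hσ'e a, key G₁ π' i ξ hξfix,
      key G₂ σ' j η' (fun n h => by rw [hη', map_smul, hηfix n h]), hnorm]
  · rintro ⟨H, i1, i2, i3, φ, hinj, hrange⟩
    apply hinf
    -- a unital algebra of compact operators is finite dimensional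
    have h1K : φ 1 = (1 : Op H) := by
      ext v
      by_cases hv : v = 0
      · simp [hv]
      have hc : IsCompactOperator (InnerProductSpace.rankOne ℂ v v : Op H) := by
        rw [InnerProductSpace.rankOne_def]
        exact ((isCompactOperator_id_iff_locallyCompactSpace.2
          (inferInstance : LocallyCompactSpace ℂ)).comp_clm (innerSL ℂ v)).clm_comp
            (ContinuousLinearMap.toSpanSingleton ℂ v)
      obtain ⟨a, ha⟩ : InnerProductSpace.rankOne ℂ v v ∈ Set.range (op φ) := hrange ▸ hc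
      have ha' : φ a = InnerProductSpace.rankOne ℂ v v := ha
      have h2 : φ 1 (φ a v) = φ a v := by rw [← apply_mul_apply φ 1 a, one_mul]
      rw [ha', InnerProductSpace.rankOne_apply, map_smul] at h2
      exact smul_right_injective H (inner_self_ne_zero.2 hv) h2
    have hcomp : IsCompactOperator (1 : Op H) := by
      have : (1 : Op H) ∈ Set.range (op φ) := ⟨1, h1K⟩
      rw [hrange] at this
      exact this
    have : FiniteDimensional ℂ H := isCompactOperator_id_iff_finiteDimensional.1 hcomp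
    let φl : L.alg →ₗ[ℂ] Op H :=
      { toFun := φ, map_add' := map_add φ, map_smul' := fun z a => map_smul φ z a }
    exact FiniteDimensional.of_injective φl hinj

end Vale.Agent.P070.Club
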