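import Vale.Agent.P070.Club.Basic

/-!
# Nodes of the tower, embeddings and links
-/

namespace Vale.Agent.P070.Club

/-- A stage of the construction. -/
structure Node where
  K : Type
  [normed : NormedAddCommGroup K]
  [ip : InnerProductSpace ℂ K]
  [complete : CompleteSpace K]
  A : StarSubalgebra ℂ (Op K)
  ξ₀ : K
  p₀ : ℕ → Op K
  C₀₀ : StarSubalgebra ℂ (Op K)
  σ : Op K →ₗ[ℂ] ℂ
  mem : StarSubalgebra ℂ (Op K) → Prop

attribute [instance] Node.normed Node.ip Node.complete

/-- The requirements on a member of the club of a node. -/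
structure Member (N : Node) (C : StarSubalgebra ℂ (Op N.K)) : Prop where
  closed : IsClosed (C : Set (Op N.K))
  separable : TopologicalSpace.IsSeparable (C : Set (Op N.K))
  pi : IsPI C
  compresses : Compresses (cyc C N.ξ₀) C N.A
  excised : ∀ p, Excised C p → Excised N.A p

/-- The invariants of a node. -/
structure Node.Good (N : Node) : Prop where
  closed : IsClosed (N.A : Set (Op N.K))
  norm_xi : ‖N.ξ₀‖ = 1
  p0_mem : ∀ n, N.p₀ n ∈ N.C₀₀
  p0_fix : ∀ n, N.p₀ n N.ξ₀ = N.ξ₀
  p0_strict : IsStrict N.p₀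
  p0_excised : Excised N.A N.p₀
  base_mem : N.mem N.C₀₀
  base_le : ∀ C, N.mem C → N.C₀₀ ≤ C
  member : ∀ C, N.mem C → Member N C
  cofinal : ∀ S : Set (Op N.K), S.Countable → S ⊆ N.A → ∃ C, N.mem C ∧ S ⊆ C
  union : ∀ f : ℕ → StarSubalgebra ℂ (Op N.K), Monotone f → (∀ k, N.mem (f k)) →
    N.mem (⨆ k, f k).topologicalClosure
  σ_state : IsState N.σ
  σ_supp : N.σ (cyc N.C₀₀ N.ξ₀) = 1
  σ_diffuse : Diffuse N.C₀₀ N.σ

/-- An embedding of the space of one node into that of another, with a compatible map of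
operators. -/
structure Emb (M N : Node) where
  J : M.K →ₗᵢ[ℂ] N.K
  ι : Op M.K →⋆ₐ[ℂ] Op N.K
  comm : ∀ T x, ι T (J x) = J (T x)
  xi : J M.ξ₀ = N.ξ₀

variable {M N : Node}

/-- An operator on the small space, acting on its image and zero on the complement. -/
noncomputable def Emb.up (e : Emb M N) (T : Op M.K) : Op N.K :=
  e.J.toContinuousLinearMap.comp (T.comp (ContinuousLinearMap.adjoint e.J.toContinuousLinearMap))

/-- The compression of an operator to the small space. -/
noncomputable def Emb.down (e : Emb M N) (T : Op N.K) : Op M.K :=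
  (ContinuousLinearMap.adjoint e.J.toContinuousLinearMap).comp (T.comp e.J.toContinuousLinearMap)

/-- The projection `1 - ι P + J P J*` for the cyclic projection `P` of `C₀`. -/
noncomputable def Emb.window (e : Emb M N) (C₀ : StarSubalgebra ℂ (Op M.K)) : Op N.K :=
  1 - e.ι (cyc C₀ M.ξ₀) + e.up (cyc C₀ M.ξ₀)

/-- `C` lies over `C₀`. -/
structure Linked (e : Emb M N) (C₀ : StarSubalgebra ℂ (Op M.K))
    (C : StarSubalgebra ℂ (Op N.K)) : Prop where
  map_le : C₀.map e.ι ≤ C
  proj_le : e.ι (cyc C₀ M.ξ₀) * cyc C N.ξ₀ = cyc C N.ξ₀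
  down_mem : ∀ y ∈ C, e.down y ∈ C₀
  compress : ∀ y ∈ C, e.window C₀ * y * e.window C₀ = e.ι (e.down y) * e.window C₀

/-- The invariants of an embedding. -/
structure Emb.Good (e : Emb M N) : Prop where
  map_le : M.A.map e.ι ≤ N.A
  p0 : ∀ n, e.ι (M.p₀ n) = N.p₀ n
  base : M.C₀₀.map e.ι = N.C₀₀
  σ_eq : ∀ T, N.σ T = M.σ (e.down T)
  excised : ∀ p, Excised M.A p → Excised N.A (fun n => e.ι (p n))
  trace : ∀ C, N.mem C → ∃ C₀, M.mem C₀ ∧ Linked e C₀ C

/-- The identity embedding. -/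
noncomputable def Emb.refl (M : Node) : Emb M M where
  J := LinearIsometry.id
  ι := StarAlgHom.id ℂ (Op M.K)
  comm := fun _ _ => rfl
  xi := rfl

/-- Composition of embeddings. -/
noncomputable def Emb.trans {L : Node} (e : Emb L M) (e' : Emb M N) : Emb L N where
  J := e'.J.comp e.J
  ι := e'.ι.comp e.ι
  comm := fun T x => by
    show e'.ι (e.ι T) (e'.J (e.J x)) = e'.J (e.J (T x))
    rw [e'.comm, e.comm]
  xi := by
    show e'.J (e.J L.ξ₀) = N.ξ₀
    rw [e.xi, e'.xi]

/-- Every excised sequence of the small node becomes equivalent to the base one. -/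
def Absorbs (e : Emb M N) : Prop :=
  ∀ q, Excised M.A q → ∃ r, Excised N.A r ∧ ¬ Inequiv N.A (fun n => e.ι (q n)) r ∧
    ¬ Inequiv N.A r N.p₀

end Vale.Agent.P070.Club
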