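import Vale.Agent.P070.Club.Node

/-!
# Data and model of one step
-/

namespace Vale.Agent.P070.Club

/-- A representation of all operators with a distinguished unit vector. -/
structure Fibre (K : Type) [NormedAddCommGroup K] [InnerProductSpace ℂ K] [CompleteSpace K] where
  X : Type
  [normed : NormedAddCommGroup X]
  [ip : InnerProductSpace ℂ X]
  [complete : CompleteSpace X]
  ρ : Op K →⋆ₐ[ℂ] Op X
  η : X
  norm_eta : ‖η‖ = 1

attribute [instance] Fibre.normed Fibre.ip Fibre.complete

/-- The vector functional of a fibre. -/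
noncomputable def Fibre.μ {K : Type} [NormedAddCommGroup K] [InnerProductSpace ℂ K]
    [CompleteSpace K] (F : Fibre K) (T : Op K) : ℂ :=
  inner ℂ F.η (F.ρ T F.η)

variable (K : Type) [NormedAddCommGroup K] [InnerProductSpace ℂ K] [CompleteSpace K]

/-- Directed edges with their range sequences and fibres. -/
structure StepData where
  A : StarSubalgebra ℂ (Op K)
  E : Type
  r : E × Bool → ℕ → Op K
  fib : E × Bool → Option ℕ → Fibre K

variable {K}

/-- The reversed edge. -/
def StepData.bar {d : StepData K} (f : d.E × Bool) : d.E × Bool := (f.1, !f.2)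

/-- The fibre functionals of an edge. -/
noncomputable def StepData.μ (d : StepData K) (f : d.E × Bool) (n : Option ℕ) (T : Op K) : ℂ :=
  (d.fib f n).μ T

/-- The requirements for building a model. -/
structure StepData.Ok (d : StepData K) : Prop where
  closed : IsClosed (d.A : Set (Op K))
  proj : ∀ f, ProjSeq d.A (d.r f)
  eta_none : ∀ f m, (d.fib f none).ρ (d.r f m) (d.fib f none).η = (d.fib f none).η
  eta_some : ∀ f n m, (d.fib f (some n)).ρ (d.r f m) (d.fib f (some n)).η =
    if m ≤ n then (d.fib f (some n)).η else 0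
  tendsto : ∀ f, ∀ x ∈ d.A,
    Filter.Tendsto (fun n => d.μ f (some n) x) Filter.atTop (nhds (d.μ f none x))

/-- The space, operators and relations of one step. -/
structure Model (d : StepData K) where
  H : Type
  [normed : NormedAddCommGroup H]
  [ip : InnerProductSpace ℂ H]
  [complete : CompleteSpace H]
  ι : Op K →⋆ₐ[ℂ] Op H
  J : K →ₗᵢ[ℂ] H
  c : d.E × Bool → Op H
  lev : ℕ → Op H
  comm : ∀ T x, ι T (J x) = J (T x)
  c_star_J : ∀ f x, star (c f) (J x) = 0
  orth : ∀ f g, f ≠ g → ∀ T : Op K, star (c f) * ι T * c g = 0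
  fibre : ∀ f, ∀ x ∈ d.A, star (c f) * ι x * c f =
    ι (dsum (d.r (StepData.bar f)) (fun n => d.μ f n x)) *
      (1 - c (StepData.bar f) * star (c (StepData.bar f)))
  support : ∀ f (T : Op K), (∀ n, (d.fib f n).ρ T (d.fib f n).η = (d.fib f n).η) →
    ι T * c f = c f
  pisom : ∀ f, c f * star (c f) * c f = c f
  intertwine : ∀ f m, ι (d.r f m) * c f = c f * ι (d.r (StepData.bar f) m)
  lev_star : ∀ k, star (lev k) = lev k
  lev_idem : ∀ k, lev k * lev k = lev k
  lev_comm : ∀ k T, lev k * ι T = ι T * lev k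
  lev_succ : ∀ k f, lev (k + 1) * c f = c f * lev k
  lev_zero : ∀ v, lev 0 v = v ↔ v ∈ Set.range J
  lev_total : ∀ v, (∀ k, lev k v = 0) → v = 0

attribute [instance] Model.normed Model.ip Model.complete

/-- The unitary attached to an edge. -/
noncomputable def Model.U {d : StepData K} (M : Model d) (f : d.E × Bool) : Op M.H :=
  M.c f + star (M.c (StepData.bar f))

/-- The closed algebra generated by the image of `C₀` and the unitaries of the edges in `s`. -/
noncomputable def Model.gen {d : StepData K} (M : Model d) (C₀ : StarSubalgebra ℂ (Op K))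
    (s : Set d.E) : StarSubalgebra ℂ (Op M.H) :=
  (StarAlgebra.adjoin ℂ (M.ι '' C₀ ∪ M.U '' {f | f.1 ∈ s})).topologicalClosure

/-- The functional `σ` seen on the new space. -/
noncomputable def Model.liftState {d : StepData K} (M : Model d) (σ : Op K →ₗ[ℂ] ℂ) :
    Op M.H →ₗ[ℂ] ℂ where
  toFun T := σ ((ContinuousLinearMap.adjoint M.J.toContinuousLinearMap).comp
    (T.comp M.J.toContinuousLinearMap))
  map_add' S T := by simp [ContinuousLinearMap.comp_add, ContinuousLinearMap.add_comp]
  map_smul' r T := by simp [ContinuousLinearMap.smul_comp]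

/-- The node following `N`. -/
noncomputable def stepNode (N : Node) {d : StepData N.K}
    (dom : d.E → StarSubalgebra ℂ (Op N.K)) (M : Model d) : Node where
  K := M.H
  A := M.gen N.A Set.univ
  ξ₀ := M.J N.ξ₀
  p₀ n := M.ι (N.p₀ n)
  C₀₀ := N.C₀₀.map M.ι
  σ := M.liftState N.σ
  mem C := ∃ C₀ s, s.Countable ∧ N.mem C₀ ∧ (∀ e ∈ s, dom e ≤ C₀) ∧ C = M.gen C₀ s

/-- The embedding into the following node. -/
noncomputable def stepEmb (N : Node) {d : StepData N.K}
    (dom : d.E → StarSubalgebra ℂ (Op N.K)) (M : Model d) : Emb N (stepNode N dom M) where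
  J := M.J
  ι := M.ι
  comm := M.comm
  xi := rfl

/-- Edge data adapted to a node. -/
structure StepSpec (N : Node) (d : StepData N.K) (dom : d.E → StarSubalgebra ℂ (Op N.K)) :
    Prop where
  A_eq : d.A = N.A
  ok : d.Ok
  dom_mem : ∀ e, N.mem (dom e)
  r_mem : ∀ e b n, d.r (e, b) n ∈ dom e
  r_base : ∀ e, d.r (e, false) = N.p₀
  r_strict : ∀ f, IsStrict (d.r f)
  excises : ∀ f, Excises N.A (d.r f) (d.μ f none)
  diffuse : ∀ f n, Diffuse N.A (d.μ f (some n))
  inequiv_base : ∀ e, Inequiv N.A (d.r (e, true)) N.p₀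
  inequiv : ∀ e e', e ≠ e' → Inequiv N.A (d.r (e, true)) (d.r (e', true))
  maximal : ∀ q, Excised N.A q →
    ¬ Inequiv N.A q N.p₀ ∨ ∃ e, ¬ Inequiv N.A q (d.r (e, true))
  support : ∀ f n C, N.mem C → dom f.1 ≤ C →
    (d.fib f n).ρ (cyc C N.ξ₀) (d.fib f n).η = (d.fib f n).η

end Vale.Agent.P070.Club
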