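import Vale.Agent.P070.Club.StepData

/-!
# Reduced words in the algebra of one step

A reduced word starts with a creation operator or ends with an annihilation operator, in the
sense of `Model.Pre.decomp`.  Together with the coefficients the reduced words span a dense
subspace of `Model.gen`.
-/

universe u

namespace Vale.Agent.P070.Club

open Filter Topology ComplexOrder

/-! ### Differences of a decreasing sequence of projections and their diagonal sums -/

section Dsum

variable {H : Type u} [NormedAddCommGroup H] [InnerProductSpace ℂ H] [CompleteSpace H]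
variable {C : StarSubalgebra ℂ (Op H)} {p : ℕ → Op H}

theorem ProjSeq.mul_eq' (hp : ProjSeq C p) (m n : ℕ) (h : m ≤ n) : p m * p n = p n := by
  simpa [star_mul, hp.star_eq] using congrArg star (hp.mul_eq m n h)

theorem ProjSeq.diff_star (hp : ProjSeq C p) (n : ℕ) :
    star (p n - p (n + 1)) = p n - p (n + 1) := by
  rw [star_sub, hp.star_eq, hp.star_eq]

theorem ProjSeq.diff_mul_self (hp : ProjSeq C p) (n : ℕ) :
    (p n - p (n + 1)) * (p n - p (n + 1)) = p n - p (n + 1) := by
  rw [sub_mul, mul_sub, mul_sub, hp.mul_eq n n le_rfl, hp.mul_eq' n (n + 1) (Nat.le_succ n),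
    hp.mul_eq n (n + 1) (Nat.le_succ n), hp.mul_eq (n + 1) (n + 1) le_rfl]
  abel

theorem ProjSeq.diff_orth (hp : ProjSeq C p) {m n : ℕ} (h : m ≠ n) :
    (p m - p (m + 1)) * (p n - p (n + 1)) = 0 := by
  rcases lt_or_gt_of_ne h with h | h
  · rw [sub_mul, mul_sub, mul_sub, hp.mul_eq' m n h.le, hp.mul_eq' m (n + 1) (by omega),
      hp.mul_eq' (m + 1) n h, hp.mul_eq' (m + 1) (n + 1) (by omega)]
    abel
  · rw [sub_mul, mul_sub, mul_sub, hp.mul_eq n m h.le, hp.mul_eq (n + 1) m h,
      hp.mul_eq n (m + 1) (by omega), hp.mul_eq (n + 1) (m + 1) (by omega)]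
    abel

/-- The square of the norm of `v` dominates the sum of those of its pieces. -/
theorem ProjSeq.sum_norm_sq_le (hp : ProjSeq C p) (v : H) (N : ℕ) :
    ∑ n ∈ Finset.range N, ‖(p n - p (n + 1)) v‖ ^ 2 ≤ ‖v‖ ^ 2 := by
  have hsa : ∀ (q : Op H), star q = q → ∀ u w : H, inner ℂ (q u) w = inner ℂ u (q w) := by
    intro q hq u w
    have hq' : ContinuousLinearMap.adjoint q = q := hq
    calc inner ℂ (q u) w = inner ℂ (ContinuousLinearMap.adjoint q u) w := by rw [hq']
      _ = inner ℂ u (q w) := q.adjoint_inner_left w u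
  have hstep : ∀ n, ‖(p n - p (n + 1)) v‖ ^ 2 + ‖p (n + 1) v‖ ^ 2 = ‖p n v‖ ^ 2 := by
    intro n
    have hsplit : p n v = (p n - p (n + 1)) v + p (n + 1) v := by
      simp only [sub_apply, sub_add_cancel]
    have h0 : inner ℂ ((p n - p (n + 1)) v) (p (n + 1) v) = 0 := by
      rw [hsa _ (hp.diff_star n), ← mul_apply', sub_mul,
        hp.mul_eq' n (n + 1) (Nat.le_succ n), hp.mul_eq (n + 1) (n + 1) le_rfl, sub_self,
        zero_apply, inner_zero_right]
    rw [hsplit, sq, sq, sq]
    exact (norm_add_sq_eq_norm_sq_add_norm_sq_of_inner_eq_zero _ _ h0).symm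
  have htel : ∀ N, ∑ n ∈ Finset.range N, ‖(p n - p (n + 1)) v‖ ^ 2 + ‖p N v‖ ^ 2 = ‖v‖ ^ 2 := by
    intro N
    induction N with
    | zero => simp [hp.zero_eq]
    | succ N ih => rw [Finset.sum_range_succ, add_assoc, hstep N, ih]
  have := htel N
  nlinarith [sq_nonneg ‖p N v‖]
where
  mul_apply' {a b : Op H} {x : H} : (a * b) x = a (b x) := rfl

theorem ProjSeq.norm_sum_le (hp : ProjSeq C p) (t : Finset ℕ) (a : ℕ → ℂ) {ε : ℝ} (hε : 0 ≤ ε)
    (ha : ∀ n ∈ t, ‖a n‖ ≤ ε) : ‖∑ n ∈ t, a n • (p n - p (n + 1))‖ ≤ ε := by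
  refine ContinuousLinearMap.opNorm_le_bound _ hε fun v => ?_
  have hsa : ∀ n (u w : H),
      inner ℂ ((p n - p (n + 1)) u) w = inner ℂ u ((p n - p (n + 1)) w) := by
    intro n u w
    have hq : ContinuousLinearMap.adjoint (p n - p (n + 1)) = p n - p (n + 1) := hp.diff_star n
    calc inner ℂ ((p n - p (n + 1)) u) w
        = inner ℂ (ContinuousLinearMap.adjoint (p n - p (n + 1)) u) w := by rw [hq]
      _ = inner ℂ u ((p n - p (n + 1)) w) := (p n - p (n + 1)).adjoint_inner_left w u
  have key : ∀ s : Finset ℕ, ‖∑ n ∈ s, a n • (p n - p (n + 1)) v‖ ^ 2 =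
      ∑ n ∈ s, ‖a n • (p n - p (n + 1)) v‖ ^ 2 := by
    intro s
    induction s using Finset.induction with
    | empty => simp
    | insert k s hk ih =>
      rw [Finset.sum_insert hk, Finset.sum_insert hk, ← ih, sq, sq, sq]
      refine norm_add_sq_eq_norm_sq_add_norm_sq_of_inner_eq_zero (𝕜 := ℂ) _ _ ?_
      rw [inner_sum]
      refine Finset.sum_eq_zero fun n hn => ?_
      have hne : k ≠ n := fun e => hk (e ▸ hn)
      rw [inner_smul_left, inner_smul_right, hsa]
      have : (p k - p (k + 1)) ((p n - p (n + 1)) v) = 0 := by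
        show ((p k - p (k + 1)) * (p n - p (n + 1))) v = 0
        rw [hp.diff_orth hne]; rfl
      rw [this, inner_zero_right, mul_zero, mul_zero]
  rw [sum_apply]
  simp only [FunLike.coe_smul, Pi.smul_apply]
  obtain ⟨N, hN⟩ : ∃ N, t ⊆ Finset.range N :=
    ⟨t.sup id + 1, fun n hn => Finset.mem_range.2 (Nat.lt_succ_of_le (Finset.le_sup (f := id) hn))⟩
  have h1 : ‖∑ n ∈ t, a n • (p n - p (n + 1)) v‖ ^ 2 ≤ (ε * ‖v‖) ^ 2 := by
    rw [key, mul_pow]
    calc ∑ n ∈ t, ‖a n • (p n - p (n + 1)) v‖ ^ 2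
        ≤ ∑ n ∈ t, ε ^ 2 * ‖(p n - p (n + 1)) v‖ ^ 2 := by
          refine Finset.sum_le_sum fun n hn => ?_
          rw [norm_smul, mul_pow]
          have := ha n hn
          gcongr
      _ = ε ^ 2 * ∑ n ∈ t, ‖(p n - p (n + 1)) v‖ ^ 2 := (Finset.mul_sum _ _ _).symm
      _ ≤ ε ^ 2 * ∑ n ∈ Finset.range N, ‖(p n - p (n + 1)) v‖ ^ 2 := by
          refine mul_le_mul_of_nonneg_left ?_ (sq_nonneg ε)
          exact Finset.sum_le_sum_of_subset_of_nonneg hN fun _ _ _ => sq_nonneg _
      _ ≤ ε ^ 2 * ‖v‖ ^ 2 := mul_le_mul_of_nonneg_left (hp.sum_norm_sq_le v N) (sq_nonneg ε)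
  exact le_of_pow_le_pow_left₀ two_ne_zero (mul_nonneg hε (norm_nonneg _)) h1

theorem ProjSeq.dsum_summable (hp : ProjSeq C p) {μ : Option ℕ → ℂ}
    (hμ : Tendsto (fun n => μ (some n)) atTop (𝓝 (μ none))) :
    Summable fun n => (μ (some n) - μ none) • (p n - p (n + 1)) := by
  refine summable_iff_vanishing_norm.2 fun ε hε => ?_
  obtain ⟨N, hN⟩ := Metric.tendsto_atTop.1 hμ (ε / 2) (half_pos hε)
  refine ⟨Finset.range N, fun t ht => ?_⟩
  refine lt_of_le_of_lt (hp.norm_sum_le t _ (half_pos hε).le fun n hn => ?_) (half_lt_self hε)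
  have hn' : N ≤ n := by
    by_contra h
    exact Finset.disjoint_left.1 ht hn (Finset.mem_range.2 (by omega))
  simpa [dist_eq_norm] using (hN n hn').le

theorem ProjSeq.norm_dsum_le (hp : ProjSeq C p) {μ : Option ℕ → ℂ}
    (hμ : Tendsto (fun n => μ (some n)) atTop (𝓝 (μ none))) {ε : ℝ} (hε : 0 ≤ ε)
    (hb : ∀ n, ‖μ n‖ ≤ ε) : ‖dsum p μ‖ ≤ 3 * ε := by
  have h2 : ‖∑' n : ℕ, (μ (some n) - μ none) • (p n - p (n + 1))‖ ≤ 2 * ε := by
    refine le_of_tendsto ((hp.dsum_summable hμ).hasSum.norm) (Eventually.of_forall fun t => ?_)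
    refine hp.norm_sum_le t _ (by linarith) fun n _ => ?_
    calc ‖μ (some n) - μ none‖ ≤ ‖μ (some n)‖ + ‖μ none‖ := norm_sub_le _ _
      _ ≤ 2 * ε := by linarith [hb (some n), hb none]
  have h1 : ‖μ none • (1 : Op H)‖ ≤ ε := by
    rw [norm_smul]
    calc ‖μ none‖ * ‖(1 : Op H)‖ ≤ ‖μ none‖ * 1 :=
          mul_le_mul_of_nonneg_left ContinuousLinearMap.norm_id_le (norm_nonneg _)
      _ ≤ ε := by linarith [hb none]
  exact le_trans (norm_add_le _ _) (by linarith)

theorem dsum_mem {D : StarSubalgebra ℂ (Op H)} (hD : IsClosed (D : Set (Op H))) {r : ℕ → Op H}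
    (hr : ∀ n, r n ∈ D) (μ : Option ℕ → ℂ) : dsum r μ ∈ D := by
  refine add_mem (SMulMemClass.smul_mem _ (one_mem _)) ?_
  by_cases hs : Summable fun n => (μ (some n) - μ none) • (r n - r (n + 1))
  · exact hD.mem_of_tendsto hs.hasSum
      (Eventually.of_forall fun t => sum_mem fun n _ =>
        SMulMemClass.smul_mem _ (sub_mem (hr n) (hr (n + 1))))
  · rw [tsum_eq_zero_of_not_summable hs]
    exact zero_mem _

theorem dsum_const (r : ℕ → Op H) (a : ℂ) : dsum r (fun _ => a) = a • (1 : Op H) := by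
  simp [dsum]

theorem ProjSeq.dsum_conj {G : Type u} [NormedAddCommGroup G] [InnerProductSpace ℂ G]
    [CompleteSpace G] {D : StarSubalgebra ℂ (Op H)} {q : ℕ → Op H} (hp : ProjSeq C p)
    (hq : ProjSeq D q) {μ : Option ℕ → ℂ}
    (hμ : Tendsto (fun n => μ (some n)) atTop (𝓝 (μ none))) (φ : Op H →⋆ₐ[ℂ] Op G) {X : Op G}
    (hX : ∀ n, φ (p n) * X = X * φ (q n)) : φ (dsum p μ) * X = X * φ (dsum q μ) := by
  have hc : Continuous φ := map_continuous φ
  simp only [dsum, map_add, map_smul, map_one, add_mul, mul_add, smul_mul_assoc, mul_smul_comm,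
    one_mul, mul_one]
  rw [(hp.dsum_summable hμ).map_tsum φ hc, (hq.dsum_summable hμ).map_tsum φ hc,
    ← Summable.tsum_mul_right X
      (show Summable fun n => φ ((μ (some n) - μ none) • (p n - p (n + 1))) from
        (hp.dsum_summable hμ).map φ hc),
    ← Summable.tsum_mul_left X
      (show Summable fun n => φ ((μ (some n) - μ none) • (q n - q (n + 1))) from
        (hq.dsum_summable hμ).map φ hc)]
  congr 1
  refine tsum_congr fun n => ?_
  simp only [map_smul, map_sub, smul_mul_assoc, mul_smul_comm, sub_mul, mul_sub, hX]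

end Dsum

variable {K : Type} [NormedAddCommGroup K] [InnerProductSpace ℂ K] [CompleteSpace K]

/-! ### The fibre functionals -/

namespace StepData

variable {d : StepData K}

@[simp] theorem bar_bar (f : d.E × Bool) : bar (bar f) = f := by
  simp [bar]

theorem bar_ne (f : d.E × Bool) : bar f ≠ f := by
  intro h
  exact Bool.not_ne_self f.2 (congrArg Prod.snd h)

theorem μ_add (f : d.E × Bool) (n : Option ℕ) (S T : Op K) :
    d.μ f n (S + T) = d.μ f n S + d.μ f n T := by
  simp [μ, Fibre.μ]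

theorem μ_sub (f : d.E × Bool) (n : Option ℕ) (S T : Op K) :
    d.μ f n (S - T) = d.μ f n S - d.μ f n T := by
  simp [μ, Fibre.μ]

theorem μ_smul (f : d.E × Bool) (n : Option ℕ) (a : ℂ) (T : Op K) :
    d.μ f n (a • T) = a * d.μ f n T := by
  simp [μ, Fibre.μ]

theorem μ_one (f : d.E × Bool) (n : Option ℕ) : d.μ f n 1 = 1 := by
  simp [μ, Fibre.μ, inner_self_eq_norm_sq_to_K, (d.fib f n).norm_eta]

theorem Ok.μ_diff (hd : d.Ok) (f : d.E × Bool) (n : Option ℕ) (m : ℕ) :
    (d.fib f n).ρ (d.r f m - d.r f (m + 1)) (d.fib f n).η =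
      if n = some m then (d.fib f n).η else 0 := by
  rw [map_sub, sub_apply]
  cases n with
  | none => simp [hd.eta_none]
  | some n =>
    rw [hd.eta_some, hd.eta_some]
    rcases lt_trichotomy m n with h | h | h
    · rw [if_pos h.le, if_pos (show m + 1 ≤ n from h), sub_self, if_neg (by simp; omega)]
    · subst h
      simp
    · rw [if_neg (by omega), if_neg (by omega), sub_self, if_neg (by simp; omega)]

/-- The fibre functionals return the coefficients of a diagonal sum. -/
theorem Ok.μ_dsum (hd : d.Ok) (f : d.E × Bool) {ν : Option ℕ → ℂ}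
    (hν : Tendsto (fun n => ν (some n)) atTop (𝓝 (ν none))) (n : Option ℕ) :
    d.μ f n (dsum (d.r f) ν) = ν n := by
  set F := d.fib f n
  have hs := (hd.proj f).dsum_summable hν
  have hc : Continuous F.ρ := map_continuous F.ρ
  have h1 : F.ρ (dsum (d.r f) ν) F.η = ν n • F.η := by
    rw [dsum, map_add, map_smul, map_one, hs.map_tsum F.ρ hc, add_apply]
    have happ : (∑' m, F.ρ ((ν (some m) - ν none) • (d.r f m - d.r f (m + 1)))) F.η =
        ∑' m, F.ρ ((ν (some m) - ν none) • (d.r f m - d.r f (m + 1))) F.η :=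
      (hs.map F.ρ hc).map_tsum (ContinuousLinearMap.apply ℂ F.X F.η)
        (ContinuousLinearMap.apply ℂ F.X F.η).continuous
    rw [happ]
    simp only [map_smul, FunLike.coe_smul, Pi.smul_apply,
      one_apply_eq_self]
    simp only [F, hd.μ_diff]
    cases n with
    | none => simp
    | some k =>
      rw [tsum_eq_single k fun m hm => by simp [Ne.symm hm]]
      simp [sub_smul]
  show inner ℂ F.η (F.ρ (dsum (d.r f) ν) F.η) = ν n
  rw [h1, inner_smul_right, inner_self_eq_norm_sq_to_K, F.norm_eta]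
  simp

end StepData

/-! ### The operators of a model -/

namespace Model

variable {d : StepData K} (M : Model d)

/-- The compression to the old space. -/
noncomputable def down (T : Op M.H) : Op K :=
  (ContinuousLinearMap.adjoint M.J.toContinuousLinearMap).comp
    (T.comp M.J.toContinuousLinearMap)

theorem down_ι (x : Op K) : M.down (M.ι x) = x := by
  ext v
  show ContinuousLinearMap.adjoint M.J.toContinuousLinearMap (M.ι x (M.J v)) = x v
  rw [M.comm]
  refine ext_inner_left ℂ fun w => ?_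
  rw [ContinuousLinearMap.adjoint_inner_right]
  exact M.J.inner_map_map w (x v)

theorem down_add (S T : Op M.H) : M.down (S + T) = M.down S + M.down T := by
  simp [down, ContinuousLinearMap.comp_add, ContinuousLinearMap.add_comp]

theorem down_smul (a : ℂ) (T : Op M.H) : M.down (a • T) = a • M.down T := by
  simp [down, ContinuousLinearMap.smul_comp]

theorem continuous_down : Continuous M.down := by
  unfold down
  fun_prop

theorem c_star_c (f : d.E × Bool) :
    star (M.c f) * M.c f = 1 - M.c (StepData.bar f) * star (M.c (StepData.bar f)) := by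
  have h := M.fibre f 1 (one_mem d.A)
  simp only [StepData.μ_one, dsum_const, one_smul, map_one, mul_one, one_mul] at h
  exact h

theorem c_bar_mul (f : d.E × Bool) : M.c (StepData.bar f) * M.c f = 0 := by
  have h1 : M.c (StepData.bar f) * (star (M.c (StepData.bar f)) * M.c (StepData.bar f)) =
      M.c (StepData.bar f) := by rw [← mul_assoc, M.pisom]
  rw [← h1, M.c_star_c, StepData.bar_bar, mul_assoc, sub_mul, one_mul, M.pisom, sub_self,
    mul_zero]

theorem U_star (f : d.E × Bool) : star (M.U f) = M.U (StepData.bar f) := by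
  simp [U, add_comm]

theorem U_star_mul (f : d.E × Bool) : star (M.U f) * M.U f = 1 := by
  have h1 := M.c_bar_mul f
  have h2 : star (M.c f) * star (M.c (StepData.bar f)) = 0 := by
    rw [← star_mul, h1, star_zero]
  simp only [U, star_add, star_star, add_mul, mul_add, h1, h2, M.c_star_c, add_zero, zero_add,
    sub_add_cancel]

theorem U_bar_mul (f : d.E × Bool) : M.U (StepData.bar f) * M.U f = 1 := by
  rw [← U_star, M.U_star_mul]

theorem U_mul_bar (f : d.E × Bool) : M.U f * M.U (StepData.bar f) = 1 := by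
  simpa using M.U_bar_mul (StepData.bar f)

theorem U_intertwine (hd : d.Ok) (f : d.E × Bool) (m : ℕ) :
    M.ι (d.r f m) * M.U f = M.U f * M.ι (d.r (StepData.bar f) m) := by
  have h := congrArg star (M.intertwine (StepData.bar f) m)
  simp only [star_mul, ← map_star, (hd.proj _).star_eq, StepData.bar_bar] at h
  simp only [U, mul_add, add_mul, M.intertwine f m, h]

theorem U_dsum (hd : d.Ok) (f : d.E × Bool) {μ : Option ℕ → ℂ}
    (hμ : Tendsto (fun n => μ (some n)) atTop (𝓝 (μ none))) :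
    M.ι (dsum (d.r f) μ) * M.U f = M.U f * M.ι (dsum (d.r (StepData.bar f)) μ) :=
  (hd.proj f).dsum_conj (hd.proj _) hμ M.ι fun n => M.U_intertwine hd f n

/-! ### Reduced words -/

/-- `Pre M C₀ s g x₀ P f`: `P` is a reduced word with first coefficient `x₀`, first edge `g` and
last edge `f`, with no coefficient after the last unitary. -/
inductive Pre (C₀ : StarSubalgebra ℂ (Op K)) (s : Set d.E) :
    d.E × Bool → Op K → Op M.H → d.E × Bool → Prop
  | one {g : d.E × Bool} {x : Op K} : x ∈ C₀ → g.1 ∈ s → Pre C₀ s g x (M.ι x * M.U g) g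
  | snoc {g f k : d.E × Bool} {x₀ x : Op K} {P : Op M.H} : Pre C₀ s g x₀ P f → x ∈ C₀ →
      k.1 ∈ s → (k = StepData.bar f → ∀ n, d.μ k n x = 0) →
      Pre C₀ s g x₀ (P * M.ι x * M.U k) k

variable {M} {C₀ : StarSubalgebra ℂ (Op K)} {s : Set d.E}

theorem Pre.mem {g f : d.E × Bool} {x₀ : Op K} {P : Op M.H} (h : M.Pre C₀ s g x₀ P f) :
    x₀ ∈ C₀ ∧ g.1 ∈ s ∧ f.1 ∈ s := by
  induction h with
  | one hx hg => exact ⟨hx, hg, hg⟩
  | snoc _ _ hk _ ih => exact ⟨ih.1, ih.2.1, hk⟩

theorem middle_eq_zero (hle : C₀ ≤ d.A) {f k : d.E × Bool} {x : Op K} (hx : x ∈ C₀)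
    (hk : k = StepData.bar f → ∀ n, d.μ k n x = 0) :
    star (M.c (StepData.bar f)) * M.ι x * M.c k = 0 := by
  by_cases h : k = StepData.bar f
  · rw [← h, M.fibre k x (hle hx)]
    simp [hk h, dsum_const]
  · exact M.orth _ _ (Ne.symm h) x

/-- A reduced word starts with a creation or ends with an annihilation. -/
theorem Pre.decomp (hle : C₀ ≤ d.A) {g f : d.E × Bool} {x₀ : Op K} {P : Op M.H}
    (h : M.Pre C₀ s g x₀ P f) :
    ∃ S T : Op M.H, P = M.ι x₀ * M.c g * S + T * star (M.c (StepData.bar f)) := by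
  induction h with
  | @one x hx hg => exact ⟨1, M.ι x, by simp [U, mul_add]⟩
  | @snoc f k x₀ x P _ hx hk hred ih =>
    obtain ⟨S, T, rfl⟩ := ih
    refine ⟨S * M.ι x * M.U k, T * star (M.c (StepData.bar f)) * M.ι x, ?_⟩
    have h0 : T * star (M.c (StepData.bar f)) * M.ι x * M.c k = 0 := by
      have := middle_eq_zero (M := M) hle hx hred
      simp only [mul_assoc] at this ⊢
      rw [this, mul_zero]
    simp only [U, add_mul, mul_add, ← mul_assoc, h0]
    abel

/-- The word after its first unitary is trivial or again a reduced word. -/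
theorem Pre.tail {g f : d.E × Bool} {x₀ : Op K} {P : Op M.H} (h : M.Pre C₀ s g x₀ P f) :
    ∃ Q, P = M.ι x₀ * M.U g * Q ∧ ((Q = 1 ∧ f = g) ∨
      ∃ k x, M.Pre C₀ s k x Q f ∧ (k = StepData.bar g → ∀ n, d.μ k n x = 0)) := by
  induction h with
  | one hx hg => exact ⟨1, (mul_one _).symm, Or.inl ⟨rfl, rfl⟩⟩
  | @snoc f k x₀ x P _ hx hk hred ih =>
    obtain ⟨Q, rfl, hQ⟩ := ih
    refine ⟨Q * M.ι x * M.U k, by simp only [mul_assoc], Or.inr ?_⟩
    rcases hQ with ⟨rfl, rfl⟩ | ⟨j, y, hQ, hj⟩
    · exact ⟨k, x, by simpa using Pre.one hx hk, hred⟩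
    · exact ⟨j, y, Pre.snoc hQ hx hk hred, hj⟩

theorem Pre.down_eq_zero (hle : C₀ ≤ d.A) {g f : d.E × Bool} {x₀ : Op K} {P : Op M.H}
    (h : M.Pre C₀ s g x₀ P f) (x : Op K) : M.down (P * M.ι x) = 0 := by
  obtain ⟨S, T, rfl⟩ := h.decomp hle
  ext v
  refine ext_inner_left ℂ fun w => ?_
  show inner ℂ w (ContinuousLinearMap.adjoint M.J.toContinuousLinearMap
    (((M.ι x₀ * M.c g * S + T * star (M.c (StepData.bar f))) * M.ι x) (M.J v))) = inner ℂ w 0
  rw [ContinuousLinearMap.adjoint_inner_right, inner_zero_right]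
  show inner ℂ (M.J w) (M.ι x₀ (M.c g (S (M.ι x (M.J v)))) +
    T (star (M.c (StepData.bar f)) (M.ι x (M.J v)))) = 0
  rw [M.comm x v, M.c_star_J, map_zero, add_zero]
  rw [← ContinuousLinearMap.adjoint_inner_left (M.ι x₀), ← ContinuousLinearMap.star_eq_adjoint,
    ← map_star, M.comm, ← ContinuousLinearMap.adjoint_inner_left (M.c g),
    ← ContinuousLinearMap.star_eq_adjoint, M.c_star_J, inner_zero_left]

/-- Every element of `gen C₀ s` lies in the closed span of coefficients and reduced words. -/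
theorem gen_induction (hd : d.Ok) (hle : C₀ ≤ d.A) (hC : IsClosed (C₀ : Set (Op K)))
    (hr : ∀ f : d.E × Bool, f.1 ∈ s → ∀ n, d.r f n ∈ C₀) (motive : Op M.H → Prop)
    (closed : IsClosed {y | motive y}) (add : ∀ y z, motive y → motive z → motive (y + z))
    (smul : ∀ (a : ℂ) y, motive y → motive (a • y)) (plain : ∀ x ∈ C₀, motive (M.ι x))
    (word : ∀ g x₀ P f, M.Pre C₀ s g x₀ P f → ∀ x ∈ C₀, motive (P * M.ι x))
    {y : Op M.H} (hy : y ∈ M.gen C₀ s) : motive y := by
  set S : Submodule ℂ (Op M.H) :=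
    { carrier := {y | motive y}
      add_mem' := fun {a b} => add a b
      zero_mem' := by simpa using plain 0 (zero_mem _)
      smul_mem' := fun a y => smul a y }
  set T : Set (Op M.H) :=
    M.ι '' C₀ ∪ {y | ∃ g x₀ P f, M.Pre C₀ s g x₀ P f ∧ ∃ x ∈ C₀, y = P * M.ι x}
  have hTS : Submodule.span ℂ T ≤ S := by
    refine Submodule.span_le.2 ?_
    rintro z (⟨x, hx, rfl⟩ | ⟨g, x₀, P, f, hP, x, hx, rfl⟩)
    · exact plain x hx
    · exact word g x₀ P f hP x hx
  set G : Set (Op M.H) := M.ι '' C₀ ∪ M.U '' {f | f.1 ∈ s}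
  suffices hmain : ∀ z ∈ StarAlgebra.adjoin ℂ G, z ∈ Submodule.span ℂ T by
    refine closure_minimal (fun z hz => hTS (hmain z hz)) closed ?_
    exact hy
  intro z hz
  have hstar : star G ⊆ G := by
    rintro w hw
    rw [Set.mem_star] at hw
    rcases hw with ⟨x, hx, hx'⟩ | ⟨f, hf, hf'⟩
    · exact Or.inl ⟨star x, star_mem hx, by rw [map_star, hx', star_star]⟩
    · exact Or.inr ⟨StepData.bar f, hf, by rw [← U_star, hf', star_star]⟩
  rw [← StarSubalgebra.mem_toSubalgebra, StarAlgebra.adjoin_toSubalgebra,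
    Set.union_eq_self_of_subset_right hstar] at hz
  rw [← Subalgebra.mem_toSubmodule, Algebra.adjoin_eq_span] at hz
  refine Submodule.span_le.2 ?_ hz
  intro w hw
  induction hw using Submonoid.closure_induction_right with
  | one => exact Submodule.subset_span (Or.inl ⟨1, one_mem _, map_one _⟩)
  | mul_right w hw' a ha ih =>
    clear hw'
    suffices h : ∀ t ∈ T, t * a ∈ Submodule.span ℂ T by
      induction ih using Submodule.span_induction with
      | mem t ht => exact h t ht
      | zero => simp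
      | add u v _ _ hu hv => rw [add_mul]; exact add_mem hu hv
      | smul b u _ hu => rw [smul_mul_assoc]; exact Submodule.smul_mem _ b hu
    intro t ht
    rcases ha with ⟨y, hy', rfl⟩ | ⟨k, hk, rfl⟩
    · rcases ht with ⟨x, hx, rfl⟩ | ⟨g, x₀, P, f, hP, x, hx, rfl⟩
      · exact Submodule.subset_span (Or.inl ⟨x * y, mul_mem hx hy', map_mul _ _ _⟩)
      · exact Submodule.subset_span (Or.inr ⟨g, x₀, P, f, hP, x * y, mul_mem hx hy',
          by rw [map_mul, mul_assoc]⟩)
    · have hword : ∀ {g : d.E × Bool} {x₀ : Op K} {P : Op M.H} {f : d.E × Bool},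
          M.Pre C₀ s g x₀ P f → ∀ x ∈ C₀, (k = StepData.bar f → ∀ n, d.μ k n x = 0) →
          P * M.ι x * M.U k ∈ Submodule.span ℂ T := by
        intro g x₀ P f hP x hx hred
        exact Submodule.subset_span (Or.inr ⟨g, x₀, _, k, Pre.snoc hP hx hk hred, 1, one_mem _,
          by rw [map_one, mul_one]⟩)
      rcases ht with ⟨x, hx, rfl⟩ | ⟨g, x₀, P, f, hP, x, hx, rfl⟩
      · exact Submodule.subset_span (Or.inr ⟨k, x, _, k, Pre.one hx hk, 1, one_mem _,
          by rw [map_one, mul_one]⟩)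
      · by_cases hkf : k = StepData.bar f
        · set ν : Option ℕ → ℂ := fun n => d.μ k n x
          have hν : Tendsto (fun n => ν (some n)) atTop (𝓝 (ν none)) :=
            hd.tendsto k x (hle hx)
          have hD : dsum (d.r k) ν ∈ C₀ := dsum_mem hC (hr k hk) ν
          have hsplit : P * M.ι x * M.U k =
              P * M.ι (x - dsum (d.r k) ν) * M.U k +
                P * M.U k * M.ι (dsum (d.r (StepData.bar k)) ν) := by
            rw [map_sub, mul_sub, sub_mul, mul_assoc P (M.U k), ← M.U_dsum hd k hν, ← mul_assoc,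
              sub_add_cancel]
          rw [hsplit]
          refine add_mem (hword hP _ (sub_mem hx hD) fun _ n => ?_) ?_
          · rw [StepData.μ_sub, hd.μ_dsum k hν, sub_self]
          · have hf : f.1 ∈ s := hP.mem.2.2
            have hD' : dsum (d.r (StepData.bar k)) ν ∈ C₀ := dsum_mem hC (hr (StepData.bar k) hk) ν
            cases hP with
            | one hx₀ hg =>
              refine Submodule.subset_span (Or.inl ⟨x₀ * dsum (d.r (StepData.bar k)) ν,
                mul_mem hx₀ hD', ?_⟩)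
              rw [hkf, mul_assoc (M.ι x₀), M.U_mul_bar, mul_one, map_mul]
            | snoc hP' hy' hg hred =>
              refine Submodule.subset_span (Or.inr ⟨_, _, _, _, hP', _, mul_mem hy' hD', ?_⟩)
              rw [hkf, mul_assoc _ (M.U f), M.U_mul_bar, mul_one, map_mul, mul_assoc]
        · exact hword hP x hx fun h => absurd h hkf

/-- The compression of an element of `gen C₀ s` to the old space lies in `C₀`. -/
theorem down_mem (hd : d.Ok) (hle : C₀ ≤ d.A) (hC : IsClosed (C₀ : Set (Op K)))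
    (hr : ∀ f : d.E × Bool, f.1 ∈ s → ∀ n, d.r f n ∈ C₀) {y : Op M.H} (hy : y ∈ M.gen C₀ s) :
    M.down y ∈ C₀ := by
  refine gen_induction hd hle hC hr (fun y => M.down y ∈ C₀) (hC.preimage M.continuous_down)
    ?_ ?_ ?_ ?_ hy
  · exact fun y z h1 h2 => by rw [down_add]; exact add_mem h1 h2
  · exact fun a y h => by rw [down_smul]; exact SMulMemClass.smul_mem _ h
  · exact fun x hx => by rw [down_ι]; exact hx
  · exact fun g x₀ P f hP x _ => by rw [hP.down_eq_zero hle]; exact zero_mem _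

/-- An operator commuting with the coefficients and killing the creations compresses `gen C₀ s`
to the coefficients. -/
theorem compress_gen (hd : d.Ok) (hle : C₀ ≤ d.A) (hC : IsClosed (C₀ : Set (Op K)))
    (hr : ∀ f : d.E × Bool, f.1 ∈ s → ∀ n, d.r f n ∈ C₀) {W : Op M.H} (hW : star W = W)
    (hidem : W * W = W) (hcomm : ∀ x ∈ C₀, W * M.ι x = M.ι x * W)
    (hkill : ∀ f : d.E × Bool, f.1 ∈ s → W * M.c f = 0) {y : Op M.H} (hy : y ∈ M.gen C₀ s) :
    W * y * W = M.ι (M.down y) * W := by
  refine gen_induction hd hle hC hr (fun y => W * y * W = M.ι (M.down y) * W) ?_ ?_ ?_ ?_ ?_ hy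
  · exact isClosed_eq ((continuous_const.mul continuous_id).mul continuous_const)
      (((map_continuous M.ι).comp M.continuous_down).mul continuous_const)
  · intro y z h1 h2
    rw [mul_add, add_mul, h1, h2, down_add, map_add, add_mul]
  · intro a y h
    rw [mul_smul_comm, smul_mul_assoc, h, down_smul, map_smul, smul_mul_assoc]
  · intro x hx
    rw [down_ι, hcomm x hx, mul_assoc, hidem]
  · intro g x₀ P f hP x hx
    have hcreate : ∀ f : d.E × Bool, f.1 ∈ s → star (M.c f) * W = 0 := by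
      intro f hf
      rw [← hW, ← star_mul, hkill f hf, star_zero]
    rw [hP.down_eq_zero hle, map_zero, zero_mul]
    obtain ⟨S, T, rfl⟩ := hP.decomp hle
    obtain ⟨hx₀, hg, hf⟩ := hP.mem
    have h1 : W * (M.ι x₀ * M.c g) = 0 := by
      rw [← mul_assoc, hcomm x₀ hx₀, mul_assoc, hkill g hg, mul_zero]
    have h2 : star (M.c (StepData.bar f)) * M.ι x * W = 0 := by
      rw [mul_assoc, ← hcomm x hx, ← mul_assoc, hcreate (StepData.bar f) hf, zero_mul]
    have e1 : W * (M.ι x₀ * M.c g * S * M.ι x) * W = 0 := by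
      rw [← mul_assoc W, ← mul_assoc W, h1, zero_mul, zero_mul, zero_mul]
    have e2 : W * (T * star (M.c (StepData.bar f)) * M.ι x) * W = 0 := by
      simp only [mul_assoc] at h2 ⊢
      rw [h2, mul_zero, mul_zero]
    rw [add_mul, mul_add, add_mul, e1, e2, add_zero]

end Model

end Vale.Agent.P070.Club
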